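import Vale.Agent.P269.H471.Defs

/-!
# The coefficients of the Virasoro operators
-/

open Finset

namespace Vale.Agent.P269.H471

open Polynomial in
/-- The polynomial `∏_{j < K} (s + x + j)`. -/
noncomputable def braPoly (K : ℕ) (x : ℂ) : ℂ[X] :=
  ∏ j ∈ range K, (Polynomial.X + Polynomial.C (x + j))

theorem bra_eq (K i : ℕ) (x : ℂ) : bra K i x = (braPoly K x).coeff i := rfl

theorem braPoly_succ (K : ℕ) (x : ℂ) :
    braPoly (K + 1) x = braPoly K x * (Polynomial.X + Polynomial.C (x + K)) := by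
  unfold braPoly; rw [Finset.prod_range_succ]

theorem braPoly_succ' (K : ℕ) (x : ℂ) :
    braPoly (K + 1) (x - 1) = braPoly K x * (Polynomial.X + Polynomial.C (x - 1)) := by
  unfold braPoly
  rw [Finset.prod_range_succ']
  congr 1
  · apply Finset.prod_congr rfl
    intro j _
    congr 2
    push_cast; ring
  · simp

theorem braPoly_natDegree_le (K : ℕ) (x : ℂ) : (braPoly K x).natDegree ≤ K := by
  induction K with
  | zero => simp [braPoly]
  | succ K ih =>
    rw [braPoly_succ]
    refine (Polynomial.natDegree_mul_le).trans ?_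
    have : (Polynomial.X + Polynomial.C (x + K)).natDegree ≤ 1 := by
      rw [Polynomial.natDegree_X_add_C]
    omega

theorem bra_gt {K i : ℕ} (h : K < i) (x : ℂ) : bra K i x = 0 := by
  rw [bra_eq]
  exact Polynomial.coeff_eq_zero_of_natDegree_lt ((braPoly_natDegree_le K x).trans_lt h)

@[simp] theorem bra_zero_zero (x : ℂ) : bra 0 0 x = 1 := by simp [bra]

theorem bra_succ_zero (K : ℕ) (x : ℂ) : bra (K + 1) 0 x = bra K 0 x * (x + K) := by
  rw [bra_eq, bra_eq, braPoly_succ, Polynomial.mul_coeff_zero]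
  simp

theorem bra_succ_succ (K i : ℕ) (x : ℂ) :
    bra (K + 1) (i + 1) x = bra K i x + bra K (i + 1) x * (x + K) := by
  rw [bra_eq, bra_eq, bra_eq, braPoly_succ, mul_add, Polynomial.coeff_add,
    Polynomial.coeff_mul_X, Polynomial.coeff_mul_C]

theorem bra_top (K : ℕ) (x : ℂ) : bra K K x = 1 := by
  induction K with
  | zero => simp
  | succ K ih => rw [bra_succ_succ, ih, bra_gt (Nat.lt_succ_self K)]; ring

theorem bra_next (K : ℕ) (x : ℂ) : bra (K + 1) K x = (K + 1) * x + (K + 1) * K / 2 := by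
  induction K with
  | zero => rw [bra_succ_zero]; simp
  | succ K ih => rw [bra_succ_succ, ih, bra_top]; push_cast; ring

theorem bra_diff (K i : ℕ) (x : ℂ) :
    bra (K + 1) i x - bra (K + 1) i (x - 1) = (K + 1) * bra K i x := by
  rw [bra_eq, bra_eq, bra_eq, ← Polynomial.coeff_sub, braPoly_succ, braPoly_succ',
    ← mul_sub]
  have : (Polynomial.X + Polynomial.C (x + K)) - (Polynomial.X + Polynomial.C (x - 1))
      = Polynomial.C ((K : ℂ) + 1) := by
    rw [add_sub_add_left_eq_sub, ← Polynomial.C_sub]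
    congr 1
    ring
  rw [this, Polynomial.coeff_mul_C]
  ring

theorem bra_diff' (K i : ℕ) (x : ℂ) :
    bra (K + 1) i (x + 1) - bra (K + 1) i x = (K + 1) * bra K i (x + 1) := by
  have := bra_diff K i (x + 1)
  rwa [add_sub_cancel_right] at this

theorem braPoly_reflect (K : ℕ) (x : ℂ) :
    braPoly K (-x - (K - 1)) = (-1) ^ K * (braPoly K x).comp (-Polynomial.X) := by
  unfold braPoly
  rw [Polynomial.prod_comp, ← Finset.prod_range_reflect]
  have h : ∀ j ∈ range K, (Polynomial.X + Polynomial.C (-x - ((K : ℂ) - 1) + ((K - 1 - j : ℕ) : ℂ)))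
      = (-1) * (Polynomial.X + Polynomial.C (x + j)).comp (-Polynomial.X) := by
    intro j hj
    rw [Finset.mem_range] at hj
    have h1 : ((K - 1 - j : ℕ) : ℂ) = K - 1 - j := by
      have : K - 1 - j + (1 + j) = K := by omega
      have h2 : ((K - 1 - j : ℕ) : ℂ) + (1 + j) = K := by exact_mod_cast this
      linear_combination h2
    rw [h1]
    simp only [Polynomial.add_comp, Polynomial.X_comp, Polynomial.C_comp]
    have : -x - ((K : ℂ) - 1) + (K - 1 - j) = -(x + j) := by ring
    rw [this, Polynomial.C_neg]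
    ring
  rw [Finset.prod_congr rfl h, Finset.prod_mul_distrib]
  simp

theorem bra_reflect (K i : ℕ) (x : ℂ) :
    bra K i (-x - (K - 1)) = (-1) ^ (K + i) * bra K i x := by
  rw [bra_eq, bra_eq, braPoly_reflect]
  have h : ((-1 : Polynomial ℂ)) ^ K = Polynomial.C ((-1 : ℂ) ^ K) := by simp
  have h2 : (-Polynomial.X : Polynomial ℂ) = Polynomial.C (-1) * Polynomial.X := by simp
  rw [h, Polynomial.coeff_C_mul, h2, Polynomial.comp_C_mul_X_coeff, pow_add]
  ring

end Vale.Agent.P269.H471
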