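import Mathlib

/-!
# Virasoro constraints for complete intersections: definitions

Cohomological data of a smooth complete intersection, systems of descendant
Gromov-Witten numbers, and the coefficients of the Virasoro constraints.
-/

open Finset

namespace Vale.Agent.P269.H471

/-- Numerical type of a complete intersection of dimension at least two:
`N` is the dimension of the projective space, `d` the list of degrees of the equations. -/
structure CIType where
  /-- dimension of the ambient projective space -/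
  N : ℕ
  /-- the degrees of the equations -/
  d : List ℕ
  pos : ∀ e ∈ d, 1 ≤ e
  dim_ge : d.length + 2 ≤ N

namespace CIType

/-- The complex dimension of `X`. -/
def D (T : CIType) : ℕ := T.N - T.d.length

/-- The index `r = N + 1 - ∑ d_i`: the first Chern class of `X` is `r` times the
hyperplane class `h`. -/
def index (T : CIType) : ℤ := T.N + 1 - (T.d.sum : ℤ)

/-- The degree `∏ d_i` of `X`, the integral of `h ^ D`. -/
def degree (T : CIType) : ℕ := T.d.prod

/-- The total Chern class `(1 + h) ^ (N + 1) / ∏ (1 + d_i h)` as a power series in `h`. -/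
noncomputable def chern (T : CIType) : PowerSeries ℚ :=
  (1 + PowerSeries.X) ^ (T.N + 1) *
    (T.d.map fun e : ℕ =>
      PowerSeries.invOfUnit (1 + PowerSeries.C (e : ℚ) * PowerSeries.X) 1).prod

/-- The integral over `X` of `c_j(X) * h ^ (D - j)`. -/
noncomputable def chernNumber (T : CIType) (j : ℕ) : ℚ :=
  T.degree * PowerSeries.coeff j T.chern

/-- The characteristic power series of the Hirzebruch `chi_y` genus,
`x * (1 + y * exp (-x * (1 + y))) / (1 - exp (-x * (1 + y)))`, that is
`x + ∑ B_n * ((1 + y) * x) ^ n / n!` with `B_n` the Bernoulli numbers (`B_1 = -1/2`). -/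
noncomputable def genusSeries : PowerSeries (Polynomial ℚ) :=
  PowerSeries.X + PowerSeries.mk fun n =>
    Polynomial.C (bernoulli n / (n.factorial : ℚ)) * (1 + Polynomial.X) ^ n

/-- The Hirzebruch genus `∑ (-1)^q h^{p,q} y^p` of the complete intersection, by
Hirzebruch-Riemann-Roch. -/
noncomputable def chiY (T : CIType) : Polynomial ℚ :=
  Polynomial.C (T.degree : ℚ) * PowerSeries.coeff T.D (genusSeries ^ (T.N + 1) *
    (T.d.map fun e : ℕ =>
      PowerSeries.invOfUnit (PowerSeries.rescale (e : Polynomial ℚ) genusSeries) 1).prod)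

end CIType

/-- The Koszul sign of two parities. -/
def sg (a b : ZMod 2) : ℂ := if a = 1 ∧ b = 1 then -1 else 1

/-- Cohomological data of a smooth complete intersection `X` of type `T`: a homogeneous
basis `phi_b`, `b : B`, of `H^*(X; ℂ)` with Hodge bidegrees `(p b, q b)`, the Poincare
pairing `η` and the cup product with the hyperplane class `h`. -/
structure Coh (T : CIType) (B : Type) [Fintype B] [DecidableEq B] where
  /-- first Hodge degree -/
  p : B → ℕ
  /-- second Hodge degree -/
  q : B → ℕ
  /-- index of the unit class -/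
  e : B
  p_e : p e = 0
  q_e : q e = 0
  /-- `η a b` is the integral of `phi_a * phi_b` -/
  η : Matrix B B ℂ
  /-- `h * phi_a = ∑ b, H a b * phi_b` -/
  H : Matrix B B ℂ
  η_symm : ∀ a b, η a b = sg ((p a + q a : ℕ) : ZMod 2) ((p b + q b : ℕ) : ZMod 2) * η b a
  η_deg : ∀ a b, η a b ≠ 0 → p a + p b = T.D ∧ q a + q b = T.D
  η_unit : IsUnit η.det
  H_deg : ∀ a b, H a b ≠ 0 → p b = p a + 1 ∧ q b = q a + 1
  H_adj : H * η = η * H.transpose
  /-- the integral of `h ^ D` is the degree -/
  top : (H ^ T.D * η) e e = T.degree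
  /-- Lefschetz: outside the middle degree there is exactly one class of type `(j, j)`
  for every `j ≤ D`, and no other class -/
  lefschetz : ∀ b, p b + q b ≠ T.D → p b = q b ∧ p b ≤ T.D
  lefschetz_unique : ∀ b b', p b + q b ≠ T.D → p b = p b' → q b = q b' → b = b'
  lefschetz_exists : ∀ j ≤ T.D, ∃ b, p b = j ∧ q b = j
  /-- the Hodge numbers are those of a complete intersection of type `T` -/
  hodge : ∑ b, (-1 : Polynomial ℚ) ^ q b * Polynomial.X ^ p b = T.chiY

namespace Coh

variable {T : CIType} {B : Type} [Fintype B] [DecidableEq B] (X : Coh T B)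

/-- The cohomological parity of an insertion. The insertion `(m, b)` stands for
`τ_m(phi_b)`. -/
def par (x : ℕ × B) : ZMod 2 := ((X.p x.2 + X.q x.2 : ℕ) : ZMod 2)

/-- The Hodge grading `μ = p - D / 2`. -/
noncomputable def mu (b : B) : ℂ := (X.p b : ℂ) - (T.D : ℂ) / 2

/-- The matrix `R` of the cup product with the first Chern class. -/
noncomputable def R : Matrix B B ℂ := (T.index : ℂ) • X.H

/-- The Euler characteristic, the supertrace of `1`. -/
noncomputable def euler : ℂ := ∑ b, (-1 : ℂ) ^ (X.p b + X.q b)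

/-- The supertrace of `μ ^ 2`. -/
noncomputable def strMuSq : ℂ := ∑ b, (-1 : ℂ) ^ (X.p b + X.q b) * X.mu b ^ 2

/-- The Koszul sign for moving the insertion `x` through the list `J`. -/
def sgn (x : ℕ × B) (J : List (ℕ × B)) : ℂ := sg (X.par x) ((J.map X.par).sum)

/-- `shuffle F G I` is the sum over all ways of distributing the entries of the list `I` over
two lists `J`, `J'` (keeping the order) of `± F J * G J'`, with the Koszul sign of the
reordering of `I` as `J ++ J'`. -/
noncomputable def shuffle : (List (ℕ × B) → ℂ) → (List (ℕ × B) → ℂ) → List (ℕ × B) → ℂ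
  | F, G, [] => F [] * G []
  | F, G, x :: I =>
      shuffle (fun J => F (x :: J)) G I + shuffle (fun J => X.sgn x J * F J) (fun J => G (x :: J)) I

end Coh

section Ops

variable {B : Type}

/-- Evaluation at the insertion `(n, b)`, and `0` when the descendant index `n` is
negative. -/
def ev (n : ℤ) (b : B) : (ℕ × B → ℂ) →ₗ[ℂ] ℂ :=
  if 0 ≤ n then LinearMap.proj (n.toNat, b) else 0

/-- `ins A F I` is the sum over all entries `x` of the list `I` of the value of `F` on the list
obtained from `I` by replacing this entry `x` by `A x` (a linear combination of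
insertions, given as a linear functional). -/
def ins (A : ℕ × B → (ℕ × B → ℂ) →ₗ[ℂ] ℂ) : (List (ℕ × B) → ℂ) → List (ℕ × B) → ℂ
  | _, [] => 0
  | F, x :: I => A x (fun y => F (y :: I)) + ins A (fun J => F (x :: J)) I

/-- `bra K i x` is the coefficient of `s ^ i` in `∏_{j < K} (s + x + j)`; in the usual
terms this is `[x]^k_i` with `K = k + 1`. -/
noncomputable def bra (K i : ℕ) (x : ℂ) : ℂ :=
  (∏ j ∈ range K, (Polynomial.X + Polynomial.C (x + j))).coeff i

/-- The sum of `f i r s` over all `i, r, s ≥ 0` with `i + r + s + 2 = K`. -/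
noncomputable def quadSum : ℕ → (ℕ → ℕ → ℕ → ℂ) → ℂ
  | 0, _ => 0
  | 1, _ => 0
  | K + 2, f => ∑ u ∈ antidiagonal K, ∑ v ∈ antidiagonal u.2, f u.1 v.1 v.2

end Ops

/-- The lowering operator `τ_m(phi_a) ↦ τ_{m-1}(M phi_a)` of the string equation (`M = 1`)
and of the divisor equation (`M = H`); it is zero for `m = 0`. -/
noncomputable def lower {B : Type} [Fintype B] (M : Matrix B B ℂ) (x : ℕ × B) :
    (ℕ × B → ℂ) →ₗ[ℂ] ℂ :=
  ∑ b, M x.2 b • ev ((x.1 : ℤ) - 1) b

/-- `two M I` is `M a b` when `I` is the list `[τ_0(phi_a), τ_0(phi_b)]`, and `0` for all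
other lists `I`. -/
def two {B : Type} (M : Matrix B B ℂ) : List (ℕ × B) → ℂ
  | [(0, a), (0, b)] => M a b
  | _ => 0

/-- A system of descendant numbers with the standard properties of the descendant
Gromov-Witten invariants of `X`. Here `E` is the monoid of effective curve classes,
`deg β` the degree of `β` against the hyperplane class and `corr g β I` the
descendant invariant of genus `g` and class `β` with the list `I` of insertions. -/
structure Desc {T : CIType} {B : Type} [Fintype B] [DecidableEq B] (X : Coh T B)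
    (E : Type) [AddCommMonoid E] [HasAntidiagonal E] [DecidableEq E] where
  /-- degree of a curve class -/
  deg : E →+ ℕ
  /-- the descendant invariants -/
  corr : ℕ → E → List (ℕ × B) → ℂ
  /-- graded symmetry -/
  symm : ∀ g β J x y I,
    corr g β (J ++ x :: y :: I) = sg (X.par x) (X.par y) * corr g β (J ++ y :: x :: I)
  /-- dimension axiom, first Hodge degree -/
  dim_p : ∀ g β I, corr g β I ≠ 0 →
    (I.map fun x => (x.1 : ℤ) + X.p x.2).sum =
      (1 - (g : ℤ)) * (T.D - 3) + T.index * deg β + I.length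
  /-- dimension axiom, second Hodge degree -/
  dim_q : ∀ g β I, corr g β I ≠ 0 →
    (I.map fun x => (x.1 : ℤ) + X.q x.2).sum =
      (1 - (g : ℤ)) * (T.D - 3) + T.index * deg β + I.length
  /-- unstable invariants of class zero are zero by convention -/
  unstable_zero : ∀ I, I.length ≤ 2 → corr 0 0 I = 0
  unstable_one : corr 1 0 [] = 0
  /-- string equation -/
  string : ∀ g β I, corr g β ((0, X.e) :: I) =
    ins (lower 1) (corr g β) I + (if g = 0 ∧ β = 0 then two X.η I else 0)
  /-- dilaton equation -/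
  dilaton : ∀ g β I, corr g β ((1, X.e) :: I) =
    (2 * (g : ℂ) - 2 + I.length) * corr g β I +
      (if g = 1 ∧ β = 0 ∧ I = [] then (T.chernNumber T.D : ℂ) / 24 else 0)
  /-- divisor equation for the hyperplane class -/
  divisor : ∀ g β I, ∑ b, X.H X.e b * corr g β ((0, b) :: I) =
    (deg β : ℂ) * corr g β I + ins (lower X.H) (corr g β) I +
      (if g = 0 ∧ β = 0 then two (X.H * X.η) I else 0) -
      (if g = 1 ∧ β = 0 ∧ I = [] then (T.chernNumber (T.D - 1) : ℂ) / 24 else 0)
  /-- topological recursion relation in genus zero -/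
  trr : ∀ (β : E) (m : ℕ) (a : B) (I : List (ℕ × B)) (y z : ℕ × B),
    corr 0 β ((m + 1, a) :: (I ++ [y, z])) =
      ∑ v ∈ antidiagonal β, ∑ b, ∑ c, X.η⁻¹ b c *
        X.shuffle (fun J => corr 0 v.1 ((m, a) :: (J ++ [(0, b)])))
          (fun J => corr 0 v.2 ((0, c) :: (J ++ [y, z]))) I

namespace Desc

variable {T : CIType} {B : Type} [Fintype B] [DecidableEq B] {X : Coh T B}
  {E : Type} [AddCommMonoid E] [HasAntidiagonal E] [DecidableEq E] (S : Desc X E)

/-- The dimension `(1 - g)(D - 3) + c_1(X).β` of the moduli space of stable maps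
without marked points. -/
def vdim (g : ℕ) (β : E) : ℤ := (1 - (g : ℤ)) * (T.D - 3) + T.index * S.deg β

end Desc

namespace Coh

variable {T : CIType} {B : Type} [Fintype B] [DecidableEq B] (X : Coh T B)

/-- The linear part of the Virasoro operator `L_k`, `K = k + 1`:
`τ_m(phi_a) ↦ ∑_i [μ_a + m + 1/2]^k_i τ_{m + k - i}(R^i phi_a)`. -/
noncomputable def opL (K : ℕ) (x : ℕ × B) : (ℕ × B → ℂ) →ₗ[ℂ] ℂ :=
  ∑ i ∈ range (K + 1), bra K i (X.mu x.2 + x.1 + 1 / 2) •
    ∑ b, (X.R ^ i) x.2 b • ev ((x.1 : ℤ) + K - 1 - i) b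

/-- The coefficients of the quadratic part of the Virasoro operator `L_k`, `K = k + 1`. -/
noncomputable def quadCoeff (K i r : ℕ) (a c : B) : ℂ :=
  ∑ b, (-1 : ℂ) ^ (r + 1) * X.η⁻¹ a b * bra K i (-X.mu a - r - 1 / 2) * (X.R ^ i) b c

end Coh

namespace Desc

variable {T : CIType} {B : Type} [Fintype B] [DecidableEq B] {X : Coh T B}
  {E : Type} [AddCommMonoid E] [HasAntidiagonal E] [DecidableEq E] (S : Desc X E)

/-- The invariants of genus `g - 1`, zero for `g = 0`. -/
def pred : ℕ → E → List (ℕ × B) → ℂ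
  | 0, _, _ => 0
  | g + 1, β, I => S.corr g β I

/-- The two ways in which a pair of extra insertions `y₁, y₂` enters the quadratic part of the
Virasoro operators in genus `g` and class `β`: on one component of genus `g - 1`, or on two
components of genera `g₁ + g₂ = g` and classes `β₁ + β₂ = β`. -/
noncomputable def pair (g : ℕ) (β : E) (y₁ y₂ : ℕ × B) (I : List (ℕ × B)) : ℂ :=
  S.pred g β (y₁ :: y₂ :: I) + ∑ u ∈ antidiagonal g, ∑ v ∈ antidiagonal β,
    X.shuffle (fun J => S.corr u.1 v.1 (J ++ [y₁])) (fun J => S.corr u.2 v.2 (y₂ :: J)) I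

/-- The coefficient of `ħ ^ (g - 1) Q ^ β` and the insertions `I` in `Z⁻¹ L_k Z`, where
`K = k + 1`, so `K = 0, 1, 2, …` stand for `L_{-1}, L_0, L_1, …`. -/
noncomputable def vir (K g : ℕ) (β : E) (I : List (ℕ × B)) : ℂ :=
  ins (X.opL K) (S.corr g β) I - X.opL K (1, X.e) (fun y => S.corr g β (y :: I)) +
  (1 / 2) * quadSum K (fun i r s => ∑ a, ∑ c, X.quadCoeff K i r a c *
    S.pair g β (r, a) (s, c) I) +
  (if g = 0 ∧ β = 0 then two (X.R ^ K * X.η) I else 0) +
  (if K = 1 ∧ g = 1 ∧ β = 0 ∧ I = [] then X.euler / 16 - X.strMuSq / 4 else 0)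

/-- The essential constraints of genus `g` and class `β`: the pairs `(k + 1, I)` with `k ≥ 1`
such that `I` contains no `τ_0(1)`, no `τ_1(1)` and, for `D ≠ 2`, no `τ_0(h)`, and such that
`L_k` and `I` have the right dimension, `∑ (2 m + p + q - 2) = 2 (vdim - k)`. -/
def Essential (g : ℕ) (β : E) (KI : ℕ × List (ℕ × B)) : Prop :=
  2 ≤ KI.1 ∧
  (∀ x ∈ KI.2, x ≠ (0, X.e) ∧ x ≠ (1, X.e) ∧
    (T.D ≠ 2 → ¬ (x.1 = 0 ∧ X.p x.2 = 1 ∧ X.q x.2 = 1))) ∧
  (KI.2.map fun x => 2 * (x.1 : ℤ) + X.p x.2 + X.q x.2 - 2).sum =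
    2 * (S.vdim g β - (KI.1 - 1))

end Desc

end Vale.Agent.P269.H471
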