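import Vale.Agent.P269.H471.Str

/-!
# Graded symmetry and the dimension property of the Virasoro constraints
-/

open Finset

namespace Vale.Agent.P269.H471

variable {T : CIType} {B : Type} [Fintype B] [DecidableEq B] {X : Coh T B}

theorem GS.insD {A : ℕ × B → (ℕ × B → ℂ) →ₗ[ℂ] ℂ} (hA : PP X A) {F : List (ℕ × B) → ℂ}
    (h : GS X F) : GS X (insD X A F) := by
  have h1 := h.ins hA
  have h2 : GS X (fun I => A (1, X.e) (fun y => F (y :: I))) :=
    GS.lin (A (1, X.e)) (fun y I => F (y :: I)) (fun y => h.cons y)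
  have h3 := h1.add (h2.smul (-1))
  have : H471.insD X A F = fun J => H471.ins A F J + -1 * A (1, X.e) (fun y => F (y :: J)) := by
    funext J
    unfold H471.insD
    ring
  rw [this]
  exact h3

theorem GS.two {N : Matrix B B ℂ} (hN : ∀ a b, N a b =
    sg ((X.p a + X.q a : ℕ) : ZMod 2) ((X.p b + X.q b : ℕ) : ZMod 2) * N b a) :
    GS X (H471.two N) := by
  intro J x y I
  have hl : ∀ L : List (ℕ × B), 2 < L.length → H471.two N L = 0 := by
    intro L hL
    match L, hL with
    | a :: b :: c :: L, _ => exact two_long N a b c L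
  by_cases h : J = [] ∧ I = []
  · obtain ⟨rfl, rfl⟩ := h
    obtain ⟨m, a⟩ := x
    obtain ⟨n, b⟩ := y
    simp only [List.nil_append]
    cases m <;> cases n <;> simp only [H471.two, mul_zero]
    exact hN a b
  · have h2 : 2 < (J ++ x :: y :: I).length := by
      simp only [List.length_append, List.length_cons]
      rcases List.eq_nil_or_concat J with hJ | ⟨J', z, hJ⟩
      · rcases List.eq_nil_or_concat I with hI | ⟨I', z, hI⟩
        · exact absurd ⟨hJ, hI⟩ h
        · rw [hI]; simp
          omega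
      · rw [hJ]; simp
        omega
    have h3 : 2 < (J ++ y :: x :: I).length := by
      simpa using h2
    rw [hl _ h2, hl _ h3, mul_zero]

theorem R_pow_eta_symm (K : ℕ) (a b : B) : (X.R ^ K * X.η) a b =
    sg ((X.p a + X.q a : ℕ) : ZMod 2) ((X.p b + X.q b : ℕ) : ZMod 2) * (X.R ^ K * X.η) b a := by
  have h1 : (X.R ^ K * X.η) b a = (X.η * (X.R ^ K).transpose) b a := by rw [eta_pow_adj]
  rw [h1, Matrix.mul_apply, Matrix.mul_apply, Finset.mul_sum]
  apply Finset.sum_congr rfl
  intro c _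
  rw [Matrix.transpose_apply]
  by_cases h0 : (X.R ^ K) a c = 0
  · simp [h0]
  · rw [X.η_symm c b]
    have : ((X.p c + X.q c : ℕ) : ZMod 2) = ((X.p a + X.q a : ℕ) : ZMod 2) :=
      (MDeg.R_pow K).par h0 0 0
    rw [this]
    ring

section

variable {E : Type} [AddCommMonoid E] [HasAntidiagonal E] [DecidableEq E] (S : Desc X E)

theorem pair_GS (g : ℕ) (β : E) (y₁ y₂ : ℕ × B) : GS X (S.pair g β y₁ y₂) := by
  have : S.pair g β y₁ y₂ = fun I => S.pred g β (y₁ :: y₂ :: I) + ∑ u ∈ antidiagonal g,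
        ∑ v ∈ antidiagonal β, X.shuffle (fun J => S.corr u.1 v.1 (J ++ [y₁]))
          (fun J => S.corr u.2 v.2 (y₂ :: J)) I := rfl
  rw [this]
  apply GS.add
  · exact ((pred_GS S g β).cons y₁).cons y₂
  · apply GS.sum
    intro u _
    apply GS.sum
    intro v _
    exact ((corr_GS S u.1 v.1).append [y₁]).shuffle ((corr_GS S u.2 v.2).cons y₂)

theorem vir_GS (K g : ℕ) (β : E) : GS X (S.vir K g β) := by
  have e0 : S.vir K g β = fun I => insD X (X.opL K) (S.corr g β) I +
    (1 / 2) * quadSum K (fun i r s => ∑ a, ∑ c, X.quadCoeff K i r a c *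
      S.pair g β (r, a) (s, c) I) +
    (if g = 0 ∧ β = 0 then two (X.R ^ K * X.η) I else 0) +
    (if K = 1 ∧ g = 1 ∧ β = 0 ∧ I = [] then X.euler / 16 - X.strMuSq / 4 else 0) := rfl
  rw [e0]
  apply GS.add
  · apply GS.add
    · apply GS.add
      · exact (corr_GS S g β).insD (PP_opL K)
      · apply GS.smul
        apply GS.quadSum K (fun i r s I => ∑ a, ∑ c, X.quadCoeff K i r a c *
          S.pair g β (r, a) (s, c) I)
        intro i r s
        apply GS.sum
        intro a _
        apply GS.sum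
        intro c _
        exact (pair_GS S g β (r, a) (s, c)).smul _
    · by_cases h : g = 0 ∧ β = 0
      · simp only [h, and_self, if_true]
        exact GS.two (R_pow_eta_symm K)
      · simp only [h, if_false]
        exact GS.zero
  · intro J x y I
    simp

end

/-! ### weights -/

/-- The excess of an insertion: twice its contribution to the dimension count. -/
def wt (X : Coh T B) (x : ℕ × B) : ℤ := 2 * (x.1 : ℤ) + X.p x.2 + X.q x.2 - 2

/-- The excess of a list of insertions. -/
def Wt (X : Coh T B) (I : List (ℕ × B)) : ℤ := (I.map (wt X)).sum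

@[simp] theorem Wt_nil : Wt X [] = 0 := rfl

@[simp] theorem Wt_cons (x : ℕ × B) (I : List (ℕ × B)) : Wt X (x :: I) = wt X x + Wt X I := by
  simp [Wt]

theorem Wt_append (I J : List (ℕ × B)) : Wt X (I ++ J) = Wt X I + Wt X J := by
  simp [Wt]

/-- functions supported in one excess -/
def Hom (X : Coh T B) (F : List (ℕ × B) → ℂ) (w : ℤ) : Prop := ∀ J, Wt X J ≠ w → F J = 0

/-- operators changing the excess by `d` -/
def HomOp (X : Coh T B) (A : ℕ × B → (ℕ × B → ℂ) →ₗ[ℂ] ℂ) (d : ℤ) : Prop :=
  ∀ x G, (∀ y, wt X y = wt X x + d → G y = 0) → A x G = 0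

theorem Hom.cons {F : List (ℕ × B) → ℂ} {w : ℤ} (h : Hom X F w) (x : ℕ × B) :
    Hom X (fun J => F (x :: J)) (w - wt X x) := by
  intro J hJ
  apply h
  rw [Wt_cons]
  omega

theorem Hom.snoc {F : List (ℕ × B) → ℂ} {w : ℤ} (h : Hom X F w) (x : ℕ × B) :
    Hom X (fun J => F (J ++ [x])) (w - wt X x) := by
  intro J hJ
  apply h
  rw [Wt_append, Wt_cons, Wt_nil]
  omega

theorem Hom.ins {A : ℕ × B → (ℕ × B → ℂ) →ₗ[ℂ] ℂ} {d : ℤ} (hA : HomOp X A d)
    {F : List (ℕ × B) → ℂ} {w : ℤ} (h : Hom X F w) : Hom X (H471.ins A F) (w - d) := by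
  intro I
  induction I generalizing F w with
  | nil => intro _; rfl
  | cons x I ih =>
    intro hI
    rw [Wt_cons] at hI
    rw [ins_cons, ih (h.cons x) (by omega), add_zero]
    apply hA
    intro y hy
    apply h
    rw [Wt_cons]
    omega

theorem Hom.op {A : ℕ × B → (ℕ × B → ℂ) →ₗ[ℂ] ℂ} {d : ℤ} (hA : HomOp X A d) (x : ℕ × B)
    {F : List (ℕ × B) → ℂ} {w : ℤ} (h : Hom X F w) :
    Hom X (fun I => A x (fun y => F (y :: I))) (w - d - wt X x) := by
  intro I hI
  apply hA
  intro y hy
  apply h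
  rw [Wt_cons]
  omega

theorem Hom.smul {F : List (ℕ × B) → ℂ} {w : ℤ} (c : ℂ) (h : Hom X F w) :
    Hom X (fun J => c * F J) w := by
  intro J hJ
  simp only
  rw [h J hJ, mul_zero]

theorem Hom.shuffle {F G : List (ℕ × B) → ℂ} {w w' : ℤ} (hF : Hom X F w) (hG : Hom X G w') :
    Hom X (X.shuffle F G) (w + w') := by
  intro I
  induction I generalizing F G w w' with
  | nil =>
    intro h
    rw [shuffle_nil]
    rw [Wt_nil] at h
    by_cases h1 : w = 0
    · rw [hG [] (by rw [Wt_nil]; omega), mul_zero]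
    · rw [hF [] (by rw [Wt_nil]; omega), zero_mul]
  | cons x I ih =>
    intro h
    rw [Wt_cons] at h
    rw [shuffle_cons, ih (hF.cons x) hG (by omega)]
    have h2 : Hom X (fun J => X.sgn x J * F J) w := by
      intro J hJ
      simp only
      rw [hF J hJ, mul_zero]
    rw [ih h2 (hG.cons x) (by omega), add_zero]

theorem wt_e (m : ℕ) : wt X (m, X.e) = 2 * m - 2 := by
  simp [wt, X.p_e, X.q_e]

theorem HomOp_lower {M : Matrix B B ℂ} {w : ℕ} (hM : MDeg X M w) :
    HomOp X (lower M) (2 * w - 2) := by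
  intro x G hG
  obtain ⟨m, a⟩ := x
  cases m with
  | zero => rw [lower_zero]; rfl
  | succ n =>
    rw [lower_succ]
    apply Finset.sum_eq_zero
    intro b _
    by_cases h0 : M a b = 0
    · rw [h0, zero_mul]
    · rw [hG (n, b), mul_zero]
      have := hM a b h0
      unfold wt
      push_cast
      omega

theorem HomOp_opL (K : ℕ) : HomOp X (X.opL K) (2 * K - 2) := by
  intro x G hG
  obtain ⟨m, a⟩ := x
  rw [opL_apply]
  apply Finset.sum_eq_zero
  intro i _
  rw [Finset.sum_eq_zero, mul_zero]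
  intro b _
  by_cases h0 : (X.R ^ i) a b = 0
  · simp [h0]
  · rcases lt_or_ge ((m : ℤ) + K - 1 - i) 0 with hn | hn
    · rw [ev_neg hn]; simp
    · obtain ⟨n, hn'⟩ := Int.eq_ofNat_of_zero_le hn
      simp only
      rw [hn', ev_nat, hG (n, b), mul_zero]
      have := MDeg.R_pow i a b h0
      unfold wt
      simp only
      omega

section

variable {E : Type} [AddCommMonoid E] [HasAntidiagonal E] [DecidableEq E] (S : Desc X E)

theorem map_sum_wt (I : List (ℕ × B)) : Wt X I =
    (I.map fun x => (x.1 : ℤ) + X.p x.2).sum + (I.map fun x => (x.1 : ℤ) + X.q x.2).sum -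
      2 * I.length := by
  induction I with
  | nil => simp
  | cons x I ih =>
    rw [Wt_cons, ih]
    simp only [List.map_cons, List.sum_cons, List.length_cons]
    unfold wt
    push_cast
    ring

theorem corr_Hom (g : ℕ) (β : E) : Hom X (S.corr g β) (2 * S.vdim g β) := by
  intro I hI
  by_contra h
  apply hI
  rw [map_sum_wt, S.dim_p g β I h, S.dim_q g β I h]
  unfold Desc.vdim
  ring

theorem pred_Hom (g : ℕ) (β : E) : Hom X (S.pred g β) (2 * S.vdim g β + 2 * (T.D - 3)) := by
  cases g with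
  | zero => intro J _; rfl
  | succ g =>
    have h := corr_Hom S g β
    have : 2 * S.vdim (g + 1) β + 2 * ((T.D : ℤ) - 3) = 2 * S.vdim g β := by
      unfold Desc.vdim
      push_cast
      ring
    rw [this]
    exact h

theorem vdim_add (g₁ g₂ : ℕ) (β₁ β₂ : E) :
    S.vdim g₁ β₁ + S.vdim g₂ β₂ = S.vdim (g₁ + g₂) (β₁ + β₂) + (T.D - 3) := by
  unfold Desc.vdim
  rw [map_add]
  push_cast
  ring

theorem pair_Hom (g : ℕ) (β : E) (y₁ y₂ : ℕ × B) : Hom X (S.pair g β y₁ y₂)
    (2 * S.vdim g β + 2 * (T.D - 3) - wt X y₁ - wt X y₂) := by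
  intro I hI
  unfold Desc.pair
  have h1 := ((pred_Hom S g β).cons y₁).cons y₂ I hI
  simp only at h1
  rw [h1, zero_add]
  apply Finset.sum_eq_zero
  intro u hu
  apply Finset.sum_eq_zero
  intro v hv
  rw [HasAntidiagonal.mem_antidiagonal] at hu hv
  apply ((corr_Hom S u.1 v.1).snoc y₁).shuffle ((corr_Hom S u.2 v.2).cons y₂)
  have := vdim_add S u.1 u.2 v.1 v.2
  rw [hu, hv] at this
  omega

theorem vir_Hom (K g : ℕ) (β : E) : Hom X (S.vir K g β) (2 * S.vdim g β - (2 * K - 2)) := by
  intro I hI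
  rw [vir_eq]
  have e1 : insD X (X.opL K) (S.corr g β) I = 0 := by
    unfold insD
    have h1 := (corr_Hom S g β).ins (HomOp_opL K) I hI
    have h2 := (corr_Hom S g β).op (HomOp_opL K) (1, X.e) I (by rw [wt_e]; push_cast; omega)
    simp only at h2
    rw [h1, h2, sub_zero]
  have e2 : quadSum K (fun i r s => ∑ a, ∑ c, X.quadCoeff K i r a c *
      S.pair g β (r, a) (s, c) I) = 0 := by
    rw [← quadSum_zero K]
    apply quadSum_congr
    intro i r s hirs
    apply Finset.sum_eq_zero
    intro a _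
    apply Finset.sum_eq_zero
    intro c _
    by_cases h0 : X.quadCoeff K i r a c = 0
    · rw [h0, zero_mul]
    · rw [quadCoeff_eq] at h0
      have h1 := right_ne_zero_of_mul h0
      rw [Matrix.mul_apply] at h1
      obtain ⟨b, _, hb⟩ := Finset.exists_ne_zero_of_sum_ne_zero h1
      have h2 := eta_inv_deg (left_ne_zero_of_mul hb)
      have h3 := (MDeg.R_pow i) b c (right_ne_zero_of_mul hb)
      rw [pair_Hom S g β (r, a) (s, c) I, mul_zero]
      unfold wt
      push_cast
      omega
  have e3 : (if g = 0 ∧ β = 0 then two (X.R ^ K * X.η) I else 0) = 0 := by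
    by_cases h : g = 0 ∧ β = 0
    · rw [if_pos h]
      unfold two
      split
      · next a b =>
        by_contra hne
        rw [Matrix.mul_apply] at hne
        obtain ⟨c, _, hc⟩ := Finset.exists_ne_zero_of_sum_ne_zero hne
        have h1 := (MDeg.R_pow K) a c (left_ne_zero_of_mul hc)
        have h2 := X.η_deg c b (right_ne_zero_of_mul hc)
        apply hI
        rw [Wt_cons, Wt_cons, Wt_nil, h.1, h.2]
        unfold wt Desc.vdim
        rw [map_zero]
        push_cast
        omega
      · rfl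
    · rw [if_neg h]
  have e4 : (if K = 1 ∧ g = 1 ∧ β = 0 ∧ I = [] then X.euler / 16 - X.strMuSq / 4 else 0) = 0 := by
    rw [if_neg]
    rintro ⟨h1, h2, h3, h4⟩
    apply hI
    rw [h1, h2, h3, h4, Wt_nil]
    unfold Desc.vdim
    rw [map_zero]
    push_cast
    ring
  rw [e1, e2, e3, e4]
  ring

end

end Vale.Agent.P269.H471
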