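import Vale.Agent.P269.H471.Low

/-!
# Exceptional terms
-/

open Finset

namespace Vale.Agent.P269.H471

variable {T : CIType} {B : Type} [Fintype B] [DecidableEq B] {X : Coh T B}

/-- functions supported on the empty list -/
def emp (c : ℂ) : List (ℕ × B) → ℂ
  | [] => c
  | _ => 0

/-- functions supported on lists of length one -/
def one (v : ℕ × B → ℂ) : List (ℕ × B) → ℂ
  | [x] => v x
  | _ => 0

theorem shuffle_emp_left (c : ℂ) (G : List (ℕ × B) → ℂ) (I) :
    X.shuffle (emp c) G I = c * G I := by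
  induction I generalizing G with
  | nil => rw [shuffle_nil]; rfl
  | cons x I ih =>
    rw [shuffle_cons]
    have e1 : (fun J => emp c (x :: J)) = fun _ => 0 := rfl
    have e2 : (fun J => X.sgn x J * emp c J) = emp c := by
      funext J
      cases J with
      | nil => rw [sgn_nil, one_mul]
      | cons y J => simp [emp]
    rw [e1, e2, shuffle_zero_left, ih]
    ring

theorem shuffle_emp_right (c : ℂ) (F : List (ℕ × B) → ℂ) (I) :
    X.shuffle F (emp c) I = F I * c := by
  induction I generalizing F with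
  | nil => rw [shuffle_nil]; rfl
  | cons x I ih =>
    rw [shuffle_cons]
    have e1 : (fun J => emp c (x :: J)) = fun _ => 0 := rfl
    rw [e1, shuffle_zero_right, ih]
    ring

omit [Fintype B] [DecidableEq B] in
theorem one_cons (v : ℕ × B → ℂ) (x : ℕ × B) : (fun J => one v (x :: J)) = emp (v x) := by
  funext J
  cases J with
  | nil => rfl
  | cons y J => rfl

theorem sgn_one (v : ℕ × B → ℂ) (x : ℕ × B) :
    (fun J => X.sgn x J * one v J) = one (fun z => sg (X.par x) (X.par z) * v z) := by
  funext J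
  match J with
  | [] => simp [one]
  | [z] => simp [one, Coh.sgn]
  | z :: z' :: J => simp [one]

theorem shuffle_one_left {H : List (ℕ × B) → ℂ} (hH : GS X H) (v : ℕ × B → ℂ) (y : ℕ × B)
    (hv : ∀ x, v x ≠ 0 → X.par x = X.par y) (I) :
    X.shuffle (one v) (fun J => H (y :: J)) I = ins (fun x => v x • LinearMap.proj y) H I := by
  induction I generalizing H v with
  | nil => simp [shuffle_nil, one]
  | cons x I ih =>
    rw [shuffle_cons, one_cons, shuffle_emp_left, sgn_one, ins_cons]
    have e1 : (fun J => H (y :: x :: J)) =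
        fun J => sg (X.par y) (X.par x) * H (x :: y :: J) := by
      funext J
      exact hH.swap y x J
    rw [e1, shuffle_smul_right, ih (hH.cons x) _ (by
      intro z hz
      exact hv z (right_ne_zero_of_mul hz))]
    have e2 : ∀ z : ℕ × B, ((sg (X.par x) (X.par z) * v z) •
        (LinearMap.proj y : (ℕ × B → ℂ) →ₗ[ℂ] ℂ)) =
        sg (X.par x) (X.par y) • (v z • LinearMap.proj y) := by
      intro z
      by_cases h0 : v z = 0
      · simp [h0]
      · rw [hv z h0, smul_smul]
    rw [ins_op_congr e2, ins_op_smul, ← mul_assoc, sg_mul_self', one_mul]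
    simp

theorem shuffle_one_right {H : List (ℕ × B) → ℂ} (hH : GS X H) (v : ℕ × B → ℂ) (y : ℕ × B)
    (hv : ∀ x, v x ≠ 0 → X.par x = X.par y) (I) :
    X.shuffle (fun J => H (J ++ [y])) (one v) I = ins (fun x => v x • LinearMap.proj y) H I := by
  induction I generalizing H with
  | nil => simp [shuffle_nil, one]
  | cons x I ih =>
    rw [shuffle_cons, one_cons, shuffle_emp_right, ins_cons]
    simp only [List.cons_append]
    rw [ih (hH.cons x), hH.front I y [], List.append_nil]
    have e2 : X.sgn x I * (sg (X.par y) ((I.map X.par).sum) * H (y :: I)) * v x =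
        v x * H (y :: I) := by
      by_cases h0 : v x = 0
      · simp [h0]
      · have : X.sgn x I = sg (X.par y) ((I.map X.par).sum) := by
          rw [← hv x h0]; rfl
        rw [this, ← mul_assoc, sg_mul_self]
        ring
    rw [e2]
    simp only [LinearMap.smul_apply, LinearMap.proj_apply, smul_eq_mul]
    ring

omit [Fintype B] [DecidableEq B] in
theorem two_snoc (L : Matrix B B ℂ) (y : ℕ × B) :
    (fun J => two L (J ++ [y])) = one (fun x => if x.1 = 0 ∧ y.1 = 0 then L x.2 y.2 else 0) := by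
  funext J
  obtain ⟨n, b⟩ := y
  match J with
  | [] => cases n <;> simp [one, two]
  | [(m, a)] => cases m <;> cases n <;> simp [one, two]
  | (m, a) :: (m', a') :: J =>
    simp only [one, List.cons_append]
    unfold two
    split
    · next h =>
      simp at h
    · rfl

omit [Fintype B] [DecidableEq B] in
theorem two_cons (L : Matrix B B ℂ) (y : ℕ × B) :
    (fun J => two L (y :: J)) = one (fun x => if y.1 = 0 ∧ x.1 = 0 then L y.2 x.2 else 0) := by
  funext J
  obtain ⟨n, b⟩ := y
  match J with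
  | [] => cases n <;> simp [one, two]
  | [(m, a)] => cases m <;> cases n <;> simp [one, two]
  | (m, a) :: (m', a') :: J =>
    simp only [one]
    unfold two
    split
    · next h =>
      simp at h
    · rfl

section

variable {E : Type} [AddCommMonoid E] [HasAntidiagonal E] [DecidableEq E] (S : Desc X E)

/-- The exceptional values in the string, dilaton and divisor equations. -/
def dlt (E : Type) [AddCommMonoid E] [DecidableEq E] (L : Matrix B B ℂ) (κ : ℂ) (g : ℕ) (β : E)
    (J : List (ℕ × B)) : ℂ :=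
  (if g = 0 ∧ β = 0 then two L J else 0) + (if g = 1 ∧ β = 0 ∧ J = [] then κ else 0)

theorem sum_antidiag_fst (g : ℕ) (β : E) (f : ℕ × ℕ → E × E → ℂ) :
    ∑ u ∈ antidiagonal g, ∑ v ∈ antidiagonal β, (if u.1 = 0 ∧ v.1 = 0 then f u v else 0) =
      f (0, g) (0, β) := by
  rw [Finset.sum_eq_single (0, g), Finset.sum_eq_single (0, β)]
  · simp
  · intro v hv hne
    rw [if_neg]
    rintro ⟨_, h0⟩
    rw [HasAntidiagonal.mem_antidiagonal, h0, zero_add] at hv
    exact hne (Prod.ext h0 hv)
  · intro h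
    exact absurd (by simp) h
  · intro u hu hne
    apply Finset.sum_eq_zero
    intro v _
    rw [if_neg]
    rintro ⟨h0, _⟩
    rw [HasAntidiagonal.mem_antidiagonal, h0, zero_add] at hu
    exact hne (Prod.ext h0 hu)
  · intro h
    exact absurd (by simp) h

theorem sum_antidiag_snd (g : ℕ) (β : E) (f : ℕ × ℕ → E × E → ℂ) :
    ∑ u ∈ antidiagonal g, ∑ v ∈ antidiagonal β, (if u.2 = 0 ∧ v.2 = 0 then f u v else 0) =
      f (g, 0) (β, 0) := by
  rw [Finset.sum_eq_single (g, 0), Finset.sum_eq_single (β, 0)]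
  · simp
  · intro v hv hne
    rw [if_neg]
    rintro ⟨_, h0⟩
    rw [HasAntidiagonal.mem_antidiagonal, h0, add_zero] at hv
    exact hne (Prod.ext hv h0)
  · intro h
    exact absurd (by simp) h
  · intro u hu hne
    apply Finset.sum_eq_zero
    intro v _
    rw [if_neg]
    rintro ⟨h0, _⟩
    rw [HasAntidiagonal.mem_antidiagonal, h0, add_zero] at hu
    exact hne (Prod.ext hu h0)
  · intro h
    exact absurd (by simp) h

theorem sepExc_dlt (L : Matrix B B ℂ) (κ : ℂ) (g : ℕ) (β : E) (y₁ y₂ : ℕ × B) (I) :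
    sepExc S (dlt E L κ) g β y₁ y₂ I =
      X.shuffle (fun J => two L (J ++ [y₁])) (fun J => S.corr g β (y₂ :: J)) I +
      X.shuffle (fun J => S.corr g β (J ++ [y₁])) (fun J => two L (y₂ :: J)) I := by
  unfold sepExc
  simp only [Finset.sum_add_distrib]
  congr 1
  · rw [← sum_antidiag_fst g β (fun u v => X.shuffle (fun J => two L (J ++ [y₁]))
      (fun J => S.corr u.2 v.2 (y₂ :: J)) I)]
    apply Finset.sum_congr rfl
    intro u _
    apply Finset.sum_congr rfl
    intro v _
    unfold dlt
    by_cases h : u.1 = 0 ∧ v.1 = 0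
    · simp [h]
    · simp [h, shuffle_zero_left]
  · rw [← sum_antidiag_snd g β (fun u v => X.shuffle (fun J => S.corr u.1 v.1 (J ++ [y₁]))
      (fun J => two L (y₂ :: J)) I)]
    apply Finset.sum_congr rfl
    intro u _
    apply Finset.sum_congr rfl
    intro v _
    unfold dlt
    by_cases h : u.2 = 0 ∧ v.2 = 0
    · simp [h]
    · simp [h, shuffle_zero_right]

omit [DecidableEq B] in
theorem ins_quad (K : ℕ) (A : ℕ × B → (ℕ × B → ℂ) →ₗ[ℂ] ℂ)
    (Af : ℕ → ℕ → ℕ → B → B → ℕ × B → (ℕ × B → ℂ) →ₗ[ℂ] ℂ) (Cf : ℕ → ℕ → B → B → ℂ)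
    (h : ∀ x G, A x G = quadSum K (fun i r s => ∑ a, ∑ c, Cf i r a c * Af i r s a c x G))
    (F : List (ℕ × B) → ℂ) (I) :
    ins A F I = quadSum K (fun i r s => ∑ a, ∑ c, Cf i r a c * ins (Af i r s a c) F I) := by
  induction I generalizing F with
  | nil =>
    simp only [ins_nil, mul_zero, Finset.sum_const_zero]
    exact (quadSum_zero K).symm
  | cons x I ih =>
    simp only [ins_cons, mul_add, Finset.sum_add_distrib]
    rw [ih, h, ← quadSum_add]

theorem low_deg_eta {M : Matrix B B ℂ} {w : ℕ} (h : Low X M w) {x a : B}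
    (hxa : (M * X.η) x a ≠ 0) : X.p x + X.p a + w = T.D ∧ X.q x + X.q a + w = T.D := by
  rw [Matrix.mul_apply] at hxa
  obtain ⟨c, _, hc⟩ := Finset.exists_ne_zero_of_sum_ne_zero hxa
  have h1 := h.deg x c (left_ne_zero_of_mul hc)
  have h2 := X.η_deg c a (right_ne_zero_of_mul hc)
  omega

theorem mu_of_sum {x a : B} {w : ℕ} (h : X.p x + X.p a + w = T.D) :
    X.mu x + X.mu a + w = 0 := by
  unfold Coh.mu
  rw [← h]
  push_cast
  ring

theorem exc_ident_left {M : Matrix B B ℂ} {w : ℕ} (h : Low X M w) (K : ℕ) (x : ℕ × B)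
    (G : ℕ × B → ℂ) :
    ((-1 : ℂ) • eps X M w K x) G = quadSum (K + 1) (fun i r s => ∑ a, ∑ c,
      X.quadCoeff (K + 1) i r a c * (((if x.1 = 0 ∧ r = 0 then (M * X.η) x.2 a else 0) •
        (LinearMap.proj (s, c) : (ℕ × B → ℂ) →ₗ[ℂ] ℂ)) G)) := by
  obtain ⟨m, b⟩ := x
  rw [LinearMap.smul_apply, eps_apply]
  simp only [LinearMap.smul_apply, LinearMap.proj_apply, smul_eq_mul]
  by_cases hm : m = 0
  · subst hm
    simp only [true_and, if_true]
    have e1 : (fun i r s => ∑ a, ∑ c, X.quadCoeff (K + 1) i r a c *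
        ((if r = 0 then (M * X.η) b a else 0) * G (s, c))) = fun i r s => if r = 0 then
        ∑ a, ∑ c, X.quadCoeff (K + 1) i 0 a c * ((M * X.η) b a * G (s, c)) else 0 := by
      funext i r s
      split_ifs with h0
      · rw [h0]
      · simp
    rw [e1, quadSum_r K (fun i s => ∑ a, ∑ c, X.quadCoeff (K + 1) i 0 a c *
      ((M * X.η) b a * G (s, c))), Finset.mul_sum]
    apply Finset.sum_congr rfl
    intro i _
    rw [Finset.sum_comm, Finset.mul_sum, Finset.mul_sum]
    apply Finset.sum_congr rfl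
    intro c _
    have e2 : (M * X.R ^ i) b c = ∑ a, (M * X.η) b a * (X.η⁻¹ * X.R ^ i) a c := by
      rw [← Matrix.mul_apply, mul_assoc, ← mul_assoc X.η, eta_mul_inv, one_mul]
    rw [e2, Finset.sum_mul, Finset.mul_sum, Finset.mul_sum]
    apply Finset.sum_congr rfl
    intro a _
    rw [quadCoeff_eq]
    by_cases h0 : (M * X.η) b a = 0
    · simp [h0]
    · have h1 := mu_of_sum (low_deg_eta h h0).1
      have h2 : -X.mu a - ((0 : ℕ) : ℂ) - 1 / 2 = X.mu b + w - 1 / 2 := by
        push_cast
        linear_combination (-1 : ℂ) * h1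
      rw [h2]
      ring
  · simp only [hm, false_and, if_false, zero_mul, mul_zero, Finset.sum_const_zero]
    exact (quadSum_zero _).symm

theorem exc_ident_right {M : Matrix B B ℂ} {w : ℕ} (h : Low X M w) (K : ℕ) (x : ℕ × B)
    (G : ℕ × B → ℂ) :
    ((-1 : ℂ) • eps X M w K x) G = quadSum (K + 1) (fun i r s => ∑ a, ∑ c,
      X.quadCoeff (K + 1) i r a c * (((if s = 0 ∧ x.1 = 0 then (M * X.η) c x.2 else 0) •
        (LinearMap.proj (r, a) : (ℕ × B → ℂ) →ₗ[ℂ] ℂ)) G)) := by
  obtain ⟨m, b⟩ := x
  rw [LinearMap.smul_apply, eps_apply]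
  simp only [LinearMap.smul_apply, LinearMap.proj_apply, smul_eq_mul]
  by_cases hm : m = 0
  · subst hm
    simp only [and_true, if_true]
    have e1 : (fun i r s => ∑ a, ∑ c, X.quadCoeff (K + 1) i r a c *
        ((if s = 0 then (M * X.η) c b else 0) * G (r, a))) = fun i r s => if s = 0 then
        ∑ a, ∑ c, X.quadCoeff (K + 1) i r a c * ((M * X.η) c b * G (r, a)) else 0 := by
      funext i r s
      split_ifs with h0
      · rfl
      · simp
    rw [e1, quadSum_s K (fun i r => ∑ a, ∑ c, X.quadCoeff (K + 1) i r a c *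
      ((M * X.η) c b * G (r, a))), Finset.mul_sum]
    apply Finset.sum_congr rfl
    intro i hi
    rw [Finset.mem_range] at hi
    rw [Finset.mul_sum, Finset.mul_sum]
    apply Finset.sum_congr rfl
    intro a _
    -- the adjoint identity
    have hN : (X.R ^ i * M) * X.η = X.η * (X.R ^ i * M).transpose := by
      have hR : ∀ j, X.R ^ j * X.η = X.η * (X.R ^ j).transpose := by
        intro j
        induction j with
        | zero => simp
        | succ j ih =>
          have h1 : X.R * X.η = X.η * X.R.transpose := by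
            simp only [Coh.R, Matrix.smul_mul, Matrix.transpose_smul, Matrix.mul_smul]
            rw [X.H_adj]
          rw [pow_succ, mul_assoc, h1, ← mul_assoc, ih, mul_assoc, ← Matrix.transpose_mul]
          have : X.R * X.R ^ j = X.R ^ j * X.R := by rw [← pow_succ, ← pow_succ']
          rw [this]
      rw [mul_assoc, h.adj, ← mul_assoc, hR, mul_assoc, ← Matrix.transpose_mul, h.comm_pow]
    have e2 : (M * X.R ^ i) b a = ∑ c, (X.η⁻¹ * X.R ^ i) a c * (M * X.η) c b := by
      rw [← Matrix.mul_apply]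
      have : X.η⁻¹ * X.R ^ i * (M * X.η) = (X.R ^ i * M).transpose := by
        rw [mul_assoc, ← mul_assoc (X.R ^ i), hN, ← mul_assoc, eta_inv_mul, one_mul]
      rw [this, Matrix.transpose_apply, h.comm_pow]
    have e3 : ∑ c, X.quadCoeff (K + 1) i (K - 1 - i) a c * ((M * X.η) c b * G (K - 1 - i, a)) =
        (-1 : ℂ) ^ (K - 1 - i + 1) * bra (K + 1) i (-X.mu a - ((K - 1 - i : ℕ) : ℂ) - 1 / 2) *
          (M * X.R ^ i) b a * G (K - 1 - i, a) := by
      rw [e2, Finset.mul_sum, Finset.sum_mul]
      apply Finset.sum_congr rfl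
      intro c _
      rw [quadCoeff_eq]
      ring
    rw [e3]
    by_cases h0 : (M * X.R ^ i) b a = 0
    · simp [h0]
    · have h1 := (h.deg.mul (MDeg.R_pow i)).mu h0
      have h4 : ((K - 1 - i : ℕ) : ℂ) + (1 + i) = K := by
        have : K - 1 - i + (1 + i) = K := by omega
        exact_mod_cast this
      have h2 : -X.mu a - ((K - 1 - i : ℕ) : ℂ) - 1 / 2 =
          -(X.mu b + w - 1 / 2) - (((K + 1 : ℕ) : ℂ) - 1) := by
        rw [h1]
        push_cast
        linear_combination (-1 : ℂ) * h4
      have h3 : (-1 : ℂ) ^ (K - 1 - i + 1) * (-1 : ℂ) ^ (K + 1 + i) = -1 := by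
        rw [← pow_add]
        have : K - 1 - i + 1 + (K + 1 + i) = 2 * K + 1 := by omega
        rw [this, pow_succ, pow_mul]
        norm_num
      rw [h2, bra_reflect]
      linear_combination (-bra (K + 1) i (X.mu b + w - 1 / 2) * (M * X.R ^ i) b a *
        G (K - 1 - i, a)) * h3
  · simp only [hm, and_false, if_false, zero_mul, mul_zero, Finset.sum_const_zero]
    exact (quadSum_zero _).symm

theorem par_of_quadCoeff {K i r : ℕ} {a c : B} (h : X.quadCoeff K i r a c ≠ 0) (m n : ℕ) :
    X.par (m, a) = X.par (n, c) := by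
  rw [quadCoeff_eq] at h
  have h1 := right_ne_zero_of_mul h
  rw [Matrix.mul_apply] at h1
  obtain ⟨b, _, hb⟩ := Finset.exists_ne_zero_of_sum_ne_zero h1
  have h2 := eta_inv_deg (left_ne_zero_of_mul hb)
  have h3 := (MDeg.R_pow i).par (right_ne_zero_of_mul hb) n m
  rw [h3]
  exact par_of_sum (w := 0) (by simpa using h2) m m

theorem sep_exc_eval {M : Matrix B B ℂ} {w : ℕ} (h : Low X M w) (κ : ℂ) (K g : ℕ) (β : E) (I) :
    quadSum (K + 1) (fun i r s => ∑ a, ∑ c, X.quadCoeff (K + 1) i r a c *
      sepExc S (dlt E (M * X.η) κ) g β (r, a) (s, c) I) =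
      -2 * ins (eps X M w K) (S.corr g β) I := by
  have e1 : (fun i r s => ∑ a, ∑ c, X.quadCoeff (K + 1) i r a c *
      sepExc S (dlt E (M * X.η) κ) g β (r, a) (s, c) I) = fun i r s =>
      (∑ a, ∑ c, X.quadCoeff (K + 1) i r a c *
        ins (fun x => (if x.1 = 0 ∧ r = 0 then (M * X.η) x.2 a else 0) •
          (LinearMap.proj (s, c) : (ℕ × B → ℂ) →ₗ[ℂ] ℂ)) (S.corr g β) I) +
      (∑ a, ∑ c, X.quadCoeff (K + 1) i r a c *
        ins (fun x => (if s = 0 ∧ x.1 = 0 then (M * X.η) c x.2 else 0) •
          (LinearMap.proj (r, a) : (ℕ × B → ℂ) →ₗ[ℂ] ℂ)) (S.corr g β) I) := by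
    funext i r s
    rw [← Finset.sum_add_distrib]
    apply Finset.sum_congr rfl
    intro a _
    rw [← Finset.sum_add_distrib]
    apply Finset.sum_congr rfl
    intro c _
    rw [← mul_add]
    by_cases h0 : X.quadCoeff (K + 1) i r a c = 0
    · rw [h0]; ring
    · congr 1
      rw [sepExc_dlt, two_snoc, two_cons]
      congr 1
      · apply shuffle_one_left (corr_GS S g β)
        intro x hx
        simp only [ne_eq, ite_eq_right_iff, Classical.not_imp] at hx
        obtain ⟨n, b⟩ := x
        rw [par_of_sum (low_deg_eta h hx.2) n r]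
        exact par_of_quadCoeff h0 r s
      · apply shuffle_one_right (corr_GS S g β)
        intro x hx
        simp only [ne_eq, ite_eq_right_iff, Classical.not_imp] at hx
        obtain ⟨n, b⟩ := x
        rw [← par_of_sum (low_deg_eta h hx.2) s n]
        exact (par_of_quadCoeff h0 r s).symm
  rw [e1, quadSum_add,
    ← ins_quad (K + 1) (fun x => (-1 : ℂ) • eps X M w K x) _ _ (exc_ident_left h K),
    ← ins_quad (K + 1) (fun x => (-1 : ℂ) • eps X M w K x) _ _ (exc_ident_right h K),
    ins_op_smul]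
  ring

end

end Vale.Agent.P269.H471
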