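import Vale.Agent.P269.H471.Zero

/-!
# Virasoro constraints in non-positive virtual dimension, and the reduction theorem
-/

open Finset

namespace Vale.Agent.P269.H471

variable {T : CIType} {B : Type} [Fintype B] [DecidableEq B] {X : Coh T B}

theorem eq_e {b : B} (h : X.p b + X.q b ≤ 1) : b = X.e := by
  have hD := LW.D_pos T
  have h1 : X.p b + X.q b ≠ T.D := by omega
  have h2 := X.lefschetz b h1
  apply X.lefschetz_unique b X.e h1
  · rw [X.p_e]; omega
  · rw [X.q_e]; omega

theorem wt_neg {x : ℕ × B} (h : wt X x < 0) : x = (0, X.e) := by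
  obtain ⟨m, b⟩ := x
  unfold wt at h
  simp only at h
  have h1 : m = 0 := by omega
  have h2 : X.p b + X.q b ≤ 1 := by omega
  rw [h1, eq_e h2]

theorem Wt_nonneg {I : List (ℕ × B)} (h : ∀ x ∈ I, 0 ≤ wt X x) : 0 ≤ Wt X I := by
  induction I with
  | nil => simp
  | cons x I ih =>
    rw [Wt_cons]
    have h1 := h x (by simp)
    have h2 := ih fun y hy => h y (by simp [hy])
    omega

section

variable {E : Type} [AddCommMonoid E] [HasAntidiagonal E] [DecidableEq E] (S : Desc X E)

/-- all Virasoro constraints in non-positive virtual dimension -/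
theorem vir_nonpos (g : ℕ) (β : E) (hν : S.vdim g β ≤ 0) (K : ℕ) :
    ∀ I, S.vir K g β I = 0 := by
  induction K with
  | zero => exact vir_zero S g β
  | succ K ihK =>
    rcases Nat.eq_zero_or_pos K with hK | hK
    · subst hK
      exact vir_one S g β
    · have main : ∀ n (I : List (ℕ × B)), I.length = n → S.vir (K + 1) g β I = 0 := by
        intro n
        induction n with
        | zero =>
          intro I hI
          have : I = [] := List.length_eq_zero_iff.mp hI
          subst this
          apply vir_Hom
          rw [Wt_nil]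
          push_cast
          omega
        | succ n ih =>
          intro I hI
          by_cases h : ∃ x ∈ I, wt X x < 0
          · obtain ⟨x, hx, hw⟩ := h
            rw [wt_neg hw] at hx
            obtain ⟨J₁, J₂, rfl⟩ := List.append_of_mem hx
            have hlen : (J₁ ++ J₂).length = n := by
              simp only [List.length_append, List.length_cons] at hI ⊢
              omega
            rw [(vir_GS S (K + 1) g β).front_even J₁ (0, X.e) J₂ (par_e X 0), vir_string, ihK,
              mul_zero, add_zero]
            rw [ins_congr (G := fun _ => 0) (J₁ ++ J₂)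
              (fun J hJ => ih J (hJ.trans hlen)), ins_zero]
          · push Not at h
            apply vir_Hom
            have := Wt_nonneg h
            push_cast
            omega
      intro I
      exact main I.length I rfl

theorem H_e_ne_zero {b : B} (hD : T.D ≠ 2) (hp : X.p b = 1) (hq : X.q b = 1) :
    X.H X.e b ≠ 0 ∧ ∀ b', b' ≠ b → X.H X.e b' = 0 := by
  have h2 : ∀ b', b' ≠ b → X.H X.e b' = 0 := by
    intro b' hb'
    by_contra h0
    have h1 := X.H_deg X.e b' h0
    rw [X.p_e, X.q_e] at h1
    apply hb'
    apply X.lefschetz_unique b' b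
    · omega
    · omega
    · omega
  refine ⟨?_, h2⟩
  intro h0
  have h3 : ∀ b', X.H X.e b' = 0 := by
    intro b'
    by_cases hb : b' = b
    · rw [hb]; exact h0
    · exact h2 b' hb
  have h4 := X.top
  have hD' := LW.D_pos T
  obtain ⟨n, hn⟩ : ∃ n, T.D = n + 1 := ⟨T.D - 1, by omega⟩
  rw [hn, pow_succ', mul_assoc, Matrix.mul_apply] at h4
  simp only [h3, zero_mul, Finset.sum_const_zero] at h4
  have h5 : T.degree ≠ 0 := by
    unfold CIType.degree
    intro h6
    rw [List.prod_eq_zero_iff] at h6
    have := T.pos 0 h6
    omega
  apply h5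
  exact_mod_cast h4.symm

/-- Reduction to the essential constraints. -/
theorem vir_reduce (g : ℕ) (β : E)
    (hE : ∀ KI, S.Essential g β KI → S.vir KI.1 g β KI.2 = 0) (K : ℕ) :
    ∀ I, S.vir K g β I = 0 := by
  induction K with
  | zero => exact vir_zero S g β
  | succ K ihK =>
    rcases Nat.eq_zero_or_pos K with hK | hK
    · subst hK
      exact vir_one S g β
    · have main : ∀ n (I : List (ℕ × B)), I.length = n → S.vir (K + 1) g β I = 0 := by
        intro n
        induction n using Nat.strong_induction_on with
        | _ n ih =>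
          intro I hI
          by_cases h : ∀ x ∈ I, x ≠ (0, X.e) ∧ x ≠ (1, X.e) ∧
              (T.D ≠ 2 → ¬ (x.1 = 0 ∧ X.p x.2 = 1 ∧ X.q x.2 = 1))
          · by_cases hw : Wt X I = 2 * (S.vdim g β - K)
            · apply hE (K + 1, I)
              refine ⟨by simp only; omega, h, ?_⟩
              have : (I.map fun x => 2 * (x.1 : ℤ) + X.p x.2 + X.q x.2 - 2).sum = Wt X I := rfl
              simp only
              rw [this, hw]
              push_cast
              ring
            · apply vir_Hom
              push_cast
              omega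
          · push Not at h
            obtain ⟨x, hx, hx'⟩ := h
            obtain ⟨J₁, J₂, rfl⟩ := List.append_of_mem hx
            have hlen : (J₁ ++ J₂).length < n := by
              simp only [List.length_append, List.length_cons] at hI ⊢
              omega
            have ih' : ∀ J, J.length = (J₁ ++ J₂).length → S.vir (K + 1) g β J = 0 := by
              intro J hJ
              exact ih J.length (by omega) J rfl
            have hz : ∀ A : ℕ × B → (ℕ × B → ℂ) →ₗ[ℂ] ℂ,
                ins A (S.vir (K + 1) g β) (J₁ ++ J₂) = 0 := by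
              intro A
              rw [ins_congr (G := fun _ => 0) (J₁ ++ J₂) ih', ins_zero]
            by_cases h0 : x = (0, X.e)
            · rw [h0, (vir_GS S (K + 1) g β).front_even J₁ (0, X.e) J₂ (par_e X 0), vir_string,
                ihK, mul_zero, add_zero, hz]
            · by_cases h1 : x = (1, X.e)
              · rw [h1, (vir_GS S (K + 1) g β).front_even J₁ (1, X.e) J₂ (par_e X 1),
                  vir_dilaton, ih' _ rfl, mul_zero]
              · obtain ⟨hD, hm, hp, hq⟩ := hx' h0 h1
                obtain ⟨m, b⟩ := x
                simp only at hm hp hq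
                subst hm
                have hpar : X.par (0, b) = 0 := by
                  unfold Coh.par
                  simp only
                  rw [hp, hq]
                  decide
                rw [(vir_GS S (K + 1) g β).front_even J₁ (0, b) J₂ hpar]
                have h3 := vir_divisor S K g β (J₁ ++ J₂)
                obtain ⟨h4, h5⟩ := H_e_ne_zero hD hp hq
                rw [hz, ih' _ rfl, mul_zero, add_zero, Finset.sum_eq_single b] at h3
                · exact (mul_eq_zero.mp h3).resolve_left h4
                · intro b' _ hb'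
                  rw [h5 b' hb', zero_mul]
                · intro hb
                  exact absurd (Finset.mem_univ _) hb
      intro I
      exact main I.length I rfl

theorem wt_pos (hD : T.D ≠ 2) {x : ℕ × B} (h0 : x ≠ (0, X.e)) (h1 : x ≠ (1, X.e))
    (h2 : ¬ (x.1 = 0 ∧ X.p x.2 = 1 ∧ X.q x.2 = 1)) : 1 ≤ wt X x := by
  by_contra hw
  obtain ⟨m, b⟩ := x
  unfold wt at hw
  simp only at hw h2
  have hD' := LW.D_pos T
  by_cases hle : X.p b + X.q b ≤ 1
  · rw [eq_e hle] at h0 h1
    rw [eq_e hle, X.p_e, X.q_e] at hw
    have : m = 0 ∨ m = 1 := by omega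
    rcases this with h | h
    · exact h0 (by rw [h])
    · exact h1 (by rw [h])
  · have h3 : m = 0 := by omega
    have h4 : X.p b + X.q b = 2 := by omega
    have h5 := (X.lefschetz b (by omega)).1
    exact h2 ⟨h3, by omega, by omega⟩

theorem wt_le_Wt {I : List (ℕ × B)} (h : ∀ x ∈ I, 1 ≤ wt X x) :
    (I.length : ℤ) ≤ Wt X I ∧ ∀ x ∈ I, wt X x ≤ Wt X I := by
  induction I with
  | nil => simp
  | cons y I ih =>
    obtain ⟨h1, h2⟩ := ih fun z hz => h z (by simp [hz])
    have h3 := h y (by simp)
    rw [Wt_cons]
    constructor
    · simp only [List.length_cons]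
      push_cast
      omega
    · intro x hx
      rcases List.mem_cons.mp hx with rfl | hx
      · omega
      · have := h2 x hx
        omega

/-- In dimension at least three there are finitely many essential constraints for every genus
and curve class. -/
theorem essential_finite (hD : T.D ≠ 2) (g : ℕ) (β : E) :
    {KI | S.Essential g β KI}.Finite := by
  classical
  obtain ⟨n, hn⟩ : ∃ n : ℕ, S.vdim g β ≤ n := ⟨(S.vdim g β).toNat, by omega⟩
  let s : Set (ℕ × B) := {x | x.1 ≤ n + 1}
  have hs : s.Finite := by
    have : s = (Set.Iic (n + 1)) ×ˢ (Set.univ : Set B) := by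
      ext x
      simp [s]
    rw [this]
    exact (Set.finite_Iic _).prod Set.finite_univ
  have : Finite s := hs
  have hl : {l : List s | l.length ≤ 2 * n}.Finite := List.finite_length_le s (2 * n)
  have hfin : ((Set.Iic (n + 1)) ×ˢ ((fun l : List s => l.map Subtype.val) ''
      {l : List s | l.length ≤ 2 * n})).Finite := (Set.finite_Iic _).prod (hl.image _)
  apply hfin.subset
  rintro ⟨K, I⟩ ⟨h1, h2, h3⟩
  simp only at h1 h2 h3
  have hwt : ∀ x ∈ I, 1 ≤ wt X x := fun x hx => wt_pos hD (h2 x hx).1 (h2 x hx).2.1
    ((h2 x hx).2.2 hD)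
  obtain ⟨h4, h5⟩ := wt_le_Wt hwt
  have h6 : Wt X I = 2 * (S.vdim g β - (K - 1)) := h3
  have h7 : ∀ x ∈ I, x ∈ s := by
    intro x hx
    have := h5 x hx
    have h8 : 2 * (x.1 : ℤ) - 2 ≤ wt X x := by
      unfold wt
      omega
    show x.1 ≤ n + 1
    omega
  refine ⟨?_, ?_⟩
  · show K ≤ n + 1
    omega
  · refine ⟨I.attach.map fun x => ⟨x.1, h7 x.1 x.2⟩, ?_, ?_⟩
    · show (I.attach.map _).length ≤ 2 * n
      rw [List.length_map, List.length_attach]
      omega
    · simp only [List.map_map]
      have : (Subtype.val ∘ fun x : {x // x ∈ I} => (⟨x.1, h7 x.1 x.2⟩ : s)) = Subtype.val := rfl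
      rw [this, List.attach_map_subtype_val]

end

end Vale.Agent.P269.H471
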