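import Vale.Agent.P269.H471.Sym

/-!
# The constraints in genus zero
-/

open Finset

namespace Vale.Agent.P269.H471

variable {T : CIType} {B : Type} [Fintype B] [DecidableEq B] {X : Coh T B}

/-! ### recursion for the linear part -/

theorem ev_opA (n : ℤ) (b : B) (G : ℕ × B → ℂ) (hn : n ≠ -1) :
    ev n b (fun u => opA X u G) = (X.mu b + n + 3 / 2) * ev (n + 1) b G +
      ∑ c, X.R b c * ev n c G := by
  rcases lt_or_ge n 0 with h | h
  · have h1 : n + 1 < 0 := by omega
    rw [ev_neg h, ev_neg h1]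
    simp [ev_neg h]
  · obtain ⟨m, rfl⟩ := Int.eq_ofNat_of_zero_le h
    have h2 : ((m : ℤ) + 1) = ((m + 1 : ℕ) : ℤ) := by push_cast; ring
    rw [h2]
    simp only [ev_nat]
    rw [opA_apply]
    push_cast
    ring

theorem ev_opA_neg (b : B) (G : ℕ × B → ℂ) :
    ev (-1) b (fun u => opA X u G) = 0 ∧ ∀ c : B, ev (-1) c G = 0 := by
  constructor
  · rw [ev_neg (by omega)]; rfl
  · intro c
    rw [ev_neg (by omega)]; rfl

/-- the correction at the boundary -/
noncomputable def c0 (X : Coh T B) (K : ℕ) (x : ℕ × B) : (ℕ × B → ℂ) →ₗ[ℂ] ℂ :=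
  if x.1 = 0 then ∑ c, (X.R ^ K) x.2 c • ((X.mu c + 1 / 2) • LinearMap.proj (0, c)) else 0

theorem c0_apply (K : ℕ) (x : ℕ × B) (G : ℕ × B → ℂ) : c0 X K x G =
    if x.1 = 0 then ∑ c, (X.R ^ K) x.2 c * ((X.mu c + 1 / 2) * G (0, c)) else 0 := by
  unfold c0
  split_ifs
  · simp [LinearMap.sum_apply]
  · rfl

theorem opL_succ (K : ℕ) (x : ℕ × B) (G : ℕ × B → ℂ) :
    X.opL (K + 1) x G = X.opL K x (fun u => opA X u G) + c0 X K x G := by
  obtain ⟨m, a⟩ := x
  set x : ℂ := X.mu a + m + 1 / 2 with hx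
  -- the sum on the left
  have e1 : X.opL (K + 1) (m, a) G =
      (∑ i ∈ range (K + 1), bra K i x * ∑ b, (X.R ^ (i + 1)) a b * ev ((m : ℤ) + K - 1 - i) b G) +
      ∑ i ∈ range (K + 1), bra K i x * (x + K) *
        ∑ b, (X.R ^ i) a b * ev ((m : ℤ) + K - i) b G := by
    rw [opL_apply]
    simp only
    rw [← hx, Finset.sum_range_succ', bra_succ_zero]
    have f1 : ∀ i : ℕ, bra (K + 1) (i + 1) x * ∑ b, (X.R ^ (i + 1)) a b *
        ev ((m : ℤ) + ((K + 1 : ℕ) : ℤ) - 1 - ((i + 1 : ℕ) : ℤ)) b G =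
        bra K i x * ∑ b, (X.R ^ (i + 1)) a b * ev ((m : ℤ) + K - 1 - i) b G +
        bra K (i + 1) x * (x + K) * ∑ b, (X.R ^ (i + 1)) a b *
          ev ((m : ℤ) + K - ((i + 1 : ℕ) : ℤ)) b G := by
      intro i
      have g1 : (m : ℤ) + ((K + 1 : ℕ) : ℤ) - 1 - ((i + 1 : ℕ) : ℤ) = (m : ℤ) + K - 1 - i := by
        push_cast; ring
      have g2 : (m : ℤ) + K - ((i + 1 : ℕ) : ℤ) = (m : ℤ) + K - 1 - i := by
        push_cast; ring
      rw [g1, g2, bra_succ_succ]
      ring
    rw [Finset.sum_congr rfl fun i _ => f1 i, Finset.sum_add_distrib]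
    have f2 : ∑ i ∈ range (K + 1), bra K i x * (x + K) *
        ∑ b, (X.R ^ i) a b * ev ((m : ℤ) + K - i) b G =
        ∑ i ∈ range (K + 1), bra K (i + 1) x * (x + K) * ∑ b, (X.R ^ (i + 1)) a b *
          ev ((m : ℤ) + K - ((i + 1 : ℕ) : ℤ)) b G +
        bra K 0 x * (x + K) * ∑ b, (X.R ^ 0) a b * ev ((m : ℤ) + K - ((0 : ℕ) : ℤ)) b G := by
      rw [← Finset.sum_range_succ' (fun i => bra K i x * (x + K) *
        ∑ b, (X.R ^ i) a b * ev ((m : ℤ) + K - i) b G), Finset.sum_range_succ _ (K + 1),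
        bra_gt (Nat.lt_succ_self K)]
      ring
    rw [f2]
    have g3 : (m : ℤ) + ((K + 1 : ℕ) : ℤ) - 1 - ((0 : ℕ) : ℤ) = (m : ℤ) + K - ((0 : ℕ) : ℤ) := by
      push_cast; ring
    rw [g3]
    ring
  -- the summands on the right
  have e2 : X.opL K (m, a) (fun u => opA X u G) + c0 X K (m, a) G =
      ∑ i ∈ range (K + 1), (bra K i x * ∑ b, (X.R ^ (i + 1)) a b * ev ((m : ℤ) + K - 1 - i) b G +
        bra K i x * (x + K) * ∑ b, (X.R ^ i) a b * ev ((m : ℤ) + K - i) b G) := by
    have h1 : ∀ i ∈ range (K + 1), ∑ b, (X.R ^ i) a b *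
        ev ((m : ℤ) + K - 1 - i) b (fun u => opA X u G) =
        (∑ b, (X.R ^ (i + 1)) a b * ev ((m : ℤ) + K - 1 - i) b G) +
        (if (m : ℤ) + K - 1 - i = -1 then 0 else
          (x + K) * ∑ b, (X.R ^ i) a b * ev ((m : ℤ) + K - i) b G) := by
      intro i hi
      rw [Finset.mem_range] at hi
      split_ifs with hn
      · rw [hn]
        simp only [(ev_opA_neg (X := X) _ G).1, (ev_opA_neg (X := X) a G).2]
        simp
      · have f1 : ∀ b, ev ((m : ℤ) + K - 1 - i) b (fun u => opA X u G) =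
            (X.mu b + ((m : ℤ) + K - 1 - i : ℤ) + 3 / 2) * ev ((m : ℤ) + K - i) b G +
              ∑ c, X.R b c * ev ((m : ℤ) + K - 1 - i) c G := by
          intro b
          rw [ev_opA _ _ _ hn]
          have : (m : ℤ) + K - 1 - i + 1 = (m : ℤ) + K - i := by ring
          rw [this]
        simp only [f1, mul_add, Finset.sum_add_distrib]
        rw [add_comm]
        congr 1
        · simp only [Finset.mul_sum]
          rw [Finset.sum_comm]
          apply Finset.sum_congr rfl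
          intro c _
          rw [pow_succ, Matrix.mul_apply, Finset.sum_mul]
          apply Finset.sum_congr rfl
          intro b _
          ring
        · rw [Finset.mul_sum]
          apply Finset.sum_congr rfl
          intro b _
          by_cases h0 : (X.R ^ i) a b = 0
          · rw [h0]; ring
          · rw [(MDeg.R_pow i).mu h0, hx]
            push_cast
            ring
    rw [opL_apply]
    simp only
    rw [← hx, Finset.sum_congr rfl fun i hi => by rw [h1 i hi]]
    have h2 : c0 X K (m, a) G = ∑ i ∈ range (K + 1), bra K i x *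
        (if (m : ℤ) + K - 1 - i = -1 then
          (x + K) * ∑ b, (X.R ^ i) a b * ev ((m : ℤ) + K - i) b G else 0) := by
      rw [c0_apply]
      cases m with
      | zero =>
        rw [Finset.sum_eq_single K]
        · simp only [if_true]
          rw [if_pos (by push_cast; ring), bra_top, one_mul, Finset.mul_sum]
          apply Finset.sum_congr rfl
          intro b _
          have g : (((0 : ℕ) : ℤ) + K - K) = ((0 : ℕ) : ℤ) := by ring
          rw [g, ev_nat]
          by_cases h0 : (X.R ^ K) a b = 0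
          · rw [h0]; ring
          · rw [(MDeg.R_pow K).mu h0, hx]
            push_cast
            ring
        · intro i hi hne
          rw [Finset.mem_range] at hi
          rw [if_neg, mul_zero]
          push_cast
          omega
        · intro h
          exact absurd (Finset.mem_range.mpr (Nat.lt_succ_self K)) h
      | succ m =>
        simp only [Nat.succ_ne_zero, if_false]
        symm
        apply Finset.sum_eq_zero
        intro i hi
        rw [Finset.mem_range] at hi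
        rw [if_neg, mul_zero]
        push_cast
        omega
    rw [h2, ← Finset.sum_add_distrib]
    apply Finset.sum_congr rfl
    intro i _
    split_ifs <;> ring
  rw [e1, e2, Finset.sum_add_distrib]

theorem bra_succ_zero' (K : ℕ) (x : ℂ) : bra (K + 1) 0 x = bra K 0 (x + 1) * x := by
  have h := braPoly_succ' K (x + 1)
  rw [add_sub_cancel_right] at h
  rw [bra_eq, bra_eq, h, Polynomial.mul_coeff_zero]
  simp

theorem bra_succ_succ' (K i : ℕ) (x : ℂ) :
    bra (K + 1) (i + 1) x = bra K i (x + 1) + bra K (i + 1) (x + 1) * x := by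
  have h := braPoly_succ' K (x + 1)
  rw [add_sub_cancel_right] at h
  rw [bra_eq, bra_eq, bra_eq, h, mul_add, Polynomial.coeff_add,
    Polynomial.coeff_mul_X, Polynomial.coeff_mul_C]

theorem opL_succ' (K : ℕ) (x : ℕ × B) (G : ℕ × B → ℂ) :
    X.opL (K + 1) x G = opA' X x (fun u => X.opL K u G) := by
  obtain ⟨m, a⟩ := x
  set x : ℂ := X.mu a + m + 1 / 2 with hx
  rw [opA'_apply]
  simp only [opL_apply]
  rw [← hx, Finset.sum_range_succ', bra_succ_zero']
  have f1 : ∀ i : ℕ, bra (K + 1) (i + 1) x * ∑ b, (X.R ^ (i + 1)) a b *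
      ev ((m : ℤ) + ((K + 1 : ℕ) : ℤ) - 1 - ((i + 1 : ℕ) : ℤ)) b G =
      bra K i (x + 1) * ∑ b, (X.R ^ (i + 1)) a b * ev ((m : ℤ) + K - 1 - i) b G +
      x * (bra K (i + 1) (x + 1) * ∑ b, (X.R ^ (i + 1)) a b *
        ev (((m + 1 : ℕ) : ℤ) + K - 1 - ((i + 1 : ℕ) : ℤ)) b G) := by
    intro i
    have g1 : (m : ℤ) + ((K + 1 : ℕ) : ℤ) - 1 - ((i + 1 : ℕ) : ℤ) = (m : ℤ) + K - 1 - i := by
      push_cast; ring
    have g2 : ((m + 1 : ℕ) : ℤ) + K - 1 - ((i + 1 : ℕ) : ℤ) = (m : ℤ) + K - 1 - i := by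
      push_cast; ring
    rw [g1, g2, bra_succ_succ']
    ring
  rw [Finset.sum_congr rfl fun i _ => f1 i, Finset.sum_add_distrib]
  have f2 : x * ∑ i ∈ range (K + 1), bra K i (X.mu a + ((m + 1 : ℕ) : ℂ) + 1 / 2) *
      ∑ b, (X.R ^ i) a b * ev (((m + 1 : ℕ) : ℤ) + K - 1 - i) b G =
      ∑ i ∈ range (K + 1), x * (bra K (i + 1) (x + 1) * ∑ b, (X.R ^ (i + 1)) a b *
        ev (((m + 1 : ℕ) : ℤ) + K - 1 - ((i + 1 : ℕ) : ℤ)) b G) +
      x * (bra K 0 (x + 1) * ∑ b, (X.R ^ 0) a b *
        ev (((m + 1 : ℕ) : ℤ) + K - 1 - ((0 : ℕ) : ℤ)) b G) := by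
    have g1 : X.mu a + ((m + 1 : ℕ) : ℂ) + 1 / 2 = x + 1 := by
      rw [hx]; push_cast; ring
    rw [g1, ← Finset.sum_range_succ' (fun i => x * (bra K i (x + 1) *
      ∑ b, (X.R ^ i) a b * ev (((m + 1 : ℕ) : ℤ) + K - 1 - i) b G)),
      Finset.sum_range_succ _ (K + 1), bra_gt (Nat.lt_succ_self K), Finset.mul_sum]
    ring
  have f3 : ∑ b, X.R a b * ∑ i ∈ range (K + 1), bra K i (X.mu b + m + 1 / 2) *
      ∑ c, (X.R ^ i) b c * ev ((m : ℤ) + K - 1 - i) c G =
      ∑ i ∈ range (K + 1), bra K i (x + 1) * ∑ b, (X.R ^ (i + 1)) a b *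
        ev ((m : ℤ) + K - 1 - i) b G := by
    simp only [Finset.mul_sum]
    rw [Finset.sum_comm]
    apply Finset.sum_congr rfl
    intro i _
    rw [Finset.sum_comm]
    apply Finset.sum_congr rfl
    intro c _
    rw [pow_succ', Matrix.mul_apply, Finset.sum_mul, Finset.mul_sum]
    apply Finset.sum_congr rfl
    intro b _
    by_cases h0 : X.R a b = 0
    · rw [h0]; ring
    · rw [MDeg.R.mu h0]
      have g1 : X.mu a + ((1 : ℕ) : ℂ) + m + 1 / 2 = x + 1 := by
        rw [hx]; push_cast; ring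
      rw [g1]
      ring
  rw [f2, f3]
  have g3 : (m : ℤ) + ((K + 1 : ℕ) : ℤ) - 1 - ((0 : ℕ) : ℤ) =
      ((m + 1 : ℕ) : ℤ) + K - 1 - ((0 : ℕ) : ℤ) := by
    push_cast; ring
  rw [g3]
  ring

theorem two_step (K : ℕ) (I : List (ℕ × B)) (w : ℕ × B) :
    opA' X w (fun z => two (X.R ^ K * X.η) (I ++ [z])) = two (X.R ^ (K + 1) * X.η) (I ++ [w]) := by
  obtain ⟨m, a⟩ := w
  rw [opA'_apply]
  simp only
  rw [two_snoc_succ, mul_zero, zero_add]
  have h1 : ∀ (L : Matrix B B ℂ) (z : ℕ × B), two L (I ++ [z]) =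
      one (fun x => if x.1 = 0 ∧ z.1 = 0 then L x.2 z.2 else 0) I :=
    fun L z => congrFun (two_snoc L z) I
  simp only [h1]
  match I with
  | [] => simp [one]
  | x :: y :: I => simp [one]
  | [x] =>
    simp only [one]
    split_ifs with h0
    · have g1 : X.R * X.η = X.η * X.R.transpose := by
        have := eta_pow_adj (X := X) 1
        simpa using this
      have g2 : (X.R ^ (K + 1) * X.η) x.2 a = ∑ b, (X.R ^ K * X.η) x.2 b * X.R a b := by
        rw [pow_succ, mul_assoc, g1, ← mul_assoc, Matrix.mul_apply]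
        rfl
      rw [g2]
      apply Finset.sum_congr rfl
      intro b _
      ring
    · simp

theorem PP_opA : PP X (opA X) := by
  intro x G G' h
  rw [opA_apply, opA_apply]
  congr 1
  · rw [h (x.1 + 1, x.2) rfl]
  · apply Finset.sum_congr rfl
    intro b _
    by_cases h0 : X.R x.2 b = 0
    · rw [h0]; ring
    · rw [h (x.1, b) (MDeg.R.par h0 x.1 x.1)]

theorem Fub_opA' (x : ℕ × B) : Fub (opA' X x) := by
  unfold opA'
  exact ((Fub.proj _).smul _).add (Fub.sum _ _ fun b _ => (Fub.proj _).smul _)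

/-! ### recursion for the quadratic part -/

/-- the quadratic part as a linear functional -/
noncomputable def qF (X : Coh T B) : ℕ → (((ℕ × B) × (ℕ × B)) → ℂ) →ₗ[ℂ] ℂ
  | 0 => 0
  | 1 => 0
  | K + 2 => ∑ u ∈ antidiagonal K, ∑ v ∈ antidiagonal u.2, ∑ a, ∑ c,
      X.quadCoeff (K + 2) u.1 v.1 a c • LinearMap.proj ((v.1, a), (v.2, c))

theorem qF_apply (K : ℕ) (G : ((ℕ × B) × (ℕ × B)) → ℂ) : qF X K G =
    quadSum K (fun i r s => ∑ a, ∑ c, X.quadCoeff K i r a c * G ((r, a), (s, c))) := by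
  match K with
  | 0 => rfl
  | 1 => rfl
  | K + 2 => simp [qF, quadSum, LinearMap.sum_apply]

theorem Fub_qF (K : ℕ) : Fub (qF X K) := by
  match K with
  | 0 => exact Fub.zero
  | 1 => exact Fub.zero
  | K + 2 =>
    exact Fub.sum _ _ fun _ _ => Fub.sum _ _ fun _ _ => Fub.sum _ _ fun _ _ =>
      Fub.sum _ _ fun _ _ => (Fub.proj _).smul _

theorem quad_step (K : ℕ) (Φ : ℕ × B → ℕ × B → ℂ) :
    quadSum (K + 1) (fun i r s => ∑ a, ∑ c, X.quadCoeff (K + 1) i r a c * Φ (r, a) (s, c)) =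
    quadSum K (fun i r s => ∑ a, ∑ c, X.quadCoeff K i r a c *
      opA X (s, c) (fun z => Φ (r, a) z)) +
    ∑ a, ∑ b, X.η⁻¹ a b * ((X.mu b + 1 / 2) * X.opL K (0, a) (fun z => Φ z (0, b))) := by
  let f1 : ℕ → ℕ → ℕ → ℂ := fun i r s => ∑ a, ∑ c, X.quadCoeff K i r a c *
    ((X.mu c + s + 3 / 2) * Φ (r, a) (s + 1, c))
  let f2 : ℕ → ℕ → ℕ → ℂ := fun i r s => ∑ a, ∑ c, X.quadCoeff K i r a c *
    ∑ c', X.R c c' * Φ (r, a) (s, c')
  let g : ℕ → ℕ → ℂ := fun i r => ∑ a, ∑ c, (-1 : ℂ) ^ (r + 1) *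
    bra K i (-X.mu a - r - 1 / 2) * (X.mu c + 1 / 2) * (X.η⁻¹ * X.R ^ i) a c * Φ (r, a) (0, c)
  have e1 : quadSum (K + 1) (fun i r s => ∑ a, ∑ c, X.quadCoeff (K + 1) i r a c *
      Φ (r, a) (s, c)) = quadSum (K + 1) (fun i r s => (if s = 0 then 0 else f1 i r (s - 1)) +
        ((if i = 0 then 0 else f2 (i - 1) r s) + (if s = 0 then g i r else 0))) := by
    apply quadSum_congr
    intro i r s hK
    -- the coefficient identity
    have key : ∀ a c, X.quadCoeff (K + 1) i r a c = (-1 : ℂ) ^ (r + 1) *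
        (bra K i (-X.mu a - r - 1 / 2) * (X.mu c + s + 1 / 2) +
          (if i = 0 then 0 else bra K (i - 1) (-X.mu a - r - 1 / 2))) *
            (X.η⁻¹ * X.R ^ i) a c := by
      intro a c
      rw [quadCoeff_eq]
      by_cases h0 : (X.η⁻¹ * X.R ^ i) a c = 0
      · rw [h0]; ring
      · have h1 := eta_inv_R_mu h0
        have h4 : (i : ℂ) + r + s + 2 = K + 1 := by exact_mod_cast hK
        have h2 : -X.mu a - r - 1 / 2 + (K : ℂ) = X.mu c + s + 1 / 2 := by
          linear_combination (-1 : ℂ) * h1 + (-1 : ℂ) * h4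
        cases i with
        | zero => rw [bra_succ_zero, h2]; simp
        | succ i =>
          rw [bra_succ_succ, h2]
          simp only [Nat.succ_ne_zero, if_false, Nat.add_sub_cancel]
          ring
    have k1 : (if s = 0 then 0 else f1 i r (s - 1)) + (if s = 0 then g i r else 0) =
        ∑ a, ∑ c, (-1 : ℂ) ^ (r + 1) * (bra K i (-X.mu a - r - 1 / 2) * (X.mu c + s + 1 / 2)) *
          (X.η⁻¹ * X.R ^ i) a c * Φ (r, a) (s, c) := by
      cases s with
      | zero =>
        simp only [if_true, zero_add, g]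
        apply Finset.sum_congr rfl
        intro a _
        apply Finset.sum_congr rfl
        intro c _
        push_cast
        ring
      | succ s =>
        simp only [Nat.succ_ne_zero, if_false, add_zero, f1, Nat.add_sub_cancel]
        apply Finset.sum_congr rfl
        intro a _
        apply Finset.sum_congr rfl
        intro c _
        rw [quadCoeff_eq]
        push_cast
        ring
    have k2 : (if i = 0 then 0 else f2 (i - 1) r s) = ∑ a, ∑ c, (-1 : ℂ) ^ (r + 1) *
        (if i = 0 then 0 else bra K (i - 1) (-X.mu a - r - 1 / 2)) *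
          (X.η⁻¹ * X.R ^ i) a c * Φ (r, a) (s, c) := by
      cases i with
      | zero => simp
      | succ i =>
        simp only [Nat.succ_ne_zero, if_false, Nat.add_sub_cancel, f2, quadCoeff_eq]
        apply Finset.sum_congr rfl
        intro a _
        simp only [Finset.mul_sum]
        rw [Finset.sum_comm]
        apply Finset.sum_congr rfl
        intro c _
        have hp : X.η⁻¹ * X.R ^ (i + 1) = (X.η⁻¹ * X.R ^ i) * X.R := by
          rw [pow_succ, mul_assoc]
        rw [hp, Matrix.mul_apply, Finset.mul_sum, Finset.sum_mul]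
        apply Finset.sum_congr rfl
        intro b _
        ring
    have k3 : (if s = 0 then 0 else f1 i r (s - 1)) +
        ((if i = 0 then 0 else f2 (i - 1) r s) + (if s = 0 then g i r else 0)) =
        ((if s = 0 then 0 else f1 i r (s - 1)) + (if s = 0 then g i r else 0)) +
          (if i = 0 then 0 else f2 (i - 1) r s) := by ring
    rw [k3, k1, k2, ← Finset.sum_add_distrib]
    apply Finset.sum_congr rfl
    intro a _
    rw [← Finset.sum_add_distrib]
    apply Finset.sum_congr rfl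
    intro c _
    rw [key]
    ring
  have e2 : quadSum K (fun i r s => ∑ a, ∑ c, X.quadCoeff K i r a c *
      opA X (s, c) (fun z => Φ (r, a) z)) = quadSum K f1 + quadSum K f2 := by
    rw [← quadSum_add]
    congr 1
    funext i r s
    simp only [f1, f2]
    rw [← Finset.sum_add_distrib]
    apply Finset.sum_congr rfl
    intro a _
    rw [← Finset.sum_add_distrib]
    apply Finset.sum_congr rfl
    intro c _
    rw [opA_apply]
    ring
  have e3 : ∑ a, ∑ b, X.η⁻¹ a b * ((X.mu b + 1 / 2) * X.opL K (0, a) (fun z => Φ z (0, b))) =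
      ∑ i ∈ range K, g i (K - 1 - i) := by
    have h1 : ∀ a b, X.opL K (0, a) (fun z => Φ z (0, b)) = ∑ i ∈ range K,
        bra K i (X.mu a + 1 / 2) * ∑ c, (X.R ^ i) a c * Φ (K - 1 - i, c) (0, b) := by
      intro a b
      rw [opL_apply, Finset.sum_range_succ]
      have f1 : ∀ c : B, ev (((0 : ℕ) : ℤ) + K - 1 - K) c = 0 := fun c => ev_neg (by omega) c
      simp only [f1, LinearMap.zero_apply, mul_zero, Finset.sum_const_zero, add_zero]
      apply Finset.sum_congr rfl
      intro i hi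
      rw [Finset.mem_range] at hi
      have f2 : (((0 : ℕ) : ℤ) + K - 1 - i) = ((K - 1 - i : ℕ) : ℤ) := by omega
      rw [f2]
      simp only [ev_nat]
      push_cast
      rw [add_zero]
    simp only [h1]
    have h2 : ∑ a, ∑ b, X.η⁻¹ a b * ((X.mu b + 1 / 2) * ∑ i ∈ range K,
        bra K i (X.mu a + 1 / 2) * ∑ c, (X.R ^ i) a c * Φ (K - 1 - i, c) (0, b)) =
        ∑ i ∈ range K, ∑ a, ∑ b, X.η⁻¹ a b * ((X.mu b + 1 / 2) *
        (bra K i (X.mu a + 1 / 2) * ∑ c, (X.R ^ i) a c * Φ (K - 1 - i, c) (0, b))) := by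
      simp only [Finset.mul_sum (s := range K)]
      calc _ = ∑ a, ∑ i ∈ range K, ∑ b, X.η⁻¹ a b * ((X.mu b + 1 / 2) *
        (bra K i (X.mu a + 1 / 2) * ∑ c, (X.R ^ i) a c * Φ (K - 1 - i, c) (0, b))) := by
            apply Finset.sum_congr rfl
            intro a _
            rw [Finset.sum_comm]
        _ = _ := by rw [Finset.sum_comm]
    rw [h2]
    apply Finset.sum_congr rfl
    intro i hi
    rw [Finset.mem_range] at hi
    simp only [g]
    have h3 : ∀ a' c, (-1 : ℂ) ^ (K - 1 - i + 1) *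
        bra K i (-X.mu a' - ((K - 1 - i : ℕ) : ℂ) - 1 / 2) * (X.mu c + 1 / 2) *
        (X.η⁻¹ * X.R ^ i) a' c = ∑ a, X.η⁻¹ a c * ((X.mu c + 1 / 2) *
          (bra K i (X.mu a + 1 / 2) * (X.R ^ i) a a')) := by
      intro a' c
      rw [← R_pow_inv_adj, Matrix.mul_apply, Finset.mul_sum]
      apply Finset.sum_congr rfl
      intro a _
      rw [Matrix.transpose_apply]
      by_cases h0 : (X.R ^ i) a a' = 0
      · rw [h0]; ring
      · have f1 := (MDeg.R_pow i).mu h0
        have f4 : ((K - 1 - i : ℕ) : ℂ) + (1 + i) = K := by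
          have : K - 1 - i + (1 + i) = K := by omega
          exact_mod_cast this
        have f2 : -X.mu a' - ((K - 1 - i : ℕ) : ℂ) - 1 / 2 =
            -(X.mu a + 1 / 2) - ((K : ℂ) - 1) := by
          rw [f1]
          linear_combination (-1 : ℂ) * f4
        have f3 : (-1 : ℂ) ^ (K - 1 - i + 1) * (-1 : ℂ) ^ (K + i) = 1 := by
          rw [← pow_add]
          have : K - 1 - i + 1 + (K + i) = 2 * K := by omega
          rw [this, pow_mul]
          norm_num
        rw [f2, bra_reflect]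
        linear_combination (bra K i (X.mu a + 1 / 2) * (X.mu c + 1 / 2) *
          ((X.R ^ i) a a' * X.η⁻¹ a c)) * f3
    simp only [h3, Finset.sum_mul, Finset.mul_sum]
    calc _ = ∑ a, ∑ c, ∑ b, X.η⁻¹ a b * ((X.mu b + 1 / 2) *
        (bra K i (X.mu a + 1 / 2) * ((X.R ^ i) a c * Φ (K - 1 - i, c) (0, b)))) := by
          apply Finset.sum_congr rfl
          intro a _
          rw [Finset.sum_comm]
      _ = ∑ c, ∑ a, ∑ b, X.η⁻¹ a b * ((X.mu b + 1 / 2) *
        (bra K i (X.mu a + 1 / 2) * ((X.R ^ i) a c * Φ (K - 1 - i, c) (0, b)))) := by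
          rw [Finset.sum_comm]
      _ = ∑ c, ∑ b, ∑ a, X.η⁻¹ a b * ((X.mu b + 1 / 2) *
        (bra K i (X.mu a + 1 / 2) * ((X.R ^ i) a c * Φ (K - 1 - i, c) (0, b)))) := by
          apply Finset.sum_congr rfl
          intro c _
          rw [Finset.sum_comm]
      _ = _ := by
          apply Finset.sum_congr rfl
          intro c _
          apply Finset.sum_congr rfl
          intro b _
          apply Finset.sum_congr rfl
          intro a _
          ring
  rw [e1, quadSum_add, quadSum_add, quadSum_shift_s, quadSum_shift_i, quadSum_s, e2, e3]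
  ring

end Vale.Agent.P269.H471
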