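import Vale.Agent.P269.H471.G0

/-!
# The constraints in genus zero: the induction
-/

open Finset

namespace Vale.Agent.P269.H471

variable {T : CIType} {B : Type} [Fintype B] [DecidableEq B] {X : Coh T B}

section pfops

variable {A A' : ℕ × B → (ℕ × B → ℂ) →ₗ[ℂ] ℂ}

theorem pf_op_add (K : ℕ × B → List (ℕ × B) → ℂ) (I) :
    pf X (fun x => A x + A' x) K I = pf X A K I + pf X A' K I := by
  induction I generalizing K with
  | nil => simp [pf_nil]
  | cons x I ih =>
    rw [pf_cons, pf_cons, pf_cons, ih, LinearMap.add_apply]; ring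

end pfops

variable {E : Type} [AddCommMonoid E] [HasAntidiagonal E] [DecidableEq E] (S : Desc X E)

/-- contraction with the two-point functions at `w` -/
noncomputable def dc (w : ℕ × B) (U : B → E → List (ℕ × B) → ℂ) (β : E) (I : List (ℕ × B)) : ℂ :=
  ∑ a, ∑ b, X.η⁻¹ a b * ((X.mu b + 1 / 2) *
    cs X (U a) (fun β J => S.corr 0 β ((0, b) :: (J ++ [w]))) β I)

theorem dc_add (w : ℕ × B) (U U' : B → E → List (ℕ × B) → ℂ) (β : E) (I) :
    dc S w (fun a β J => U a β J + U' a β J) β I = dc S w U β I + dc S w U' β I := by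
  unfold dc
  rw [← Finset.sum_add_distrib]
  apply Finset.sum_congr rfl
  intro a _
  rw [← Finset.sum_add_distrib]
  apply Finset.sum_congr rfl
  intro b _
  rw [cs_add_left]
  ring

theorem dc_neg (w : ℕ × B) (U : B → E → List (ℕ × B) → ℂ) (β : E) (I) :
    dc S w (fun a β J => (-1) * U a β J) β I = (-1) * dc S w U β I := by
  unfold dc
  rw [Finset.mul_sum]
  apply Finset.sum_congr rfl
  intro a _
  rw [Finset.mul_sum]
  apply Finset.sum_congr rfl
  intro b _
  rw [cs_smul_left]
  ring

theorem dc_lin (w : ℕ × B) {ι : Type} (φ : (ι → ℂ) →ₗ[ℂ] ℂ)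
    (U : ι → B → E → List (ℕ × B) → ℂ) (β : E) (I) :
    dc S w (fun a β J => φ (fun i => U i a β J)) β I = φ (fun i => dc S w (U i) β I) := by
  unfold dc
  have e : (fun i => ∑ a, ∑ b, X.η⁻¹ a b * ((X.mu b + 1 / 2) *
      cs X (U i a) (fun β J => S.corr 0 β ((0, b) :: (J ++ [w]))) β I)) =
      ∑ a, ∑ b, (X.η⁻¹ a b * (X.mu b + 1 / 2)) • fun i =>
      cs X (U i a) (fun β J => S.corr 0 β ((0, b) :: (J ++ [w]))) β I := by
    funext i
    simp only [Finset.sum_apply, Pi.smul_apply, smul_eq_mul]
    apply Finset.sum_congr rfl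
    intro a _
    apply Finset.sum_congr rfl
    intro b _
    ring
  rw [e, map_sum]
  apply Finset.sum_congr rfl
  intro a _
  rw [map_sum]
  apply Finset.sum_congr rfl
  intro b _
  rw [map_smul, cs_lin_left _ φ (fun i => U i a), smul_eq_mul]
  ring

theorem pf_dc {A : ℕ × B → (ℕ × B → ℂ) →ₗ[ℂ] ℂ} (hA : PP X A) (w : ℕ × B)
    (U : ℕ × B → B → E → List (ℕ × B) → ℂ) (β : E) (I) :
    pf X A (fun u J => dc S w (U u) β J) I =
      dc S w (fun a β J => pf X A (fun u J => U u a β J) J) β I := by
  unfold dc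
  rw [pf_sum]
  apply Finset.sum_congr rfl
  intro a _
  rw [pf_sum]
  apply Finset.sum_congr rfl
  intro b _
  rw [pf_smul, pf_smul, pf_cs _ hA (fun u => U u a)]

theorem cs_dc (w : ℕ × B) (f : E → List (ℕ × B) → ℂ) (U : B → E → List (ℕ × B) → ℂ)
    (β : E) (I) :
    cs X f (dc S w U) β I = dc S w (fun a β J => cs X f (U a) β J) β I := by
  have e : dc S w U = fun β I => ∑ a, ∑ b, (X.η⁻¹ a b * (X.mu b + 1 / 2)) *
    cs X (U a) (fun β J => S.corr 0 β ((0, b) :: (J ++ [w]))) β I := by
    funext β I
    unfold dc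
    apply Finset.sum_congr rfl
    intro a _
    apply Finset.sum_congr rfl
    intro b _
    ring
  rw [e, cs_sum_right]
  unfold dc
  apply Finset.sum_congr rfl
  intro a _
  rw [cs_sum_right]
  apply Finset.sum_congr rfl
  intro b _
  rw [cs_smul_right, cs_assoc]
  ring

/-- the tangent relation in terms of convolutions -/
theorem tangent_cs (β : E) (u w : ℕ × B) (I : List (ℕ × B)) :
    opA X u (fun z => S.corr 0 β (z :: (I ++ [w]))) =
      opA' X w (fun z => S.corr 0 β (u :: (I ++ [z]))) +
      dc S w (fun a β J => S.corr 0 β (u :: (J ++ [(0, a)]))) β I := by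
  rw [tangent S, sum_idx]
  congr 1
  unfold dc cs
  rw [Finset.sum_comm]
  apply Finset.sum_congr rfl
  intro a _
  rw [Finset.sum_comm]
  apply Finset.sum_congr rfl
  intro b _
  rw [Finset.mul_sum, Finset.mul_sum]

theorem ct_eq (K : ℕ) (w : ℕ × B) (β : E) (I : List (ℕ × B)) : ct S K w β I =
    pf X (X.opL K) (fun u J => S.corr 0 β (u :: (J ++ [w]))) I -
    X.opL K (1, X.e) (fun u => S.corr 0 β (u :: (I ++ [w]))) +
    qF X K (fun y => qw S w y.1 y.2 β I) := by
  rw [qF_apply]
  rfl

theorem ct_succ (K : ℕ) (w : ℕ × B) (β : E) (I : List (ℕ × B)) :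
    ct S (K + 1) w β I = opA' X w (fun z => ct S K z β I) +
      dc S w (fun a β J => ct S K (0, a) β J +
        X.opL K (0, a) (fun z => S.corr 0 β (J ++ [z]))) β I +
      pf X (c0 X K) (fun u J => S.corr 0 β (u :: (J ++ [w]))) I := by
  -- the linear part
  have eA : pf X (X.opL (K + 1)) (fun u J => S.corr 0 β (u :: (J ++ [w]))) I =
      opA' X w (fun z => pf X (X.opL K) (fun u J => S.corr 0 β (u :: (J ++ [z]))) I) +
      dc S w (fun a β J => pf X (X.opL K) (fun u J => S.corr 0 β (u :: (J ++ [(0, a)]))) J) β I +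
      pf X (c0 X K) (fun u J => S.corr 0 β (u :: (J ++ [w]))) I := by
    have h1 : X.opL (K + 1) = fun x => (X.opL K x).comp (LinearMap.pi (opA X)) + c0 X K x := by
      funext x
      apply LinearMap.ext
      intro G
      rw [opL_succ]
      rfl
    rw [h1, pf_op_add (A := fun x => (X.opL K x).comp (LinearMap.pi (opA X))) (A' := c0 X K),
      ← pf_comp PP_opA (fun z J => S.corr 0 β (z :: (J ++ [w])))]
    congr 1
    have h2 : (fun u J => opA X u (fun z => S.corr 0 β (z :: (J ++ [w])))) = fun u J =>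
        opA' X w (fun z => S.corr 0 β (u :: (J ++ [z]))) +
        dc S w (fun a β J => S.corr 0 β (u :: (J ++ [(0, a)]))) β J := by
      funext u J
      exact tangent_cs S β u w J
    rw [h2, pf_add, pf_lin (Fub_opL K) (opA' X w) (fun z u J => S.corr 0 β (u :: (J ++ [z]))),
      pf_dc S (PP_opL K) w (fun u a β J => S.corr 0 β (u :: (J ++ [(0, a)])))]
  -- the dilaton shift
  have eB : X.opL (K + 1) (1, X.e) (fun u => S.corr 0 β (u :: (I ++ [w]))) =
      opA' X w (fun z => X.opL K (1, X.e) (fun u => S.corr 0 β (u :: (I ++ [z])))) +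
      dc S w (fun a β J => X.opL K (1, X.e) (fun u => S.corr 0 β (u :: (J ++ [(0, a)])))) β I := by
    rw [opL_succ]
    have h1 : c0 X K (1, X.e) (fun u => S.corr 0 β (u :: (I ++ [w]))) = 0 := by
      rw [c0_apply]; simp
    have h2 : (fun u => opA X u (fun z => S.corr 0 β (z :: (I ++ [w])))) =
        (fun u => opA' X w (fun z => S.corr 0 β (u :: (I ++ [z])))) +
        fun u => dc S w (fun a β J => S.corr 0 β (u :: (J ++ [(0, a)]))) β I := by
      funext u
      exact tangent_cs S β u w I
    rw [h1, add_zero, h2, map_add]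
    congr 1
    · exact Fub_opA' w _ (X.opL K (1, X.e)) (fun u z => S.corr 0 β (u :: (I ++ [z])))
    · rw [dc_lin S w (X.opL K (1, X.e)) (fun u a β J => S.corr 0 β (u :: (J ++ [(0, a)])))]
  -- the quadratic part
  have eC : qF X (K + 1) (fun y => qw S w y.1 y.2 β I) =
      opA' X w (fun z => qF X K (fun y => qw S z y.1 y.2 β I)) +
      dc S w (fun a β J => qF X K (fun y => qw S (0, a) y.1 y.2 β J) +
        X.opL K (0, a) (fun z => S.corr 0 β (J ++ [z]))) β I := by
    rw [qF_apply, quad_step K (fun y₁ y₂ => qw S w y₁ y₂ β I), dc_add]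
    have h1 : ∀ (y₁ y₂ : ℕ × B), opA X y₂ (fun z => qw S w y₁ z β I) =
        opA' X w (fun z => qw S z y₁ y₂ β I) + dc S w (fun a β J => qw S (0, a) y₁ y₂ β J) β I := by
      intro y₁ y₂
      unfold qw
      rw [← cs_lin_right _ (opA X y₂) (fun z β J => S.corr 0 β (z :: (J ++ [w])))]
      have f1 : (fun β J => opA X y₂ (fun z => S.corr 0 β (z :: (J ++ [w])))) = fun β J =>
          opA' X w (fun z => S.corr 0 β (y₂ :: (J ++ [z]))) +
            dc S w (fun a β J => S.corr 0 β (y₂ :: (J ++ [(0, a)]))) β J := by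
        funext β J
        exact tangent_cs S β y₂ w J
      rw [f1, cs_add_right,
        cs_lin_right _ (opA' X w) (fun z β J => S.corr 0 β (y₂ :: (J ++ [z]))), cs_dc]
    have h2 : quadSum K (fun i r s => ∑ a, ∑ c, X.quadCoeff K i r a c *
        opA X (s, c) (fun z => qw S w (r, a) z β I)) =
        qF X K (fun y => opA' X w (fun z => qw S z y.1 y.2 β I)) +
        qF X K (fun y => dc S w (fun a β J => qw S (0, a) y.1 y.2 β J) β I) := by
      rw [← map_add, qF_apply]
      congr 1
      funext i r s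
      apply Finset.sum_congr rfl
      intro a _
      apply Finset.sum_congr rfl
      intro c _
      rw [h1]
      rfl
    rw [h2, dc_lin S w (qF X K) (fun y a β J => qw S (0, a) y.1 y.2 β J)]
    have h3 : qF X K (fun y => opA' X w (fun z => qw S z y.1 y.2 β I)) =
        opA' X w (fun z => qF X K (fun y => qw S z y.1 y.2 β I)) :=
      Fub_opA' w _ (qF X K) (fun y z => qw S z y.1 y.2 β I)
    rw [h3]
    have h4 : ∑ a, ∑ b, X.η⁻¹ a b * ((X.mu b + 1 / 2) *
        X.opL K (0, a) (fun z => qw S w z (0, b) β I)) =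
        dc S w (fun a β J => X.opL K (0, a) (fun z => S.corr 0 β (J ++ [z]))) β I := by
      unfold dc
      apply Finset.sum_congr rfl
      intro a _
      apply Finset.sum_congr rfl
      intro b _
      unfold qw
      rw [cs_lin_left _ (X.opL K (0, a)) (fun z β J => S.corr 0 β (J ++ [z]))]
    rw [h4]
    ring
  -- assembling
  rw [ct_eq, eA, eB, eC]
  have e1 : (fun z => ct S K z β I) =
      (fun z => pf X (X.opL K) (fun u J => S.corr 0 β (u :: (J ++ [z]))) I) +
      ((-1 : ℂ) • (fun z => X.opL K (1, X.e) (fun u => S.corr 0 β (u :: (I ++ [z])))) +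
      fun z => qF X K (fun y => qw S z y.1 y.2 β I)) := by
    funext z
    rw [ct_eq]
    simp only [Pi.add_apply, Pi.smul_apply, smul_eq_mul]
    ring
  have e2 : (fun (a : B) β J => ct S K (0, a) β J +
        X.opL K (0, a) (fun z => S.corr 0 β (J ++ [z]))) = fun a β J =>
      (pf X (X.opL K) (fun u J => S.corr 0 β (u :: (J ++ [(0, a)]))) J +
      (-1) * X.opL K (1, X.e) (fun u => S.corr 0 β (u :: (J ++ [(0, a)])))) +
      (qF X K (fun y => qw S (0, a) y.1 y.2 β J) +
        X.opL K (0, a) (fun z => S.corr 0 β (J ++ [z]))) := by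
    funext a β J
    rw [ct_eq]
    ring
  have e3 := dc_add S w (fun (a : B) β J =>
      pf X (X.opL K) (fun u J => S.corr 0 β (u :: (J ++ [(0, a)]))) J +
      (-1) * X.opL K (1, X.e) (fun u => S.corr 0 β (u :: (J ++ [(0, a)]))))
    (fun a β J => qF X K (fun y => qw S (0, a) y.1 y.2 β J) +
        X.opL K (0, a) (fun z => S.corr 0 β (J ++ [z]))) β I
  have e4 := dc_add S w (fun (a : B) β J =>
      pf X (X.opL K) (fun u J => S.corr 0 β (u :: (J ++ [(0, a)]))) J)
    (fun a β J => (-1) * X.opL K (1, X.e) (fun u => S.corr 0 β (u :: (J ++ [(0, a)])))) β I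
  have e5 := dc_neg S w (fun (a : B) β J =>
    X.opL K (1, X.e) (fun u => S.corr 0 β (u :: (J ++ [(0, a)])))) β I
  rw [e1, e2, map_add, map_add, map_smul, e3, e4, e5, smul_eq_mul]
  ring

/-- the correction terms -/
theorem exc_step (K : ℕ) (w : ℕ × B) (β : E) (I : List (ℕ × B)) :
    dc S w (fun a β J => if β = 0 then two (X.R ^ K * X.η) (J ++ [(0, a)]) else 0) β I =
      pf X (c0 X K) (fun u J => S.corr 0 β (u :: (J ++ [w]))) I := by
  have hG : GS X (fun J => S.corr 0 β (J ++ [w])) := (corr_GS S 0 β).append [w]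
  have hins : pf X (c0 X K) (fun u J => S.corr 0 β (u :: (J ++ [w]))) I =
    ins (c0 X K) (fun J => S.corr 0 β (J ++ [w])) I := (ins_eq_pf hG I).symm
  rw [hins]
  have h1 : ∀ a b, X.η⁻¹ a b * ((X.mu b + 1 / 2) *
      cs X (fun β J => if β = 0 then two (X.R ^ K * X.η) (J ++ [(0, a)]) else 0)
        (fun β J => S.corr 0 β ((0, b) :: (J ++ [w]))) β I) =
      X.η⁻¹ a b * ((X.mu b + 1 / 2) *
        ins (fun x => (if x.1 = 0 then (X.R ^ K * X.η) x.2 a else 0) •
          (LinearMap.proj (0, b) : (ℕ × B → ℂ) →ₗ[ℂ] ℂ)) (fun J => S.corr 0 β (J ++ [w])) I) := by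
    intro a b
    by_cases h0 : X.η⁻¹ a b = 0
    · rw [h0]; ring
    · congr 2
      unfold cs
      rw [Finset.sum_eq_single (0, β)]
      · simp only [if_true]
        have f1 : (fun J => two (X.R ^ K * X.η) (J ++ [(0, a)])) =
            one (fun x : ℕ × B => if x.1 = 0 then (X.R ^ K * X.η) x.2 a else 0) := by
          rw [two_snoc]
          simp
        rw [f1]
        have f2 : (fun J => S.corr 0 β ((0, b) :: (J ++ [w]))) =
            fun J => (fun J => S.corr 0 β (J ++ [w])) ((0, b) :: J) := rfl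
        rw [f2]
        apply shuffle_one_left hG
        intro x hx
        simp only [ne_eq, ite_eq_right_iff, Classical.not_imp] at hx
        obtain ⟨n, d⟩ := x
        have f3 : X.par (0, a) = X.par (0, b) :=
          par_of_sum (w := 0) (by simpa using eta_inv_deg h0) 0 0
        rw [← f3]
        obtain ⟨c, _, hc⟩ : ∃ c ∈ univ, (X.R ^ K) d c * X.η c a ≠ 0 := by
          apply Finset.exists_ne_zero_of_sum_ne_zero
          rw [← Matrix.mul_apply]
          exact hx.2
        have f4 := (MDeg.R_pow K).par (left_ne_zero_of_mul hc) 0 n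
        have f5 : X.par (0, c) = X.par (0, a) :=
          par_of_sum (w := 0) (by simpa using X.η_deg c a (right_ne_zero_of_mul hc)) 0 0
        rw [← f4, f5]
      · intro v hv hne
        have : v.1 ≠ 0 := by
          intro h2
          apply hne
          rw [HasAntidiagonal.mem_antidiagonal, h2, zero_add] at hv
          exact Prod.ext h2 hv
        simp only [this, if_false]
        exact shuffle_zero_left _ _
      · intro hn
        exact absurd (by simp) hn
  unfold dc
  rw [Finset.sum_congr rfl fun a _ => Finset.sum_congr rfl fun b _ => h1 a b]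
  have h2 : ∀ x, c0 X K x = (∑ i ∈ (univ : Finset (B × B)), (X.η⁻¹ i.1 i.2 * (X.mu i.2 + 1 / 2)) •
      ((if x.1 = 0 then (X.R ^ K * X.η) x.2 i.1 else 0) •
          (LinearMap.proj (0, i.2) : (ℕ × B → ℂ) →ₗ[ℂ] ℂ))) := by
    intro x
    apply LinearMap.ext
    intro G
    rw [c0_apply]
    simp only [LinearMap.sum_apply, LinearMap.smul_apply, LinearMap.proj_apply, smul_eq_mul]
    split_ifs with hx
    · rw [← Finset.univ_product_univ, Finset.sum_product, Finset.sum_comm]
      apply Finset.sum_congr rfl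
      intro b _
      have f1 : (X.R ^ K) x.2 b = ∑ a, (X.R ^ K * X.η) x.2 a * X.η⁻¹ a b := by
        rw [← Matrix.mul_apply, mul_assoc, eta_mul_inv, mul_one]
      rw [f1, Finset.sum_mul]
      apply Finset.sum_congr rfl
      intro a _
      ring
    · simp
  have h3 : ∀ (L : List (ℕ × B)) (F : List (ℕ × B) → ℂ), ins (c0 X K) F L =
      ∑ i ∈ (univ : Finset (B × B)), (X.η⁻¹ i.1 i.2 * (X.mu i.2 + 1 / 2)) *
      ins (fun x => (if x.1 = 0 then (X.R ^ K * X.η) x.2 i.1 else 0) •
          (LinearMap.proj (0, i.2) : (ℕ × B → ℂ) →ₗ[ℂ] ℂ)) F L := by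
    intro L
    induction L with
    | nil => intro F; simp
    | cons x L ih =>
      intro F
      rw [ins_cons, ih, h2]
      simp only [ins_cons, mul_add, Finset.sum_add_distrib]
      congr 1
      simp only [LinearMap.sum_apply, LinearMap.smul_apply, LinearMap.proj_apply, smul_eq_mul]
  rw [h3, ← Finset.univ_product_univ, Finset.sum_product]
  apply Finset.sum_congr rfl
  intro a _
  apply Finset.sum_congr rfl
  intro b _
  ring

/-- **The Virasoro constraints in genus zero.** -/
theorem vir_genus_zero_snoc (K : ℕ) : ∀ (β : E) (I : List (ℕ × B)) (w : ℕ × B),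
    S.vir K 0 β (I ++ [w]) = 0 := by
  induction K with
  | zero =>
    intro β I w
    exact vir_zero S 0 β _
  | succ K ih =>
    intro β I w
    have h1 : ∀ β I w, ct S K w β I = (-1) * X.opL K w (fun z => S.corr 0 β (I ++ [z])) +
        (-1) * (if β = 0 then two (X.R ^ K * X.η) (I ++ [w]) else 0) := by
      intro β I w
      have := vir_snoc S K β I w
      rw [ih] at this
      linear_combination -this
    rw [vir_snoc, ct_succ S]
    have h2 : (fun (a : B) β J => ct S K (0, a) β J +
        X.opL K (0, a) (fun z => S.corr 0 β (J ++ [z]))) = fun a β J =>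
        (-1) * (if β = 0 then two (X.R ^ K * X.η) (J ++ [(0, a)]) else 0) := by
      funext a β J
      rw [h1]
      ring
    rw [h2, dc_neg, exc_step]
    have h3 : (fun z => ct S K z β I) = (-1 : ℂ) • (fun z => X.opL K z
        (fun y => S.corr 0 β (I ++ [y]))) + (-1 : ℂ) • (fun z =>
        if β = 0 then two (X.R ^ K * X.η) (I ++ [z]) else 0) := by
      funext z
      rw [h1]
      rfl
    rw [h3, map_add, map_smul, map_smul, ← opL_succ']
    have h4 : opA' X w (fun z => if β = 0 then two (X.R ^ K * X.η) (I ++ [z]) else 0) =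
        if β = 0 then two (X.R ^ (K + 1) * X.η) (I ++ [w]) else 0 := by
      split_ifs
      · exact two_step K I w
      · exact map_zero _
    rw [h4]
    simp only [smul_eq_mul]
    ring

/-- All Virasoro constraints of genus zero follow from the topological recursion relation. -/
theorem vir_genus_zero (K : ℕ) (β : E) (I : List (ℕ × B)) : S.vir K 0 β I = 0 := by
  rcases List.eq_nil_or_concat I with rfl | ⟨J, w, rfl⟩
  · have h1 := vir_dilaton S K 0 β []
    have h2 := vir_genus_zero_snoc S K β [] (1, X.e)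
    rw [List.nil_append] at h2
    rw [h2] at h1
    simp only [Nat.cast_zero, mul_zero, List.length_nil, add_zero, zero_sub] at h1
    have h3 : (2 : ℂ) ≠ 0 := two_ne_zero
    have h4 : (2 : ℂ) * S.vir K 0 β [] = 0 := by linear_combination h1
    exact (mul_eq_zero.mp h4).resolve_left h3
  · rw [List.concat_eq_append]
    exact vir_genus_zero_snoc S K β J w

end Vale.Agent.P269.H471
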