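import Vale.Agent.P269.H471.Defs

/-!
# The Libgober-Wood identity for complete intersections
-/

open Finset

namespace Vale.Agent.P269.H471

namespace LW

open PowerSeries

/-- coefficientwise derivative in `y` -/
noncomputable def dY (A : PowerSeries (Polynomial ℚ)) : PowerSeries (Polynomial ℚ) :=
  PowerSeries.mk fun n => Polynomial.derivative (PowerSeries.coeff n A)

theorem dY_mul (A A' : PowerSeries (Polynomial ℚ)) : dY (A * A') = dY A * A' + A * dY A' := by
  ext1 n
  simp only [dY, PowerSeries.coeff_mk, PowerSeries.coeff_mul, map_add, Polynomial.derivative_sum,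
    Polynomial.derivative_mul, Finset.sum_add_distrib]

theorem dY_one : dY 1 = 0 := by
  ext1 n
  simp only [dY, PowerSeries.coeff_mk, PowerSeries.coeff_one, map_zero]
  split_ifs <;> simp

/-- evaluation at `y = -1` -/
noncomputable def J : PowerSeries (Polynomial ℚ) →+* PowerSeries ℚ :=
  PowerSeries.map (Polynomial.evalRingHom (-1))

/-- `θ = h d/dh` -/
noncomputable def th (A : PowerSeries ℚ) : PowerSeries ℚ :=
  PowerSeries.mk fun n => (n : ℚ) * PowerSeries.coeff n A

theorem th_mul (A A' : PowerSeries ℚ) : th (A * A') = th A * A' + A * th A' := by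
  ext1 n
  simp only [th, PowerSeries.coeff_mk, PowerSeries.coeff_mul, map_add, ← Finset.sum_add_distrib,
    Finset.mul_sum]
  apply Finset.sum_congr rfl
  intro u hu
  rw [HasAntidiagonal.mem_antidiagonal] at hu
  rw [← hu]
  push_cast
  ring

theorem th_add (A A' : PowerSeries ℚ) : th (A + A') = th A + th A' := by
  ext1 n
  simp only [th, PowerSeries.coeff_mk, map_add]
  ring

theorem th_one : th 1 = 0 := by
  ext1 n
  simp only [th, PowerSeries.coeff_mk, PowerSeries.coeff_one, map_zero]
  split_ifs with h
  · rw [h]; simp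
  · simp

/-- The property behind the Libgober-Wood identity. -/
structure Pr (A : PowerSeries (Polynomial ℚ)) (r : ℚ) : Prop where
  one : J (dY A) = -(PowerSeries.C (1 / 2 : ℚ) * th (J A))
  two : J (dY (dY A)) = PowerSeries.C (1 / 4 : ℚ) * th (th (J A)) -
    PowerSeries.C (5 / 12 : ℚ) * th (J A) + PowerSeries.C (r / 6) * (PowerSeries.X * J A)

theorem C_half_sq : (PowerSeries.C (1 / 4 : ℚ) : PowerSeries ℚ) =
    PowerSeries.C (1 / 2 : ℚ) * PowerSeries.C (1 / 2 : ℚ) := by
  rw [← map_mul]; norm_num

theorem dY_add (A A' : PowerSeries (Polynomial ℚ)) : dY (A + A') = dY A + dY A' := by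
  ext1 n
  simp only [dY, PowerSeries.coeff_mk, map_add]

theorem Pr.mul {A A' : PowerSeries (Polynomial ℚ)} {r r' : ℚ} (h : Pr A r) (h' : Pr A' r') :
    Pr (A * A') (r + r') := by
  constructor
  · rw [dY_mul, map_add, map_mul, map_mul, map_mul, th_mul, h.one, h'.one]
    ring
  · rw [dY_mul, dY_add, dY_mul, dY_mul, map_add, map_add, map_add, map_mul, map_mul, map_mul,
      map_mul, th_mul, th_add, th_mul, th_mul, h.one, h'.one, h.two, h'.two]
    have e1 : (PowerSeries.C ((r + r') / 6) : PowerSeries ℚ) =
        PowerSeries.C (r / 6) + PowerSeries.C (r' / 6) := by rw [← map_add]; congr 1; ring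
    rw [e1, C_half_sq]
    have e2 : (PowerSeries.C (1 / 2 : ℚ) : PowerSeries ℚ) + PowerSeries.C (1 / 2 : ℚ) = 1 := by
      rw [← map_add]; norm_num
    linear_combination (0 : PowerSeries ℚ) * e2

theorem Pr.one' : Pr 1 0 := by
  constructor
  · rw [dY_one, map_zero, map_one, th_one, mul_zero, neg_zero]
  · have : dY (0 : PowerSeries (Polynomial ℚ)) = 0 := by
      ext1 n; simp [dY]
    rw [dY_one, this, map_zero, map_one, th_one]
    have h2 : th (0 : PowerSeries ℚ) = 0 := by ext1 n; simp [th]
    rw [h2]
    simp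

theorem Pr.pow {A : PowerSeries (Polynomial ℚ)} {r : ℚ} (h : Pr A r) (n : ℕ) :
    Pr (A ^ n) (n * r) := by
  induction n with
  | zero => simpa using Pr.one'
  | succ n ih =>
    rw [pow_succ]
    have := ih.mul h
    have e : (((n + 1 : ℕ) : ℚ)) * r = n * r + r := by push_cast; ring
    rw [e]
    exact this

theorem Pr.inv {A A' : PowerSeries (Polynomial ℚ)} {r : ℚ} (h : Pr A r) (hA : A * A' = 1) :
    Pr A' (-r) := by
  have hJ : J A * J A' = 1 := by rw [← map_mul, hA, map_one]
  have h1 : J (dY A) * J A' + J A * J (dY A') = 0 := by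
    rw [← map_mul, ← map_mul, ← map_add, ← dY_mul, hA, dY_one, map_zero]
  have ht : th (J A) * J A' + J A * th (J A') = 0 := by
    rw [← th_mul, hJ, th_one]
  have ht2 : th (th (J A)) * J A' + 2 * (th (J A) * th (J A')) + J A * th (th (J A')) = 0 := by
    have h3 : th (th (J A) * J A' + J A * th (J A')) = 0 := by
      rw [ht]; ext1 n; simp [th]
    rw [th_add, th_mul, th_mul] at h3
    linear_combination h3
  have h2 : J (dY (dY A)) * J A' + 2 * (J (dY A) * J (dY A')) + J A * J (dY (dY A')) = 0 := by
    have h3 : J (dY (dY (A * A'))) = 0 := by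
      rw [hA, dY_one]
      have : dY (0 : PowerSeries (Polynomial ℚ)) = 0 := by ext1 n; simp [dY]
      rw [this, map_zero]
    rw [dY_mul, dY_add, dY_mul, dY_mul, map_add, map_add, map_add, map_mul, map_mul,
      map_mul] at h3
    linear_combination h3
  have o1 : J (dY A') = -(PowerSeries.C (1 / 2 : ℚ) * th (J A')) := by
    have : J A * (J (dY A') + (PowerSeries.C (1 / 2 : ℚ) * th (J A'))) = 0 := by
      rw [h.one] at h1
      linear_combination h1 + PowerSeries.C (1 / 2 : ℚ) * ht
    have h4 : J A' * (J A * (J (dY A') + (PowerSeries.C (1 / 2 : ℚ) * th (J A')))) = 0 := by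
      rw [this, mul_zero]
    linear_combination h4 - (J (dY A') + (PowerSeries.C (1 / 2 : ℚ) * th (J A'))) * hJ
  constructor
  · exact o1
  · have e1 : (PowerSeries.C (-r / 6) : PowerSeries ℚ) = - PowerSeries.C (r / 6) := by
      rw [← map_neg]; congr 1; ring
    rw [e1]
    rw [h.one, o1, h.two] at h2
    have key : J A * (J (dY (dY A')) - (PowerSeries.C (1 / 4 : ℚ) * th (th (J A')) -
        PowerSeries.C (5 / 12 : ℚ) * th (J A') + -PowerSeries.C (r / 6) *
          (PowerSeries.X * J A'))) = 0 := by
      rw [C_half_sq] at h2 ⊢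
      linear_combination h2 - PowerSeries.C (1 / 2 : ℚ) * PowerSeries.C (1 / 2 : ℚ) * ht2 +
        PowerSeries.C (5 / 12 : ℚ) * ht
    have h4 : J A' * (J A * (J (dY (dY A')) - (PowerSeries.C (1 / 4 : ℚ) * th (th (J A')) -
        PowerSeries.C (5 / 12 : ℚ) * th (J A') + -PowerSeries.C (r / 6) *
          (PowerSeries.X * J A')))) = 0 := by rw [key, mul_zero]
    linear_combination h4 - (J (dY (dY A')) - (PowerSeries.C (1 / 4 : ℚ) * th (th (J A')) -
        PowerSeries.C (5 / 12 : ℚ) * th (J A') + -PowerSeries.C (r / 6) *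
          (PowerSeries.X * J A'))) * hJ

theorem J_coeff (A : PowerSeries (Polynomial ℚ)) (n : ℕ) :
    PowerSeries.coeff n (J A) = Polynomial.eval (-1) (PowerSeries.coeff n A) := by
  simp [J]

theorem J_dY_coeff (A : PowerSeries (Polynomial ℚ)) (n : ℕ) :
    PowerSeries.coeff n (J (dY A)) =
      Polynomial.eval (-1) (Polynomial.derivative (PowerSeries.coeff n A)) := by
  simp [J, dY]

theorem J_dY_dY_coeff (A : PowerSeries (Polynomial ℚ)) (n : ℕ) :
    PowerSeries.coeff n (J (dY (dY A))) =
      Polynomial.eval (-1) (Polynomial.derivative (Polynomial.derivative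
        (PowerSeries.coeff n A))) := by
  simp [J, dY]

/-- coefficients of the rescaled genus series -/
theorem coeff_rescale (e n : ℕ) :
    PowerSeries.coeff n (PowerSeries.rescale (e : Polynomial ℚ) CIType.genusSeries) =
      (e : Polynomial ℚ) ^ n * ((if n = 1 then 1 else 0) +
        Polynomial.C (bernoulli n / (n.factorial : ℚ)) * (1 + Polynomial.X) ^ n) := by
  rw [PowerSeries.coeff_rescale]
  simp only [CIType.genusSeries, map_add, PowerSeries.coeff_X, PowerSeries.coeff_mk]

theorem Pr.rescale (e : ℕ) : Pr (PowerSeries.rescale (e : Polynomial ℚ) CIType.genusSeries) e := by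
  have c0 : ∀ n, PowerSeries.coeff n (J (PowerSeries.rescale (e : Polynomial ℚ)
      CIType.genusSeries)) = if n = 0 then 1 else if n = 1 then (e : ℚ) else 0 := by
    intro n
    rw [J_coeff, coeff_rescale]
    match n with
    | 0 => simp
    | 1 => simp
    | n + 2 => simp
  have c1 : ∀ n, PowerSeries.coeff n (J (dY (PowerSeries.rescale (e : Polynomial ℚ)
      CIType.genusSeries))) = if n = 1 then -(e : ℚ) / 2 else 0 := by
    intro n
    rw [J_dY_coeff, coeff_rescale]
    match n with
    | 0 => simp
    | 1 => simp [Polynomial.derivative_mul, bernoulli_one]; ring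
    | n + 2 =>
      simp [Polynomial.derivative_mul, Polynomial.derivative_pow]
  have c2 : ∀ n, PowerSeries.coeff n (J (dY (dY (PowerSeries.rescale (e : Polynomial ℚ)
      CIType.genusSeries)))) = if n = 2 then (e : ℚ) ^ 2 / 6 else 0 := by
    intro n
    rw [J_dY_dY_coeff, coeff_rescale]
    match n with
    | 0 => simp
    | 1 => simp [Polynomial.derivative_mul, bernoulli_one]
    | 2 =>
      simp [Polynomial.derivative_mul, Polynomial.derivative_pow, bernoulli_two]
      ring
    | n + 3 =>
      simp [Polynomial.derivative_mul, Polynomial.derivative_pow]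
  constructor
  · ext1 n
    rw [c1]
    simp only [th, map_neg, PowerSeries.coeff_C_mul, PowerSeries.coeff_mk, c0]
    match n with
    | 0 => simp
    | 1 => simp; ring
    | n + 2 => simp
  · ext1 n
    rw [c2]
    simp only [th, map_sub, map_add, PowerSeries.coeff_C_mul, PowerSeries.coeff_mk, c0]
    match n with
    | 0 => simp
    | 1 =>
      have : PowerSeries.coeff 1 (PowerSeries.X * J (PowerSeries.rescale (e : Polynomial ℚ)
        CIType.genusSeries)) = PowerSeries.coeff 0 (J (PowerSeries.rescale (e : Polynomial ℚ)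
        CIType.genusSeries)) := by
        rw [show (1 : ℕ) = 0 + 1 from rfl, PowerSeries.coeff_succ_X_mul]
      rw [this, c0]
      simp
      ring
    | 2 =>
      have : PowerSeries.coeff 2 (PowerSeries.X * J (PowerSeries.rescale (e : Polynomial ℚ)
        CIType.genusSeries)) = PowerSeries.coeff 1 (J (PowerSeries.rescale (e : Polynomial ℚ)
        CIType.genusSeries)) := by
        rw [show (2 : ℕ) = 1 + 1 from rfl, PowerSeries.coeff_succ_X_mul]
      rw [this, c0]
      simp
      ring
    | n + 3 =>
      have : PowerSeries.coeff (n + 3) (PowerSeries.X * J (PowerSeries.rescale (e : Polynomial ℚ)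
        CIType.genusSeries)) = PowerSeries.coeff (n + 2) (J (PowerSeries.rescale
          (e : Polynomial ℚ) CIType.genusSeries)) := by
        rw [show n + 3 = (n + 2) + 1 from rfl, PowerSeries.coeff_succ_X_mul]
      rw [this, c0]
      simp

theorem Pr.genus : Pr CIType.genusSeries 1 := by
  have := Pr.rescale 1
  simpa using this

end LW

end Vale.Agent.P269.H471
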