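import Vale.Agent.P269.H471.Hodge

/-!
# The Libgober-Wood identity for complete intersections, continued
-/

open Finset

namespace Vale.Agent.P269.H471

namespace LW

theorem constCoeff_rescale (e : ℕ) : PowerSeries.constantCoeff
    (PowerSeries.rescale (e : Polynomial ℚ) CIType.genusSeries) = ((1 : (Polynomial ℚ)ˣ) : Polynomial ℚ) := by
  rw [← PowerSeries.coeff_zero_eq_constantCoeff_apply, coeff_rescale]
  simp

theorem rescale_mul_inv (e : ℕ) : PowerSeries.rescale (e : Polynomial ℚ) CIType.genusSeries *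
    PowerSeries.invOfUnit (PowerSeries.rescale (e : Polynomial ℚ) CIType.genusSeries) 1 = 1 :=
  PowerSeries.mul_invOfUnit _ _ (constCoeff_rescale e)

theorem Pr.list (l : List ℕ) : Pr ((l.map fun e : ℕ =>
    PowerSeries.invOfUnit (PowerSeries.rescale (e : Polynomial ℚ) CIType.genusSeries) 1).prod)
    (-(l.sum : ℚ)) := by
  induction l with
  | nil => simpa using Pr.one'
  | cons e l ih =>
    rw [List.map_cons, List.prod_cons, List.sum_cons]
    have h := ((Pr.rescale e).inv (rescale_mul_inv e)).mul ih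
    have : (-((e + l.sum : ℕ) : ℚ)) = -(e : ℚ) + -(l.sum : ℚ) := by push_cast; ring
    rw [this]
    exact h

/-- the series whose coefficients are the `chi_y` genera -/
noncomputable def chiSeries (T : CIType) : PowerSeries (Polynomial ℚ) :=
  CIType.genusSeries ^ (T.N + 1) * (T.d.map fun e : ℕ =>
    PowerSeries.invOfUnit (PowerSeries.rescale (e : Polynomial ℚ) CIType.genusSeries) 1).prod

theorem Pr.chiSeries (T : CIType) : Pr (LW.chiSeries T) (T.index : ℚ) := by
  have h := (Pr.genus.pow (T.N + 1)).mul (Pr.list T.d)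
  have : (T.index : ℚ) = ((T.N + 1 : ℕ) : ℚ) * 1 + -(T.d.sum : ℚ) := by
    unfold CIType.index
    rw [Int.cast_sub, Int.cast_natCast, Int.cast_add, Int.cast_natCast, Int.cast_one,
      Nat.cast_add, Nat.cast_one]
    ring
  rw [this]
  exact h

theorem J_rescale (e : ℕ) : J (PowerSeries.rescale (e : Polynomial ℚ) CIType.genusSeries) =
    1 + PowerSeries.C (e : ℚ) * PowerSeries.X := by
  ext1 n
  rw [J_coeff, coeff_rescale, map_add, PowerSeries.coeff_one, PowerSeries.coeff_C_mul,
    PowerSeries.coeff_X]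
  match n with
  | 0 => simp
  | 1 => simp
  | n + 2 => simp

theorem J_inv (e : ℕ) : J (PowerSeries.invOfUnit (PowerSeries.rescale (e : Polynomial ℚ)
    CIType.genusSeries) 1) =
    PowerSeries.invOfUnit (1 + PowerSeries.C (e : ℚ) * PowerSeries.X) 1 := by
  have h1 : (1 + PowerSeries.C (e : ℚ) * PowerSeries.X) * J (PowerSeries.invOfUnit
      (PowerSeries.rescale (e : Polynomial ℚ) CIType.genusSeries) 1) = 1 := by
    rw [← J_rescale, ← map_mul, rescale_mul_inv, map_one]
  have h2 : (1 + PowerSeries.C (e : ℚ) * PowerSeries.X) *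
      PowerSeries.invOfUnit (1 + PowerSeries.C (e : ℚ) * PowerSeries.X) 1 = 1 := by
    apply PowerSeries.mul_invOfUnit
    simp
  set a := (1 + PowerSeries.C (e : ℚ) * PowerSeries.X)
  set b := J (PowerSeries.invOfUnit
      (PowerSeries.rescale (e : Polynomial ℚ) CIType.genusSeries) 1)
  set c := PowerSeries.invOfUnit a 1
  calc b = b * (a * c) := by rw [h2, mul_one]
    _ = (a * b) * c := by ring
    _ = c := by rw [h1, one_mul]

theorem J_chiSeries (T : CIType) : J (chiSeries T) = T.chern := by
  unfold chiSeries CIType.chern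
  rw [map_mul, map_pow, map_list_prod, List.map_map]
  have h1 : J CIType.genusSeries = 1 + PowerSeries.X := by
    have := J_rescale 1
    simpa using this
  rw [h1]
  congr 1
  congr 1
  apply List.map_congr_left
  intro e _
  exact J_inv e

variable {T : CIType} {B : Type} [Fintype B] [DecidableEq B] (X : Coh T B)

theorem D_pos (T : CIType) : 2 ≤ T.D := by
  have := T.dim_ge
  unfold CIType.D
  omega

theorem chiY_eq (T : CIType) : T.chiY = Polynomial.C (T.degree : ℚ) *
    PowerSeries.coeff T.D (chiSeries T) := rfl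

theorem s0 : ∑ b, (-1 : ℚ) ^ (X.p b + X.q b) = T.chernNumber T.D := by
  have h := congrArg (Polynomial.eval (-1)) X.hodge
  rw [chiY_eq, Polynomial.eval_mul, Polynomial.eval_C, ← J_coeff, J_chiSeries,
    Polynomial.eval_finsetSum] at h
  unfold CIType.chernNumber
  rw [← h]
  apply Finset.sum_congr rfl
  intro b _
  simp only [Polynomial.eval_mul, Polynomial.eval_pow, Polynomial.eval_neg, Polynomial.eval_one,
    Polynomial.eval_X, pow_add]
  ring

theorem term_eq (b : B) : ((-1 : Polynomial ℚ) ^ X.q b * Polynomial.X ^ X.p b) =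
    Polynomial.C ((-1 : ℚ) ^ X.q b) * Polynomial.X ^ X.p b := by simp

theorem s1 : ∑ b, (-1 : ℚ) ^ (X.p b + X.q b) * X.p b = T.D / 2 * T.chernNumber T.D := by
  have h := congrArg (fun P => Polynomial.eval (-1) (Polynomial.derivative P)) X.hodge
  beta_reduce at h
  rw [chiY_eq, Polynomial.derivative_C_mul, Polynomial.eval_mul, Polynomial.eval_C, ← J_dY_coeff,
    (Pr.chiSeries T).one, J_chiSeries, Polynomial.derivative_sum,
    Polynomial.eval_finsetSum] at h
  simp only [map_neg, PowerSeries.coeff_C_mul, th, PowerSeries.coeff_mk] at h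
  unfold CIType.chernNumber
  have h2 : ∑ b, (-1 : ℚ) ^ (X.p b + X.q b) * X.p b =
      - ∑ b, Polynomial.eval (-1) (Polynomial.derivative
        ((-1 : Polynomial ℚ) ^ X.q b * Polynomial.X ^ X.p b)) := by
    rw [← Finset.sum_neg_distrib]
    apply Finset.sum_congr rfl
    intro b _
    rw [term_eq, Polynomial.derivative_C_mul, Polynomial.derivative_X_pow]
    simp only [Polynomial.eval_mul, Polynomial.eval_C, Polynomial.eval_pow, Polynomial.eval_X]
    cases hp : X.p b with
    | zero => simp
    | succ n =>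
      rw [pow_add, Nat.add_sub_cancel, pow_succ]
      push_cast
      ring
  rw [h2, h]
  ring

theorem s2 : ∑ b, (-1 : ℚ) ^ (X.p b + X.q b) * (X.p b * (X.p b - 1)) =
    ((T.D : ℚ) ^ 2 / 4 - 5 / 12 * T.D) * T.chernNumber T.D +
      T.index / 6 * T.chernNumber (T.D - 1) := by
  have h := congrArg (fun P => Polynomial.eval (-1) (Polynomial.derivative
    (Polynomial.derivative P))) X.hodge
  beta_reduce at h
  rw [chiY_eq, Polynomial.derivative_C_mul, Polynomial.derivative_C_mul, Polynomial.eval_mul,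
    Polynomial.eval_C, ← J_dY_dY_coeff,
    (Pr.chiSeries T).two, J_chiSeries, Polynomial.derivative_sum, Polynomial.derivative_sum,
    Polynomial.eval_finsetSum] at h
  have hD : T.D = (T.D - 1) + 1 := by have := D_pos T; omega
  have hX : PowerSeries.coeff T.D (PowerSeries.X * T.chern) =
      PowerSeries.coeff (T.D - 1) T.chern := by
    conv_lhs => rw [hD]
    rw [PowerSeries.coeff_succ_X_mul]
  simp only [map_sub, map_add, PowerSeries.coeff_C_mul, th, PowerSeries.coeff_mk] at h
  rw [hX] at h
  unfold CIType.chernNumber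
  have h2 : ∑ b, (-1 : ℚ) ^ (X.p b + X.q b) * (X.p b * (X.p b - 1)) =
      ∑ b, Polynomial.eval (-1) (Polynomial.derivative (Polynomial.derivative
        ((-1 : Polynomial ℚ) ^ X.q b * Polynomial.X ^ X.p b))) := by
    apply Finset.sum_congr rfl
    intro b _
    rw [term_eq, Polynomial.derivative_C_mul, Polynomial.derivative_X_pow,
      Polynomial.derivative_C_mul, Polynomial.derivative_C_mul, Polynomial.derivative_X_pow]
    simp only [Polynomial.eval_mul, Polynomial.eval_C, Polynomial.eval_pow, Polynomial.eval_X]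
    match hp : X.p b with
    | 0 => simp
    | 1 => simp
    | n + 2 =>
      have : n + 2 - 1 - 1 = n := by omega
      rw [this, pow_add, pow_add]
      have h3 : ((n + 2 - 1 : ℕ) : ℚ) = n + 1 := by
        have : n + 2 - 1 = n + 1 := by omega
        rw [this]; push_cast; ring
      rw [h3]
      push_cast
      ring
  rw [h2, h]
  ring

theorem euler_eq : X.euler = (T.chernNumber T.D : ℂ) := by
  rw [← s0 X]
  unfold Coh.euler
  push_cast
  rfl

theorem libgoberWood : X.strMuSq = (T.D : ℂ) / 12 * (T.chernNumber T.D : ℂ) +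
    (T.index : ℂ) / 6 * (T.chernNumber (T.D - 1) : ℂ) := by
  have h0 : ∑ b, (-1 : ℂ) ^ (X.p b + X.q b) = (T.chernNumber T.D : ℂ) := euler_eq X
  have h1 : ∑ b, (-1 : ℂ) ^ (X.p b + X.q b) * X.p b = T.D / 2 * (T.chernNumber T.D : ℂ) := by
    have := congrArg (fun x : ℚ => (x : ℂ)) (s1 X)
    push_cast at this
    exact this
  have h2 : ∑ b, (-1 : ℂ) ^ (X.p b + X.q b) * (X.p b * (X.p b - 1)) =
      ((T.D : ℂ) ^ 2 / 4 - 5 / 12 * T.D) * (T.chernNumber T.D : ℂ) +
      T.index / 6 * (T.chernNumber (T.D - 1) : ℂ) := by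
    have := congrArg (fun x : ℚ => (x : ℂ)) (s2 X)
    push_cast at this
    exact this
  have h3 : X.strMuSq = ∑ b, (-1 : ℂ) ^ (X.p b + X.q b) * (X.p b * (X.p b - 1)) +
      (1 - T.D) * ∑ b, (-1 : ℂ) ^ (X.p b + X.q b) * X.p b +
      (T.D : ℂ) ^ 2 / 4 * ∑ b, (-1 : ℂ) ^ (X.p b + X.q b) := by
    unfold Coh.strMuSq Coh.mu
    rw [Finset.mul_sum, Finset.mul_sum, ← Finset.sum_add_distrib, ← Finset.sum_add_distrib]
    apply Finset.sum_congr rfl
    intro b _
    ring
  rw [h3, h0, h1, h2]
  ring

end LW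

end Vale.Agent.P269.H471
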