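import Vale.Agent.P269.H471.Defs

/-!
# Algebra of functions on lists of insertions
-/

open Finset

namespace Vale.Agent.P269.H471

theorem sg_comm (a b : ZMod 2) : sg a b = sg b a := by
  unfold sg; simp only [and_comm]

theorem sg_mul_self (a b : ZMod 2) : sg a b * sg a b = 1 := by
  unfold sg; split_ifs <;> norm_num

@[simp] theorem sg_zero_left (a : ZMod 2) : sg 0 a = 1 := by
  unfold sg; rw [if_neg]; rintro ⟨h, _⟩; exact absurd h (by decide)

@[simp] theorem sg_zero_right (a : ZMod 2) : sg a 0 = 1 := by
  rw [sg_comm, sg_zero_left]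

theorem sg_add_right (a b c : ZMod 2) : sg a (b + c) = sg a b * sg a c := by
  have h01 : ∀ x : ZMod 2, x = 0 ∨ x = 1 := by decide
  have h2 : (1 : ZMod 2) + 1 = 0 := by decide
  rcases h01 a with rfl | rfl <;> rcases h01 b with rfl | rfl <;>
    rcases h01 c with rfl | rfl <;> simp [sg, h2]

theorem sg_add_left (a b c : ZMod 2) : sg (a + b) c = sg a c * sg b c := by
  rw [sg_comm, sg_add_right, sg_comm a c, sg_comm b c]

theorem sg_mul_self' (a b : ZMod 2) : sg a b * sg b a = 1 := by
  rw [sg_comm b a, sg_mul_self]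

variable {T : CIType} {B : Type} [Fintype B] [DecidableEq B] (X : Coh T B)

/-- Graded symmetric functions on lists. -/
def GS (F : List (ℕ × B) → ℂ) : Prop :=
  ∀ J x y I, F (J ++ x :: y :: I) = sg (X.par x) (X.par y) * F (J ++ y :: x :: I)

/-- Parity preserving operators. -/
def PP (A : ℕ × B → (ℕ × B → ℂ) →ₗ[ℂ] ℂ) : Prop :=
  ∀ x G G', (∀ y, X.par y = X.par x → G y = G' y) → A x G = A x G'

/-- Linear functionals commuting with all other ones. -/
def Fub {ι : Type} (φ : (ι → ℂ) →ₗ[ℂ] ℂ) : Prop :=
  ∀ (κ : Type) (ψ : (κ → ℂ) →ₗ[ℂ] ℂ) (G : κ → ι → ℂ),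
    ψ (fun y => φ (G y)) = φ (fun z => ψ (fun y => G y z))

theorem Fub.proj {ι : Type} (i : ι) : Fub (LinearMap.proj i : (ι → ℂ) →ₗ[ℂ] ℂ) :=
  fun _ _ _ => rfl

theorem Fub.zero {ι : Type} : Fub (0 : (ι → ℂ) →ₗ[ℂ] ℂ) := by
  intro κ ψ G
  simp only [LinearMap.zero_apply]
  exact map_zero ψ

theorem Fub.add {ι : Type} {φ φ' : (ι → ℂ) →ₗ[ℂ] ℂ} (h : Fub φ) (h' : Fub φ') :
    Fub (φ + φ') := by
  intro κ ψ G
  simp only [LinearMap.add_apply]
  rw [← h, ← h', ← map_add]
  rfl

theorem Fub.smul {ι : Type} {φ : (ι → ℂ) →ₗ[ℂ] ℂ} (c : ℂ) (h : Fub φ) :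
    Fub (c • φ) := by
  intro κ ψ G
  simp only [LinearMap.smul_apply]
  rw [← h, ← map_smul]
  rfl

theorem Fub.sum {ι κ' : Type} (s : Finset κ') (φ : κ' → (ι → ℂ) →ₗ[ℂ] ℂ)
    (h : ∀ i ∈ s, Fub (φ i)) : Fub (∑ i ∈ s, φ i) := by
  classical
  induction s using Finset.induction_on with
  | empty => simpa using Fub.zero
  | insert a s ha ih =>
    rw [Finset.sum_insert ha]
    exact (h a (Finset.mem_insert_self a s)).add
      (ih fun i hi => h i (Finset.mem_insert_of_mem hi))

omit [Fintype B] [DecidableEq B] in
theorem Fub.ev (n : ℤ) (b : B) : Fub (ev n b) := by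
  unfold H471.ev
  split_ifs
  · exact Fub.proj _
  · exact Fub.zero

section InsLemmas

variable {A A' : ℕ × B → (ℕ × B → ℂ) →ₗ[ℂ] ℂ}

omit [Fintype B] [DecidableEq B] in
@[simp] theorem ins_nil (F : List (ℕ × B) → ℂ) : ins A F [] = 0 := rfl

omit [Fintype B] [DecidableEq B] in
theorem ins_cons (F : List (ℕ × B) → ℂ) (x I) :
    ins A F (x :: I) = A x (fun y => F (y :: I)) + ins A (fun J => F (x :: J)) I := rfl

omit [Fintype B] [DecidableEq B] in
theorem ins_add (F G : List (ℕ × B) → ℂ) (I) :
    ins A (fun J => F J + G J) I = ins A F I + ins A G I := by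
  induction I generalizing F G with
  | nil => simp
  | cons x I ih =>
    rw [ins_cons, ins_cons, ins_cons, ih]
    have : (fun y => F (y :: I) + G (y :: I)) = (fun y => F (y :: I)) + fun y => G (y :: I) := rfl
    rw [this, map_add]
    ring

omit [Fintype B] [DecidableEq B] in
theorem ins_smul (c : ℂ) (F : List (ℕ × B) → ℂ) (I) :
    ins A (fun J => c * F J) I = c * ins A F I := by
  induction I generalizing F with
  | nil => simp
  | cons x I ih =>
    rw [ins_cons, ins_cons, ih]
    have : (fun y => c * F (y :: I)) = c • (fun y => F (y :: I)) := rfl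
    rw [this, map_smul, smul_eq_mul]
    ring

omit [Fintype B] [DecidableEq B] in
theorem ins_zero (I) : ins A (fun _ => 0) I = 0 := by
  have := ins_smul (A := A) 0 (fun _ => 0) I
  simpa using this

omit [Fintype B] [DecidableEq B] in
theorem ins_sub (F G : List (ℕ × B) → ℂ) (I) :
    ins A (fun J => F J - G J) I = ins A F I - ins A G I := by
  have h : (fun J => F J - G J) = fun J => F J + (-1) * G J := by
    funext J; ring
  rw [h, ins_add, ins_smul]; ring

omit [Fintype B] [DecidableEq B] in
theorem ins_neg (F : List (ℕ × B) → ℂ) (I) :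
    ins A (fun J => - F J) I = - ins A F I := by
  have h : (fun J => - F J) = fun J => (-1) * F J := by
    funext J; ring
  rw [h, ins_smul]; ring

omit [Fintype B] [DecidableEq B] in
theorem ins_sum {ι : Type} (s : Finset ι) (F : ι → List (ℕ × B) → ℂ) (I) :
    ins A (fun J => ∑ i ∈ s, F i J) I = ∑ i ∈ s, ins A (F i) I := by
  classical
  induction s using Finset.induction_on with
  | empty => simp [ins_zero]
  | insert a s ha ih =>
    simp only [Finset.sum_insert ha, ins_add, ih]

omit [Fintype B] [DecidableEq B] in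
theorem ins_congr {F G : List (ℕ × B) → ℂ} (I) (h : ∀ J, J.length = I.length → F J = G J) :
    ins A F I = ins A G I := by
  induction I generalizing F G with
  | nil => rfl
  | cons x I ih =>
    rw [ins_cons, ins_cons, ih (G := fun J => G (x :: J)) (fun J hJ => h _ (by simp [hJ]))]
    congr 2
    funext y
    exact h _ (by simp)

omit [Fintype B] [DecidableEq B] in
/-- operators may be added -/
theorem ins_op_add (F : List (ℕ × B) → ℂ) (I) :
    ins (fun x => A x + A' x) F I = ins A F I + ins A' F I := by
  induction I generalizing F with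
  | nil => simp
  | cons x I ih =>
    rw [ins_cons, ins_cons, ins_cons, ih, LinearMap.add_apply]
    ring

omit [Fintype B] [DecidableEq B] in
theorem ins_op_smul (c : ℂ) (F : List (ℕ × B) → ℂ) (I) :
    ins (fun x => c • A x) F I = c * ins A F I := by
  induction I generalizing F with
  | nil => simp
  | cons x I ih =>
    rw [ins_cons, ins_cons, ih, LinearMap.smul_apply, smul_eq_mul]
    ring

omit [Fintype B] [DecidableEq B] in
theorem ins_op_zero (F : List (ℕ × B) → ℂ) (I) :
    ins (fun _ => 0) F I = 0 := by
  induction I generalizing F with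
  | nil => simp
  | cons x I ih => rw [ins_cons, ih]; simp

omit [Fintype B] [DecidableEq B] in
theorem ins_op_congr (h : ∀ x, A x = A' x) (F : List (ℕ × B) → ℂ) (I) :
    ins A F I = ins A' F I := by
  have : A = A' := funext h
  rw [this]

omit [Fintype B] [DecidableEq B] in
theorem ins_lin (hA : ∀ x, Fub (A x)) {ι : Type} (ψ : (ι → ℂ) →ₗ[ℂ] ℂ)
    (F : ι → List (ℕ × B) → ℂ) (I) :
    ins A (fun J => ψ (fun i => F i J)) I = ψ (fun i => ins A (F i) I) := by
  induction I generalizing F with
  | nil =>
    simp only [ins_nil]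
    exact (map_zero ψ).symm
  | cons x I ih =>
    simp only [ins_cons]
    rw [ih (fun i J => F i (x :: J))]
    have : (fun i => (A x) (fun y => F i (y :: I)) + ins A (fun J => F i (x :: J)) I)
      = (fun i => (A x) (fun y => F i (y :: I))) + fun i => ins A (fun J => F i (x :: J)) I := rfl
    rw [this, map_add, hA x ι ψ (fun i y => F i (y :: I))]

omit [Fintype B] [DecidableEq B] in
theorem ins_append_singleton (F : List (ℕ × B) → ℂ) (J w) :
    ins A F (J ++ [w]) = ins A (fun J' => F (J' ++ [w])) J + A w (fun y => F (J ++ [y])) := by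
  induction J generalizing F with
  | nil => simp [ins_cons]
  | cons x J ih =>
    simp only [List.cons_append, ins_cons]
    rw [ih]
    ring

/-- The commutator of two operators. -/
noncomputable def comm (A A' : ℕ × B → (ℕ × B → ℂ) →ₗ[ℂ] ℂ) (x : ℕ × B) :
    (ℕ × B → ℂ) →ₗ[ℂ] ℂ :=
  (A x).comp (LinearMap.pi A') - (A' x).comp (LinearMap.pi A)

omit [Fintype B] [DecidableEq B] in
theorem comm_apply (x : ℕ × B) (G : ℕ × B → ℂ) :
    comm A A' x G = A x (fun y => A' y G) - A' x (fun y => A y G) := rfl

omit [Fintype B] [DecidableEq B] in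
theorem ins_ins (hA : ∀ x, Fub (A x)) (hA' : ∀ x, Fub (A' x)) (F : List (ℕ × B) → ℂ) (I) :
    ins A (ins A' F) I = ins A' (ins A F) I + ins (comm A A') F I := by
  induction I generalizing F with
  | nil => simp
  | cons x I ih =>
    simp only [ins_cons]
    have e1 : (fun y => (A' y) (fun z => F (z :: I)) + ins A' (fun J => F (y :: J)) I)
      = (fun y => (A' y) (fun z => F (z :: I))) + fun y => ins A' (fun J => F (y :: J)) I := rfl
    have e2 : (fun y => (A y) (fun z => F (z :: I)) + ins A (fun J => F (y :: J)) I)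
      = (fun y => (A y) (fun z => F (z :: I))) + fun y => ins A (fun J => F (y :: J)) I := rfl
    rw [e1, e2, map_add, map_add, ins_add, ins_add,
      ins_lin hA (A' x) (fun y J => F (y :: J)), ins_lin hA' (A x) (fun y J => F (y :: J)),
      ih, comm_apply]
    ring

end InsLemmas

section GSLemmas

variable {X}

theorem GS.cons {F : List (ℕ × B) → ℂ} (h : GS X F) (z : ℕ × B) : GS X (fun J => F (z :: J)) := by
  intro J x y I
  exact h (z :: J) x y I

theorem GS.append {F : List (ℕ × B) → ℂ} (h : GS X F) (L : List (ℕ × B)) :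
    GS X (fun J => F (J ++ L)) := by
  intro J x y I
  simpa using h J x y (I ++ L)

theorem GS.prepend {F : List (ℕ × B) → ℂ} (h : GS X F) (L : List (ℕ × B)) :
    GS X (fun J => F (L ++ J)) := by
  intro J x y I
  simpa using h (L ++ J) x y I

theorem GS.swap {F : List (ℕ × B) → ℂ} (h : GS X F) (x y I) :
    F (x :: y :: I) = sg (X.par x) (X.par y) * F (y :: x :: I) := h [] x y I

theorem GS.front {F : List (ℕ × B) → ℂ} (h : GS X F) (J z I) :
    F (J ++ z :: I) = sg (X.par z) ((J.map X.par).sum) * F (z :: (J ++ I)) := by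
  induction J generalizing F with
  | nil => simp
  | cons x J ih =>
    rw [List.cons_append, ih (h.cons x), h.swap x z, List.map_cons, List.sum_cons, sg_add_right,
      sg_comm (X.par x)]
    simp only [List.cons_append]
    ring

theorem GS.front_even {F : List (ℕ × B) → ℂ} (h : GS X F) (J z I) (hz : X.par z = 0) :
    F (J ++ z :: I) = F (z :: (J ++ I)) := by
  rw [h.front, hz, sg_zero_left, one_mul]

theorem GS.swap_even {F : List (ℕ × B) → ℂ} (h : GS X F) (x z I) (hz : X.par z = 0) :
    F (x :: z :: I) = F (z :: x :: I) := by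
  rw [h.swap, hz, sg_zero_right, one_mul]

theorem GS.add {F G : List (ℕ × B) → ℂ} (h : GS X F) (h' : GS X G) :
    GS X (fun J => F J + G J) := by
  intro J x y I
  simp only
  rw [h J x y I, h' J x y I]; ring

theorem GS.smul {F : List (ℕ × B) → ℂ} (c : ℂ) (h : GS X F) :
    GS X (fun J => c * F J) := by
  intro J x y I
  simp only
  rw [h J x y I]; ring

theorem GS.zero : GS X (fun _ : List (ℕ × B) => 0) := by
  intro J x y I; simp

theorem GS.sum {ι : Type} (s : Finset ι) (F : ι → List (ℕ × B) → ℂ)
    (h : ∀ i ∈ s, GS X (F i)) : GS X (fun J => ∑ i ∈ s, F i J) := by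
  intro J x y I
  simp only
  rw [Finset.mul_sum]
  exact Finset.sum_congr rfl fun i hi => h i hi J x y I

theorem GS.lin {ι : Type} (φ : (ι → ℂ) →ₗ[ℂ] ℂ) (F : ι → List (ℕ × B) → ℂ)
    (h : ∀ i, GS X (F i)) : GS X (fun J => φ (fun i => F i J)) := by
  intro J x y I
  simp only
  rw [← smul_eq_mul, ← map_smul]
  congr 1
  funext i
  exact h i J x y I

theorem GS.ins {A : ℕ × B → (ℕ × B → ℂ) →ₗ[ℂ] ℂ} (hA : PP X A) {F : List (ℕ × B) → ℂ}
    (h : GS X F) : GS X (ins A F) := by
  intro J
  induction J generalizing F with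
  | nil =>
    intro x y I
    simp only [List.nil_append, ins_cons]
    have e3 : H471.ins A (fun J => F (x :: y :: J)) I =
        sg (X.par x) (X.par y) * H471.ins A (fun J => F (y :: x :: J)) I := by
      rw [← ins_smul]
      congr 1
      funext J
      exact h.swap x y J
    have e1 : (A x) (fun z => F (z :: y :: I)) =
        sg (X.par x) (X.par y) * (A x) (fun z => F (y :: z :: I)) := by
      rw [← smul_eq_mul, ← map_smul]
      apply hA
      intro z hz
      simp only [Pi.smul_apply, smul_eq_mul]
      rw [h.swap z y, hz]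
    have e2 : (A y) (fun z => F (x :: z :: I)) =
        sg (X.par x) (X.par y) * (A y) (fun z => F (z :: x :: I)) := by
      rw [← smul_eq_mul, ← map_smul]
      apply hA
      intro z hz
      simp only [Pi.smul_apply, smul_eq_mul]
      rw [h.swap x z, hz]
    rw [e1, e2, e3]; ring
  | cons z J ih =>
    intro x y I
    simp only [List.cons_append, ins_cons]
    rw [ih (h.cons z) x y I]
    have e1 : (A z) (fun w => F (w :: (J ++ x :: y :: I))) =
        sg (X.par x) (X.par y) * (A z) (fun w => F (w :: (J ++ y :: x :: I))) := by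
      rw [← smul_eq_mul, ← map_smul]
      congr 1
      funext w
      exact h (w :: J) x y I
    rw [e1]; ring

end GSLemmas

section Shuffle

variable {X}

theorem sgn_cons (x y : ℕ × B) (J : List (ℕ × B)) :
    X.sgn x (y :: J) = sg (X.par x) (X.par y) * X.sgn x J := by
  simp [Coh.sgn, sg_add_right]

theorem sgn_nil (x : ℕ × B) : X.sgn x [] = 1 := by simp [Coh.sgn]

theorem sgn_even {x : ℕ × B} (hx : X.par x = 0) (J : List (ℕ × B)) : X.sgn x J = 1 := by
  simp [Coh.sgn, hx]

theorem sgn_swap (z : ℕ × B) (J x y I) : X.sgn z (J ++ x :: y :: I) = X.sgn z (J ++ y :: x :: I) := by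
  simp only [Coh.sgn, List.map_append, List.map_cons, List.sum_append, List.sum_cons]
  congr 1
  ring

theorem GS.sgn {F : List (ℕ × B) → ℂ} (z : ℕ × B) (h : GS X F) :
    GS X (fun J => X.sgn z J * F J) := by
  intro J x y I
  simp only
  rw [h J x y I, sgn_swap]; ring

theorem shuffle_nil (F G : List (ℕ × B) → ℂ) : X.shuffle F G [] = F [] * G [] := by
  rw [Coh.shuffle]

theorem shuffle_cons (F G : List (ℕ × B) → ℂ) (x I) : X.shuffle F G (x :: I) =
    X.shuffle (fun J => F (x :: J)) G I +
      X.shuffle (fun J => X.sgn x J * F J) (fun J => G (x :: J)) I := by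
  rw [Coh.shuffle]

theorem shuffle_lin_left {ι : Type} (φ : (ι → ℂ) →ₗ[ℂ] ℂ) (F : ι → List (ℕ × B) → ℂ)
    (G : List (ℕ × B) → ℂ) (I) :
    X.shuffle (fun J => φ (fun i => F i J)) G I = φ (fun i => X.shuffle (F i) G I) := by
  induction I generalizing F G with
  | nil =>
    simp only [shuffle_nil]
    rw [mul_comm, ← smul_eq_mul, ← map_smul]
    congr 1
    funext i
    simp only [Pi.smul_apply, smul_eq_mul]
    ring
  | cons x I ih =>
    simp only [shuffle_cons]
    rw [ih (fun i J => F i (x :: J))]
    have : (fun J => X.sgn x J * φ (fun i => F i J)) = fun J => φ (fun i => X.sgn x J * F i J) := by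
      funext J
      rw [← smul_eq_mul, ← map_smul]
      rfl
    rw [this, ih (fun i J => X.sgn x J * F i J), ← map_add]
    rfl

theorem shuffle_lin_right {ι : Type} (φ : (ι → ℂ) →ₗ[ℂ] ℂ) (F : List (ℕ × B) → ℂ)
    (G : ι → List (ℕ × B) → ℂ) (I) :
    X.shuffle F (fun J => φ (fun i => G i J)) I = φ (fun i => X.shuffle F (G i) I) := by
  induction I generalizing F G with
  | nil =>
    simp only [shuffle_nil]
    rw [← smul_eq_mul, ← map_smul]
    rfl
  | cons x I ih =>
    simp only [shuffle_cons]
    rw [ih _ (fun i J => G i (x :: J)), ih, ← map_add]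
    rfl

theorem shuffle_add_left (F F' G : List (ℕ × B) → ℂ) (I) :
    X.shuffle (fun J => F J + F' J) G I = X.shuffle F G I + X.shuffle F' G I := by
  induction I generalizing F F' G with
  | nil => simp only [shuffle_nil]; ring
  | cons x I ih =>
    simp only [shuffle_cons]
    rw [ih]
    have : (fun J => X.sgn x J * (F J + F' J)) = fun J => X.sgn x J * F J + X.sgn x J * F' J := by
      funext J; ring
    rw [this, ih]; ring

theorem shuffle_smul_left (c : ℂ) (F G : List (ℕ × B) → ℂ) (I) :
    X.shuffle (fun J => c * F J) G I = c * X.shuffle F G I := by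
  induction I generalizing F G with
  | nil => simp only [shuffle_nil]; ring
  | cons x I ih =>
    simp only [shuffle_cons]
    rw [ih]
    have : (fun J => X.sgn x J * (c * F J)) = fun J => c * (X.sgn x J * F J) := by
      funext J; ring
    rw [this, ih]; ring

theorem shuffle_add_right (F G G' : List (ℕ × B) → ℂ) (I) :
    X.shuffle F (fun J => G J + G' J) I = X.shuffle F G I + X.shuffle F G' I := by
  induction I generalizing F G G' with
  | nil => simp only [shuffle_nil]; ring
  | cons x I ih =>
    simp only [shuffle_cons]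
    rw [ih, ih]; ring

theorem shuffle_smul_right (c : ℂ) (F G : List (ℕ × B) → ℂ) (I) :
    X.shuffle F (fun J => c * G J) I = c * X.shuffle F G I := by
  induction I generalizing F G with
  | nil => simp only [shuffle_nil]; ring
  | cons x I ih =>
    simp only [shuffle_cons]
    rw [ih, ih]; ring

theorem shuffle_zero_left (G : List (ℕ × B) → ℂ) (I) :
    X.shuffle (fun _ => 0) G I = 0 := by
  have := shuffle_smul_left (X := X) 0 (fun _ => 0) G I
  simpa using this

theorem shuffle_zero_right (F : List (ℕ × B) → ℂ) (I) :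
    X.shuffle F (fun _ => 0) I = 0 := by
  have := shuffle_smul_right (X := X) 0 F (fun _ => 0) I
  simpa using this

theorem shuffle_sub_left (F F' G : List (ℕ × B) → ℂ) (I) :
    X.shuffle (fun J => F J - F' J) G I = X.shuffle F G I - X.shuffle F' G I := by
  have : (fun J => F J - F' J) = fun J => F J + (-1) * F' J := by funext J; ring
  rw [this, shuffle_add_left, shuffle_smul_left]; ring

theorem shuffle_sub_right (F G G' : List (ℕ × B) → ℂ) (I) :
    X.shuffle F (fun J => G J - G' J) I = X.shuffle F G I - X.shuffle F G' I := by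
  have : (fun J => G J - G' J) = fun J => G J + (-1) * G' J := by funext J; ring
  rw [this, shuffle_add_right, shuffle_smul_right]; ring

/-- graded symmetry of shuffles -/
theorem GS.shuffle {F G : List (ℕ × B) → ℂ} (hF : GS X F) (hG : GS X G) :
    GS X (X.shuffle F G) := by
  intro J
  induction J generalizing F G with
  | nil =>
    intro x y I
    simp only [List.nil_append, shuffle_cons, sgn_cons]
    have e1 : X.shuffle (fun J => F (x :: y :: J)) G I =
        sg (X.par x) (X.par y) * X.shuffle (fun J => F (y :: x :: J)) G I := by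
      rw [← shuffle_smul_left]
      congr 1
      funext J
      exact hF.swap x y J
    have e4 : X.shuffle (fun J => X.sgn y J * (X.sgn x J * F J)) (fun J => G (x :: y :: J)) I =
        sg (X.par x) (X.par y) * X.shuffle (fun J => X.sgn x J * (X.sgn y J * F J))
          (fun J => G (y :: x :: J)) I := by
      rw [← shuffle_smul_right]
      congr 1
      · funext J; ring
      · funext J
        exact hG.swap x y J
    have e2 : X.shuffle (fun J => X.sgn y J * F (x :: J)) (fun J => G (y :: J)) I =
        sg (X.par x) (X.par y) * X.shuffle (fun J => sg (X.par y) (X.par x) * X.sgn y J * F (x :: J))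
          (fun J => G (y :: J)) I := by
      rw [← shuffle_smul_left]
      congr 1
      funext J
      rw [← mul_assoc, ← mul_assoc, sg_mul_self', one_mul]
    have e3 : X.shuffle (fun J => sg (X.par x) (X.par y) * X.sgn x J * F (y :: J))
        (fun J => G (x :: J)) I =
        sg (X.par x) (X.par y) * X.shuffle (fun J => X.sgn x J * F (y :: J))
          (fun J => G (x :: J)) I := by
      rw [← shuffle_smul_left]
      congr 1
      funext J
      ring
    rw [e1, e2, e3, e4]; ring
  | cons z J ih =>
    intro x y I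
    simp only [List.cons_append, shuffle_cons]
    rw [ih (hF.cons z) hG, ih (hF.sgn z) (hG.cons z)]
    ring

/-- the Koszul sign only depends on parities -/
theorem ins_sgn {A : ℕ × B → (ℕ × B → ℂ) →ₗ[ℂ] ℂ} (hA : PP X A) (z : ℕ × B)
    (F : List (ℕ × B) → ℂ) (I) :
    ins A (fun J => X.sgn z J * F J) I = X.sgn z I * ins A F I := by
  induction I generalizing F with
  | nil => simp
  | cons x I ih =>
    simp only [ins_cons, sgn_cons]
    have e1 : (A x) (fun y => sg (X.par z) (X.par y) * X.sgn z I * F (y :: I)) =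
        (sg (X.par z) (X.par x) * X.sgn z I) * (A x) (fun y => F (y :: I)) := by
      rw [← smul_eq_mul, ← map_smul]
      apply hA
      intro y hy
      simp only [Pi.smul_apply, smul_eq_mul]
      rw [hy]
    have e2 : (fun J => sg (X.par z) (X.par x) * X.sgn z J * F (x :: J)) =
        fun J => sg (X.par z) (X.par x) * (X.sgn z J * F (x :: J)) := by
      funext J; ring
    rw [e1, e2, ins_smul, ih]
    ring

/-- Leibniz rule -/
theorem ins_shuffle {A : ℕ × B → (ℕ × B → ℂ) →ₗ[ℂ] ℂ} (hA : PP X A)
    (F G : List (ℕ × B) → ℂ) (I) :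
    ins A (X.shuffle F G) I = X.shuffle (ins A F) G I + X.shuffle F (ins A G) I := by
  induction I generalizing F G with
  | nil => simp [shuffle_nil]
  | cons x I ih =>
    simp only [ins_cons, shuffle_cons]
    have e0 : (A x) (fun y => X.shuffle (fun J => F (y :: J)) G I +
          X.shuffle (fun J => X.sgn y J * F J) (fun J => G (y :: J)) I) =
        X.shuffle (fun J => A x (fun y => F (y :: J))) G I +
          X.shuffle (fun J => X.sgn x J * F J) (fun J => A x (fun y => G (y :: J))) I := by
      rw [shuffle_lin_left, shuffle_lin_right, ← map_add]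
      apply hA
      intro y hy
      simp only [Pi.add_apply]
      have : ∀ J, X.sgn y J = X.sgn x J := fun J => by simp only [Coh.sgn, hy]
      simp only [this]
    rw [e0, ins_add, ih, ih, shuffle_add_left, shuffle_add_right]
    have e1 : (fun J => X.sgn x J * ins A F J) = ins A (fun J => X.sgn x J * F J) := by
      funext J; rw [ins_sgn hA]
    rw [e1]
    ring

end Shuffle

end Vale.Agent.P269.H471
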