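import Vale.Agent.P269.H471.Main

/-!
# Commutation with the string and divisor operators
-/

open Finset

namespace Vale.Agent.P269.H471

variable {T : CIType} {B : Type} [Fintype B] [DecidableEq B] {X : Coh T B}

/-- The two matrices `M = 1` (string equation, `w = 0`) and `M = H` (divisor equation,
`w = 1`). -/
structure Low (X : Coh T B) (M : Matrix B B ℂ) (w : ℕ) : Prop where
  deg : MDeg X M w
  comm : M * X.R = X.R * M
  adj : M * X.η = X.η * M.transpose
  cases : (w = 0 ∧ M = 1) ∨ w = 1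

theorem Low.one : Low X 1 0 where
  deg := MDeg.one
  comm := by simp
  adj := by simp
  cases := Or.inl ⟨rfl, rfl⟩

theorem Low.H : Low X X.H 1 where
  deg := MDeg.H
  comm := by simp [Coh.R]
  adj := X.H_adj
  cases := Or.inr rfl

theorem Low.comm_pow {M : Matrix B B ℂ} {w : ℕ} (h : Low X M w) (i : ℕ) :
    M * X.R ^ i = X.R ^ i * M := by
  have h1 : Commute M X.R := h.comm
  exact (h1.pow_right i).eq

/-- boundary terms -/
noncomputable def eps (X : Coh T B) (M : Matrix B B ℂ) (w K : ℕ) (x : ℕ × B) :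
    (ℕ × B → ℂ) →ₗ[ℂ] ℂ :=
  if x.1 = 0 then ∑ i ∈ range K, bra (K + 1) i (X.mu x.2 + w - 1 / 2) •
    ∑ c, (M * X.R ^ i) x.2 c • LinearMap.proj (K - 1 - i, c) else 0

theorem eps_apply (M : Matrix B B ℂ) (w K : ℕ) (x : ℕ × B) (G : ℕ × B → ℂ) :
    eps X M w K x G = if x.1 = 0 then ∑ i ∈ range K, bra (K + 1) i (X.mu x.2 + w - 1 / 2) *
      ∑ c, (M * X.R ^ i) x.2 c * G (K - 1 - i, c) else 0 := by
  unfold eps
  split_ifs
  · simp [LinearMap.sum_apply]
  · rfl

theorem eps_sum (M : Matrix B B ℂ) (w K : ℕ) (a : B) (G : ℕ × B → ℂ) :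
    ∑ i ∈ range (K + 2), bra (K + 1) i (X.mu a + w - 1 / 2) *
      ∑ c, (M * X.R ^ i) a c * ev ((K : ℤ) - 1 - i) c G =
    ∑ i ∈ range K, bra (K + 1) i (X.mu a + w - 1 / 2) *
      ∑ c, (M * X.R ^ i) a c * G (K - 1 - i, c) := by
  rw [Finset.sum_range_succ, Finset.sum_range_succ]
  have h1 : ∀ c : B, ev ((K : ℤ) - 1 - (K : ℕ)) c = 0 := fun c => ev_neg (by omega) c
  have h2 : ∀ c : B, ev ((K : ℤ) - 1 - ((K + 1 : ℕ) : ℤ)) c = 0 := fun c => ev_neg (by omega) c
  simp only [h1, h2, LinearMap.zero_apply, mul_zero, Finset.sum_const_zero, add_zero]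
  apply Finset.sum_congr rfl
  intro i hi
  rw [Finset.mem_range] at hi
  congr 1
  apply Finset.sum_congr rfl
  intro c _
  have : (K : ℤ) - 1 - i = ((K - 1 - i : ℕ) : ℤ) := by omega
  rw [this, ev_nat]

theorem opL_lower {M : Matrix B B ℂ} {w : ℕ} (h : Low X M w) (K : ℕ) (x : ℕ × B)
    (G : ℕ × B → ℂ) :
    X.opL (K + 1) x (fun y => lower M y G) = ∑ i ∈ range (K + 2),
      bra (K + 1) i (X.mu x.2 + x.1 + 1 / 2) *
        ∑ c, (M * X.R ^ i) x.2 c * ev ((x.1 : ℤ) + K - 1 - i) c G := by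
  rw [opL_apply]
  apply Finset.sum_congr rfl
  intro i _
  congr 1
  simp only [ev_lower, Finset.mul_sum]
  rw [Finset.sum_comm]
  apply Finset.sum_congr rfl
  intro c _
  rw [h.comm_pow, Matrix.mul_apply, Finset.sum_mul]
  apply Finset.sum_congr rfl
  intro b _
  have : (x.1 : ℤ) + ((K + 1 : ℕ) : ℤ) - 1 - i - 1 = (x.1 : ℤ) + K - 1 - i := by push_cast; ring
  rw [this]
  ring

omit [DecidableEq B] in
theorem lower_zero (M : Matrix B B ℂ) (a : B) : lower M (0, a) = 0 := by
  apply LinearMap.ext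
  intro G
  rw [lower_apply]
  have : ∀ b : B, ev (((0, a) : ℕ × B).1 - 1 : ℤ) b = 0 := fun b => ev_neg (by simp) b
  simp only [this, LinearMap.zero_apply, mul_zero, Finset.sum_const_zero]

omit [DecidableEq B] in
theorem lower_succ (M : Matrix B B ℂ) (n : ℕ) (a : B) (G : ℕ × B → ℂ) :
    lower M (n + 1, a) G = ∑ b, M a b * G (n, b) := by
  rw [lower_apply]
  apply Finset.sum_congr rfl
  intro b _
  have : ((((n + 1, a) : ℕ × B).1 : ℤ) - 1) = (n : ℤ) := by push_cast; ring
  rw [this, ev_nat]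

theorem lower_opL {M : Matrix B B ℂ} {w : ℕ} (h : Low X M w) (K n : ℕ) (a : B)
    (G : ℕ × B → ℂ) :
    lower M (n + 1, a) (fun y => X.opL (K + 1) y G) = ∑ i ∈ range (K + 2),
      bra (K + 1) i (X.mu a + w + n + 1 / 2) *
        ∑ c, (M * X.R ^ i) a c * ev (((n + 1 : ℕ) : ℤ) + K - 1 - i) c G := by
  rw [lower_succ]
  simp only [opL_apply, Finset.mul_sum]
  rw [Finset.sum_comm]
  apply Finset.sum_congr rfl
  intro i _
  rw [Finset.sum_comm]
  apply Finset.sum_congr rfl
  intro c _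
  rw [Matrix.mul_apply, Finset.sum_mul, Finset.mul_sum]
  apply Finset.sum_congr rfl
  intro b _
  by_cases h0 : M a b = 0
  · simp [h0]
  · rw [h.deg.mu h0]
    have : (n : ℤ) + ((K + 1 : ℕ) : ℤ) - 1 - i = ((n + 1 : ℕ) : ℤ) + K - 1 - i := by
      push_cast; ring
    rw [this]
    ring

theorem comm_lower_opL {M : Matrix B B ℂ} {w : ℕ} (h : Low X M w) (K : ℕ) (x : ℕ × B) :
    comm (lower M) (X.opL (K + 1)) x =
      (-((1 - (w : ℂ)) * (K + 1))) • X.opL K x + (-1 : ℂ) • eps X M w K x := by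
  apply LinearMap.ext
  intro G
  obtain ⟨m, a⟩ := x
  rw [comm_apply, LinearMap.add_apply, LinearMap.smul_apply, LinearMap.smul_apply, smul_eq_mul,
    smul_eq_mul, opL_lower h, opL_apply, eps_apply]
  -- extend the sum over `range (K + 1)` to `range (K + 2)`
  have e0 : ∑ i ∈ range (K + 1), bra K i (X.mu a + m + 1 / 2) *
      ∑ b, (X.R ^ i) a b * ev ((m : ℤ) + K - 1 - i) b G =
      ∑ i ∈ range (K + 2), bra K i (X.mu a + m + 1 / 2) *
      ∑ b, (X.R ^ i) a b * ev ((m : ℤ) + K - 1 - i) b G := by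
    rw [Finset.sum_range_succ _ (K + 1), bra_gt (Nat.lt_succ_self K)]
    ring
  simp only
  rw [e0, ← eps_sum]
  cases m with
  | zero =>
    rw [lower_zero]
    simp only [LinearMap.zero_apply, if_true, Nat.cast_zero, add_zero, zero_add, zero_sub]
    rcases h.cases with ⟨hw, hM⟩ | hw
    · subst hw; subst hM
      simp only [one_mul, Nat.cast_zero, sub_zero, add_zero, Finset.mul_sum (s := range (K + 2)),
        ← Finset.sum_neg_distrib, ← Finset.sum_add_distrib]
      apply Finset.sum_congr rfl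
      intro i _
      have := bra_diff K i (X.mu a + 1 / 2)
      have h2 : X.mu a + 1 / 2 - 1 = X.mu a - 1 / 2 := by ring
      rw [h2] at this
      linear_combination (-∑ x, (X.R ^ i) a x * (ev (↑K - 1 - ↑i) x) G) * this
    · subst hw
      simp only [Nat.cast_one, sub_self, zero_mul, neg_zero, zero_add]
      have h2 : X.mu a + 1 - 1 / 2 = X.mu a + 1 / 2 := by ring
      rw [h2]
      ring
  | succ n =>
    rw [lower_opL h]
    simp only [Nat.succ_ne_zero, if_false, mul_zero, add_zero]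
    rcases h.cases with ⟨hw, hM⟩ | hw
    · subst hw; subst hM
      simp only [one_mul, Nat.cast_zero, sub_zero, add_zero, Finset.mul_sum (s := range (K + 2)),
        ← Finset.sum_sub_distrib]
      apply Finset.sum_congr rfl
      intro i _
      have := bra_diff' K i (X.mu a + n + 1 / 2)
      have h2 : X.mu a + n + 1 / 2 + 1 = X.mu a + ((n + 1 : ℕ) : ℂ) + 1 / 2 := by push_cast; ring
      rw [h2] at this
      linear_combination (-∑ x, (X.R ^ i) a x * (ev (((n + 1 : ℕ) : ℤ) + K - 1 - ↑i) x) G) * this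
    · subst hw
      simp only [Nat.cast_one, sub_self, zero_mul, neg_zero]
      have h2 : X.mu a + 1 + n + 1 / 2 = X.mu a + ((n + 1 : ℕ) : ℂ) + 1 / 2 := by push_cast; ring
      rw [h2]
      ring

theorem quadCoeff_eq (K i r : ℕ) (a c : B) : X.quadCoeff K i r a c =
    (-1 : ℂ) ^ (r + 1) * bra K i (-X.mu a - r - 1 / 2) * (X.η⁻¹ * X.R ^ i) a c := by
  unfold Coh.quadCoeff
  rw [Matrix.mul_apply, Finset.mul_sum]
  apply Finset.sum_congr rfl
  intro b _
  ring

theorem Low.inv_adj {M : Matrix B B ℂ} {w : ℕ} (h : Low X M w) :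
    M.transpose * X.η⁻¹ = X.η⁻¹ * M := by
  have h1 : X.η⁻¹ * (M * X.η) * X.η⁻¹ = X.η⁻¹ * (X.η * M.transpose) * X.η⁻¹ := by rw [h.adj]
  rw [mul_assoc, mul_assoc, eta_mul_inv, mul_one, ← mul_assoc, eta_inv_mul, one_mul] at h1
  exact h1.symm

theorem quad_extra_coeff {M : Matrix B B ℂ} {w : ℕ} (h : Low X M w) (K i r : ℕ) (b c : B) :
    ∑ a, X.quadCoeff (K + 1) i (r + 1) a c * M a b +
      ∑ d, X.quadCoeff (K + 1) i r b d * M d c =
    (1 - (w : ℂ)) * (K + 1) * X.quadCoeff K i r b c := by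
  have e1 : ∑ a, X.quadCoeff (K + 1) i (r + 1) a c * M a b =
      (-1 : ℂ) ^ r * bra (K + 1) i (-X.mu b - r - 3 / 2 + w) * (X.η⁻¹ * (M * X.R ^ i)) b c := by
    have h1 : X.η⁻¹ * (M * X.R ^ i) = M.transpose * (X.η⁻¹ * X.R ^ i) := by
      rw [← mul_assoc, ← mul_assoc, h.inv_adj]
    rw [h1, Matrix.mul_apply, Finset.mul_sum]
    apply Finset.sum_congr rfl
    intro a _
    rw [quadCoeff_eq, Matrix.transpose_apply]
    by_cases h0 : M a b = 0
    · simp [h0]
    · rw [h.deg.mu h0]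
      have h2 : -X.mu a - ((r + 1 : ℕ) : ℂ) - 1 / 2 = -(X.mu a + w) - r - 3 / 2 + w := by
        push_cast; ring
      rw [h2, pow_succ, pow_succ]
      ring
  have e2 : ∑ d, X.quadCoeff (K + 1) i r b d * M d c =
      (-1 : ℂ) ^ (r + 1) * bra (K + 1) i (-X.mu b - r - 1 / 2) *
        (X.η⁻¹ * (M * X.R ^ i)) b c := by
    have h1 : X.η⁻¹ * (M * X.R ^ i) = (X.η⁻¹ * X.R ^ i) * M := by
      rw [h.comm_pow, mul_assoc]
    rw [h1, Matrix.mul_apply, Finset.mul_sum]
    apply Finset.sum_congr rfl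
    intro d _
    rw [quadCoeff_eq]
    ring
  rw [e1, e2, quadCoeff_eq]
  rcases h.cases with ⟨hw, hM⟩ | hw
  · subst hw; subst hM
    have := bra_diff K i (-X.mu b - r - 1 / 2)
    have h2 : -X.mu b - (r : ℂ) - 1 / 2 - 1 = -X.mu b - r - 3 / 2 := by ring
    rw [h2] at this
    simp only [Nat.cast_zero, add_zero, sub_zero, one_mul]
    linear_combination ((-1 : ℂ) ^ (r + 1) * (X.η⁻¹ * X.R ^ i) b c) * this
  · subst hw
    have h2 : -X.mu b - (r : ℂ) - 3 / 2 + (1 : ℕ) = -X.mu b - r - 1 / 2 := by push_cast; ring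
    rw [h2, pow_succ]
    push_cast
    ring

theorem quad_extra {M : Matrix B B ℂ} {w : ℕ} (h : Low X M w) (K : ℕ)
    (P : ℕ × B → ℕ × B → ℂ) :
    quadSum (K + 1) (fun i r s => ∑ a, ∑ c, X.quadCoeff (K + 1) i r a c *
      (lower M (r, a) (fun z => P z (s, c)) + lower M (s, c) (fun z => P (r, a) z))) =
    (1 - (w : ℂ)) * (K + 1) * quadSum K (fun i r s => ∑ a, ∑ c, X.quadCoeff K i r a c *
      P (r, a) (s, c)) := by
  let f1 : ℕ → ℕ → ℕ → ℂ := fun i r s => ∑ a, ∑ c, X.quadCoeff (K + 1) i (r + 1) a c *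
    ∑ b, M a b * P (r, b) (s, c)
  let f2 : ℕ → ℕ → ℕ → ℂ := fun i r s => ∑ a, ∑ c, X.quadCoeff (K + 1) i r a c *
    ∑ b, M c b * P (r, a) (s, b)
  have e1 : (fun i r s => ∑ a, ∑ c, X.quadCoeff (K + 1) i r a c *
      (lower M (r, a) (fun z => P z (s, c)) + lower M (s, c) (fun z => P (r, a) z))) =
      fun i r s => (if r = 0 then 0 else f1 i (r - 1) s) + (if s = 0 then 0 else f2 i r (s - 1))
      := by
    funext i r s
    have e2 : ∑ a, ∑ c, X.quadCoeff (K + 1) i r a c *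
        (lower M (r, a) (fun z => P z (s, c)) + lower M (s, c) (fun z => P (r, a) z)) =
        (∑ a, ∑ c, X.quadCoeff (K + 1) i r a c * lower M (r, a) (fun z => P z (s, c))) +
        (∑ a, ∑ c, X.quadCoeff (K + 1) i r a c * lower M (s, c) (fun z => P (r, a) z)) := by
      simp only [mul_add, Finset.sum_add_distrib]
    rw [e2]
    congr 1
    · cases r with
      | zero => simp [lower_zero]
      | succ r => simp [lower_succ, f1]
    · cases s with
      | zero => simp [lower_zero]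
      | succ s => simp [lower_succ, f2]
  rw [e1, quadSum_add, quadSum_shift_r, quadSum_shift_s, ← quadSum_add, ← quadSum_mul]
  congr 1
  funext i r s
  have e3 : f1 i r s = ∑ b, ∑ c, (∑ a, X.quadCoeff (K + 1) i (r + 1) a c * M a b) *
      P (r, b) (s, c) := by
    simp only [f1, Finset.mul_sum, Finset.sum_mul]
    calc ∑ a, ∑ c, ∑ b, X.quadCoeff (K + 1) i (r + 1) a c * (M a b * P (r, b) (s, c))
        = ∑ a, ∑ b, ∑ c, X.quadCoeff (K + 1) i (r + 1) a c * (M a b * P (r, b) (s, c)) := by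
          apply Finset.sum_congr rfl; intro a _; rw [Finset.sum_comm]
      _ = ∑ b, ∑ a, ∑ c, X.quadCoeff (K + 1) i (r + 1) a c * (M a b * P (r, b) (s, c)) := by
          rw [Finset.sum_comm]
      _ = ∑ b, ∑ c, ∑ a, X.quadCoeff (K + 1) i (r + 1) a c * M a b * P (r, b) (s, c) := by
          apply Finset.sum_congr rfl; intro b _; rw [Finset.sum_comm]
          apply Finset.sum_congr rfl; intro c _
          apply Finset.sum_congr rfl; intro a _
          ring
  have e4 : f2 i r s = ∑ b, ∑ c, (∑ d, X.quadCoeff (K + 1) i r b d * M d c) *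
      P (r, b) (s, c) := by
    simp only [f2, Finset.mul_sum, Finset.sum_mul]
    apply Finset.sum_congr rfl; intro a _
    rw [Finset.sum_comm]
    apply Finset.sum_congr rfl; intro b _
    apply Finset.sum_congr rfl; intro c _
    ring
  rw [e3, e4, ← Finset.sum_add_distrib, Finset.mul_sum]
  apply Finset.sum_congr rfl; intro b _
  rw [← Finset.sum_add_distrib, Finset.mul_sum]
  apply Finset.sum_congr rfl; intro c _
  rw [← add_mul, quad_extra_coeff h]
  ring

end Vale.Agent.P269.H471
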