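import Vale.Agent.P269.H471.Quad
import Vale.Agent.P269.H471.Bra

/-!
# Commutation of the Virasoro constraints with an insertion operator
-/

open Finset

namespace Vale.Agent.P269.H471

section quadSum

theorem quadSum_add (K : ℕ) (f g : ℕ → ℕ → ℕ → ℂ) :
    quadSum K (fun i r s => f i r s + g i r s) = quadSum K f + quadSum K g := by
  match K with
  | 0 => simp [quadSum]
  | 1 => simp [quadSum]
  | K + 2 => simp only [quadSum, Finset.sum_add_distrib]

theorem quadSum_mul (K : ℕ) (c : ℂ) (f : ℕ → ℕ → ℕ → ℂ) :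
    quadSum K (fun i r s => c * f i r s) = c * quadSum K f := by
  match K with
  | 0 => simp [quadSum]
  | 1 => simp [quadSum]
  | K + 2 => simp only [quadSum, Finset.mul_sum]

theorem quadSum_zero (K : ℕ) : quadSum K (fun _ _ _ => 0) = 0 := by
  have := quadSum_mul K 0 (fun _ _ _ => 0)
  simpa using this

theorem quadSum_congr (K : ℕ) {f g : ℕ → ℕ → ℕ → ℂ}
    (h : ∀ i r s, i + r + s + 2 = K → f i r s = g i r s) : quadSum K f = quadSum K g := by
  match K with
  | 0 => simp [quadSum]
  | 1 => simp [quadSum]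
  | K + 2 =>
    simp only [quadSum]
    apply Finset.sum_congr rfl
    intro u hu
    apply Finset.sum_congr rfl
    intro v hv
    rw [HasAntidiagonal.mem_antidiagonal] at hu hv
    apply h
    omega

/-- the part of a sum with `r = 0` -/
theorem quadSum_r (K : ℕ) (g : ℕ → ℕ → ℂ) :
    quadSum (K + 1) (fun i r s => if r = 0 then g i s else 0) =
      ∑ i ∈ range K, g i (K - 1 - i) := by
  match K with
  | 0 => simp [quadSum]
  | K + 1 =>
    have h1 : ∑ i ∈ range (K + 1), g i (K + 1 - 1 - i) = ∑ u ∈ antidiagonal K, g u.1 u.2 := by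
      rw [Finset.Nat.sum_antidiagonal_eq_sum_range_succ g]
      simp
    rw [h1]
    simp only [quadSum]
    apply Finset.sum_congr rfl
    intro u hu
    rw [Finset.sum_eq_single (0, u.2)]
    · simp
    · intro v hv hne
      rw [HasAntidiagonal.mem_antidiagonal] at hv
      rw [if_neg]
      intro h0
      apply hne
      rw [h0, zero_add] at hv
      exact Prod.ext h0 hv
    · intro h
      exact absurd (by simp) h

/-- the part of a sum with `s = 0` -/
theorem quadSum_s (K : ℕ) (g : ℕ → ℕ → ℂ) :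
    quadSum (K + 1) (fun i r s => if s = 0 then g i r else 0) =
      ∑ i ∈ range K, g i (K - 1 - i) := by
  match K with
  | 0 => simp [quadSum]
  | K + 1 =>
    have h1 : ∑ i ∈ range (K + 1), g i (K + 1 - 1 - i) = ∑ u ∈ antidiagonal K, g u.1 u.2 := by
      rw [Finset.Nat.sum_antidiagonal_eq_sum_range_succ g]
      simp
    rw [h1]
    simp only [quadSum]
    apply Finset.sum_congr rfl
    intro u hu
    rw [Finset.sum_eq_single (u.2, 0)]
    · simp
    · intro v hv hne
      rw [HasAntidiagonal.mem_antidiagonal] at hv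
      rw [if_neg]
      intro h0
      apply hne
      rw [h0, add_zero] at hv
      exact Prod.ext hv h0
    · intro h
      exact absurd (by simp) h

theorem quadSum_shift_r (K : ℕ) (f : ℕ → ℕ → ℕ → ℂ) :
    quadSum (K + 1) (fun i r s => if r = 0 then 0 else f i (r - 1) s) = quadSum K f := by
  match K with
  | 0 => simp [quadSum]
  | 1 => simp [quadSum]
  | K + 2 =>
    simp only [quadSum]
    rw [Finset.Nat.sum_antidiagonal_succ']
    simp only [Finset.HasAntidiagonal.antidiagonal_zero, Finset.sum_singleton, if_true, zero_add]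
    apply Finset.sum_congr rfl
    intro u hu
    rw [Finset.Nat.sum_antidiagonal_succ]
    simp

theorem quadSum_shift_s (K : ℕ) (f : ℕ → ℕ → ℕ → ℂ) :
    quadSum (K + 1) (fun i r s => if s = 0 then 0 else f i r (s - 1)) = quadSum K f := by
  match K with
  | 0 => simp [quadSum]
  | 1 => simp [quadSum]
  | K + 2 =>
    simp only [quadSum]
    rw [Finset.Nat.sum_antidiagonal_succ']
    simp only [Finset.HasAntidiagonal.antidiagonal_zero, Finset.sum_singleton, if_true, zero_add]
    apply Finset.sum_congr rfl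
    intro u hu
    rw [Finset.Nat.sum_antidiagonal_succ']
    simp

end quadSum

variable {T : CIType} {B : Type} [Fintype B] [DecidableEq B] {X : Coh T B}

theorem insD_quadSum {A : ℕ × B → (ℕ × B → ℂ) →ₗ[ℂ] ℂ} (K : ℕ)
    (f : ℕ → ℕ → ℕ → List (ℕ × B) → ℂ) (I) :
    insD X A (fun J => quadSum K (fun i r s => f i r s J)) I =
      quadSum K (fun i r s => insD X A (f i r s) I) := by
  match K with
  | 0 => simp [quadSum, insD_zero]
  | 1 => simp [quadSum, insD_zero]
  | K + 2 =>
    simp only [quadSum]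
    rw [insD_sum]
    apply Finset.sum_congr rfl
    intro u _
    rw [insD_sum]

theorem GS.quadSum (K : ℕ) (f : ℕ → ℕ → ℕ → List (ℕ × B) → ℂ) (h : ∀ i r s, GS X (f i r s)) :
    GS X (fun J => H471.quadSum K (fun i r s => f i r s J)) := by
  intro J x y I
  simp only
  rw [← quadSum_mul]
  congr 1
  funext i r s
  exact h i r s J x y I

/-- degree of a matrix with respect to the Hodge grading -/
def MDeg (X : Coh T B) (M : Matrix B B ℂ) (w : ℕ) : Prop :=
  ∀ a b, M a b ≠ 0 → X.p b = X.p a + w ∧ X.q b = X.q a + w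

theorem MDeg.one : MDeg X 1 0 := by
  intro a b h
  have : a = b := by
    by_contra hab
    exact h (Matrix.one_apply_ne hab)
  subst this
  simp

theorem MDeg.H : MDeg X X.H 1 := fun a b h => X.H_deg a b h

theorem MDeg.mul {M M' : Matrix B B ℂ} {w w' : ℕ} (h : MDeg X M w) (h' : MDeg X M' w') :
    MDeg X (M * M') (w + w') := by
  intro a b hab
  rw [Matrix.mul_apply] at hab
  obtain ⟨c, _, hc⟩ := Finset.exists_ne_zero_of_sum_ne_zero hab
  have h1 := h a c (left_ne_zero_of_mul hc)
  have h2 := h' c b (right_ne_zero_of_mul hc)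
  omega

theorem MDeg.pow {M : Matrix B B ℂ} {w : ℕ} (h : MDeg X M w) (i : ℕ) :
    MDeg X (M ^ i) (w * i) := by
  induction i with
  | zero => simpa using MDeg.one
  | succ i ih =>
    rw [pow_succ, mul_add, mul_one]
    exact ih.mul h

theorem MDeg.R : MDeg X X.R 1 := by
  intro a b h
  apply MDeg.H (X := X) a b
  intro h0
  apply h
  simp [Coh.R, h0]

theorem MDeg.R_pow (i : ℕ) : MDeg X (X.R ^ i) i := by
  have := (MDeg.R (X := X)).pow i
  rwa [one_mul] at this

theorem MDeg.mu {M : Matrix B B ℂ} {w : ℕ} (h : MDeg X M w) {a b : B} (hab : M a b ≠ 0) :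
    X.mu b = X.mu a + w := by
  have := (h a b hab).1
  unfold Coh.mu
  rw [this]
  push_cast
  ring

theorem MDeg.par {M : Matrix B B ℂ} {w : ℕ} (h : MDeg X M w) {a b : B} (hab : M a b ≠ 0)
    (m n : ℕ) : X.par (m, b) = X.par (n, a) := by
  have h1 := h a b hab
  unfold Coh.par
  simp only
  rw [h1.1, h1.2]
  have : X.p a + w + (X.q a + w) = X.p a + X.q a + 2 * w := by ring
  rw [this]
  push_cast
  have h2 : (2 : ZMod 2) = 0 := by decide
  rw [h2]
  ring

/-! ### the inverse pairing -/

theorem eta_inv_mul : X.η⁻¹ * X.η = 1 := Matrix.nonsing_inv_mul _ X.η_unit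

theorem eta_mul_inv : X.η * X.η⁻¹ = 1 := Matrix.mul_nonsing_inv _ X.η_unit

theorem eta_inv_deg {a b : B} (h : X.η⁻¹ a b ≠ 0) :
    X.p a + X.p b = T.D ∧ X.q a + X.q b = T.D := by
  have key : ∀ f : B → ℕ, (∀ a b, X.η a b ≠ 0 → f a + f b = T.D) → f a + f b = T.D := by
    intro f hf
    let P : Matrix B B ℂ := Matrix.diagonal (fun a => (f a : ℂ))
    have h1 : P * X.η + X.η * P = (T.D : ℂ) • X.η := by
      ext a b
      simp only [P, Matrix.add_apply, Matrix.diagonal_mul, Matrix.mul_diagonal, Matrix.smul_apply,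
        smul_eq_mul]
      by_cases h0 : X.η a b = 0
      · simp [h0]
      · have := hf a b h0
        rw [← this]
        push_cast
        ring
    have h2 : X.η⁻¹ * (P * X.η + X.η * P) * X.η⁻¹ = X.η⁻¹ * ((T.D : ℂ) • X.η) * X.η⁻¹ := by
      rw [h1]
    have h3 : X.η⁻¹ * (P * X.η + X.η * P) * X.η⁻¹ = X.η⁻¹ * P + P * X.η⁻¹ := by
      rw [mul_add, add_mul]
      congr 1
      · rw [mul_assoc, mul_assoc, eta_mul_inv, mul_one]
      · rw [← mul_assoc, eta_inv_mul, one_mul]
    have h4 : X.η⁻¹ * ((T.D : ℂ) • X.η) * X.η⁻¹ = (T.D : ℂ) • X.η⁻¹ := by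
      rw [Matrix.mul_smul, eta_inv_mul, Matrix.smul_mul, one_mul]
    rw [h3, h4] at h2
    have h5 := congrFun (congrFun h2 a) b
    simp only [P, Matrix.add_apply, Matrix.diagonal_mul, Matrix.mul_diagonal, Matrix.smul_apply,
        smul_eq_mul] at h5
    have h6 : ((f a : ℂ) + f b - T.D) * X.η⁻¹ a b = 0 := by linear_combination h5
    have h7 := (mul_eq_zero.mp h6).resolve_right h
    have h8 : ((f a + f b : ℕ) : ℂ) = (T.D : ℕ) := by push_cast; linear_combination h7
    exact_mod_cast h8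
  exact ⟨key X.p fun a b h => (X.η_deg a b h).1, key X.q fun a b h => (X.η_deg a b h).2⟩

theorem par_of_sum {a b : B} {w : ℕ} (h : X.p a + X.p b + w = T.D ∧ X.q a + X.q b + w = T.D)
    (m n : ℕ) : X.par (m, a) = X.par (n, b) := by
  unfold Coh.par
  simp only
  have h2 : (2 : ZMod 2) = 0 := by decide
  have h1 : ((X.p a + X.q a : ℕ) : ZMod 2) + ((X.p b + X.q b : ℕ) : ZMod 2) = 0 := by
    have : (((X.p a + X.q a) + (X.p b + X.q b) + 2 * w : ℕ) : ZMod 2) = ((2 * T.D : ℕ) : ZMod 2) := by
      congr 1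
      omega
    push_cast at this ⊢
    rw [h2] at this
    linear_combination this
  have h3 : ∀ x y : ZMod 2, x + y = 0 → x = y := by decide
  exact h3 _ _ h1

/-! ### the operators -/

omit [Fintype B] [DecidableEq B] in
theorem ev_neg {n : ℤ} (h : n < 0) (b : B) : ev n b = 0 := by
  unfold ev; rw [if_neg (by omega)]

omit [Fintype B] [DecidableEq B] in
theorem ev_nat (n : ℕ) (b : B) (G : ℕ × B → ℂ) : ev (n : ℤ) b G = G (n, b) := by
  unfold ev; rw [if_pos (by omega)]; simp

omit [DecidableEq B] in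
theorem lower_apply (M : Matrix B B ℂ) (x : ℕ × B) (G : ℕ × B → ℂ) :
    lower M x G = ∑ b, M x.2 b * ev ((x.1 : ℤ) - 1) b G := by
  simp [lower, LinearMap.sum_apply]

theorem opL_apply (K : ℕ) (x : ℕ × B) (G : ℕ × B → ℂ) :
    X.opL K x G = ∑ i ∈ range (K + 1), bra K i (X.mu x.2 + x.1 + 1 / 2) *
      ∑ b, (X.R ^ i) x.2 b * ev ((x.1 : ℤ) + K - 1 - i) b G := by
  simp [Coh.opL, LinearMap.sum_apply]

omit [DecidableEq B] in
theorem Fub_lower (M : Matrix B B ℂ) (x : ℕ × B) : Fub (lower M x) :=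
  Fub.sum _ _ fun b _ => (Fub.ev _ b).smul _

theorem Fub_opL (K : ℕ) (x : ℕ × B) : Fub (X.opL K x) :=
  Fub.sum _ _ fun _ _ => (Fub.sum _ _ fun b _ => (Fub.ev _ b).smul _).smul _

theorem ev_congr {n : ℤ} {b : B} {x : ℕ × B} (hb : ∀ m, X.par (m, b) = X.par x)
    {G G' : ℕ × B → ℂ} (h : ∀ y, X.par y = X.par x → G y = G' y) : ev n b G = ev n b G' := by
  unfold ev
  split_ifs
  · exact h _ (hb _)
  · rfl

theorem PP_lower {M : Matrix B B ℂ} {w : ℕ} (hM : MDeg X M w) : PP X (lower M) := by
  intro x G G' h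
  rw [lower_apply, lower_apply]
  apply Finset.sum_congr rfl
  intro b _
  by_cases h0 : M x.2 b = 0
  · simp [h0]
  · rw [ev_congr (fun m => hM.par h0 m x.1) h]

theorem PP_opL (K : ℕ) : PP X (X.opL K) := by
  intro x G G' h
  rw [opL_apply, opL_apply]
  apply Finset.sum_congr rfl
  intro i _
  congr 1
  apply Finset.sum_congr rfl
  intro b _
  by_cases h0 : (X.R ^ i) x.2 b = 0
  · simp [h0]
  · rw [ev_congr (fun m => (MDeg.R_pow i).par h0 m x.1) h]

omit [DecidableEq B] in
theorem ev_lower (M : Matrix B B ℂ) (n : ℤ) (b : B) (G : ℕ × B → ℂ) :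
    ev n b (fun y => lower M y G) = ∑ c, M b c * ev (n - 1) c G := by
  rcases lt_or_ge n 0 with h | h
  · rw [ev_neg h]
    simp [ev_neg (show n - 1 < 0 by omega)]
  · obtain ⟨m, rfl⟩ := Int.eq_ofNat_of_zero_le h
    rw [ev_nat, lower_apply]

/-! ### the constraint and its terms -/

section general

variable {E : Type} [AddCommMonoid E] [HasAntidiagonal E] [DecidableEq E] (S : Desc X E)

theorem vir_eq (K g : ℕ) (β : E) (I : List (ℕ × B)) : S.vir K g β I =
    insD X (X.opL K) (S.corr g β) I +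
    (1 / 2) * quadSum K (fun i r s => ∑ a, ∑ c, X.quadCoeff K i r a c *
      S.pair g β (r, a) (s, c) I) +
    (if g = 0 ∧ β = 0 then two (X.R ^ K * X.η) I else 0) +
    (if K = 1 ∧ g = 1 ∧ β = 0 ∧ I = [] then X.euler / 16 - X.strMuSq / 4 else 0) := rfl

theorem insD_vir {A : ℕ × B → (ℕ × B → ℂ) →ₗ[ℂ] ℂ} (hA : ∀ x, Fub (A x)) (pA : PP X A)
    (c : ℕ → E → ℂ) (γ : ℂ) (δ δp : ℕ → E → List (ℕ × B) → ℂ)
    (h : ∀ g β I, insD X A (S.corr g β) I + c g β * S.corr g β I + δ g β I = 0)
    (hp : ∀ g β I, insD X A (S.pred g β) I + (c g β + γ) * S.pred g β I + δp g β I = 0)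
    (hc : ∀ g₁ g₂ β₁ β₂, c g₁ β₁ + c g₂ β₂ = c (g₁ + g₂) (β₁ + β₂) + γ)
    (K g : ℕ) (β : E) (I) :
    insD X A (S.vir K g β) I + c g β * S.vir K g β I =
      insD X (comm A (X.opL K)) (S.corr g β) I - insD X (X.opL K) (δ g β) I
      - (1 / 2) * quadSum K (fun i r s => ∑ a, ∑ c, X.quadCoeff K i r a c *
        (γ * S.pair g β (r, a) (s, c) I + A (r, a) (fun z => S.pair g β z (s, c) I)
          + A (s, c) (fun z => S.pair g β (r, a) z I)))
      - (1 / 2) * quadSum K (fun i r s => ∑ a, ∑ c, X.quadCoeff K i r a c *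
          δp g β ((r, a) :: (s, c) :: I))
      - (1 / 2) * quadSum K (fun i r s => ∑ a, ∑ c, X.quadCoeff K i r a c *
          sepExc S δ g β (r, a) (s, c) I)
      + (insD X A (fun J => if g = 0 ∧ β = 0 then two (X.R ^ K * X.η) J else 0) I
          + c g β * (if g = 0 ∧ β = 0 then two (X.R ^ K * X.η) I else 0))
      + (insD X A (fun J => if K = 1 ∧ g = 1 ∧ β = 0 ∧ J = []
            then X.euler / 16 - X.strMuSq / 4 else 0) I
          + c g β * (if K = 1 ∧ g = 1 ∧ β = 0 ∧ I = [] then X.euler / 16 - X.strMuSq / 4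
            else 0)) := by
  have e0 : S.vir K g β = fun I => insD X (X.opL K) (S.corr g β) I +
    (1 / 2) * quadSum K (fun i r s => ∑ a, ∑ c, X.quadCoeff K i r a c *
      S.pair g β (r, a) (s, c) I) +
    (if g = 0 ∧ β = 0 then two (X.R ^ K * X.η) I else 0) +
    (if K = 1 ∧ g = 1 ∧ β = 0 ∧ I = [] then X.euler / 16 - X.strMuSq / 4 else 0) := rfl
  have e1 : insD X A (insD X (X.opL K) (S.corr g β)) I =
      - c g β * insD X (X.opL K) (S.corr g β) I - insD X (X.opL K) (δ g β) I
        + insD X (comm A (X.opL K)) (S.corr g β) I := by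
    rw [insD_insD hA (Fub_opL K) pA (PP_opL K) (corr_GS S g β)]
    have : insD X A (S.corr g β) = fun J => (- c g β) * S.corr g β J - δ g β J := by
      funext J
      linear_combination h g β J
    rw [this, insD_sub, insD_smul]
    
  have e2 : insD X A (fun J => quadSum K (fun i r s => ∑ a, ∑ c, X.quadCoeff K i r a c *
      S.pair g β (r, a) (s, c) J)) I =
      (- c g β) * quadSum K (fun i r s => ∑ a, ∑ c, X.quadCoeff K i r a c *
          S.pair g β (r, a) (s, c) I)
      - quadSum K (fun i r s => ∑ a, ∑ c, X.quadCoeff K i r a c *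
        (γ * S.pair g β (r, a) (s, c) I + A (r, a) (fun z => S.pair g β z (s, c) I)
          + A (s, c) (fun z => S.pair g β (r, a) z I)))
      - quadSum K (fun i r s => ∑ a, ∑ c, X.quadCoeff K i r a c *
          δp g β ((r, a) :: (s, c) :: I))
      - quadSum K (fun i r s => ∑ a, ∑ c, X.quadCoeff K i r a c *
          sepExc S δ g β (r, a) (s, c) I) := by
    rw [insD_quadSum K (fun i r s J => ∑ a, ∑ c, X.quadCoeff K i r a c *
      S.pair g β (r, a) (s, c) J)]
    have e3 : ∀ i r s, insD X A (fun J => ∑ a, ∑ c, X.quadCoeff K i r a c *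
        S.pair g β (r, a) (s, c) J) I =
        (- c g β) * (∑ a, ∑ c, X.quadCoeff K i r a c * S.pair g β (r, a) (s, c) I)
        + ((-1) * (∑ a, ∑ c, X.quadCoeff K i r a c *
        (γ * S.pair g β (r, a) (s, c) I + A (r, a) (fun z => S.pair g β z (s, c) I)
          + A (s, c) (fun z => S.pair g β (r, a) z I)))
        + ((-1) * (∑ a, ∑ c, X.quadCoeff K i r a c *
          δp g β ((r, a) :: (s, c) :: I))
        + (-1) * (∑ a, ∑ c, X.quadCoeff K i r a c *
          sepExc S δ g β (r, a) (s, c) I))) := by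
      intro i r s
      rw [insD_sum]
      simp only [Finset.mul_sum, ← Finset.sum_add_distrib]
      apply Finset.sum_congr rfl
      intro a _
      rw [insD_sum]
      apply Finset.sum_congr rfl
      intro c' _
      rw [insD_smul, insD_pair S pA c γ δ δp h hp hc]
      ring
    have e4 : (fun i r s => insD X A (fun J => ∑ a, ∑ c, X.quadCoeff K i r a c *
        S.pair g β (r, a) (s, c) J) I) = fun i r s =>
        (- c g β) * (∑ a, ∑ c, X.quadCoeff K i r a c * S.pair g β (r, a) (s, c) I)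
        + ((-1) * (∑ a, ∑ c, X.quadCoeff K i r a c *
        (γ * S.pair g β (r, a) (s, c) I + A (r, a) (fun z => S.pair g β z (s, c) I)
          + A (s, c) (fun z => S.pair g β (r, a) z I)))
        + ((-1) * (∑ a, ∑ c, X.quadCoeff K i r a c *
          δp g β ((r, a) :: (s, c) :: I))
        + (-1) * (∑ a, ∑ c, X.quadCoeff K i r a c *
          sepExc S δ g β (r, a) (s, c) I))) := by
      funext i r s
      exact e3 i r s
    rw [e4, quadSum_add, quadSum_add, quadSum_add, quadSum_mul, quadSum_mul, quadSum_mul,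
      quadSum_mul]
    ring
  rw [vir_eq, e0, insD_add, insD_add, insD_add, insD_smul, e1, e2]
  ring

end general

end Vale.Agent.P269.H471
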