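import Vale.Agent.P269.H471.Zero

/-!
# Extraction of one entry of a list, associativity and commutativity of shuffles
-/

open Finset

namespace Vale.Agent.P269.H471

variable {T : CIType} {B : Type} [Fintype B] [DecidableEq B] {X : Coh T B}

/-- extraction of one entry to the end of the list -/
noncomputable def pull (X : Coh T B) (A : ℕ × B → (ℕ × B → ℂ) →ₗ[ℂ] ℂ) :
    (ℕ × B → List (ℕ × B) → ℂ) → List (ℕ × B) → ℂ
  | _, [] => 0
  | K, x :: I => X.sgn x I * A x (fun y => K y I) + pull X A (fun y J => K y (x :: J)) I

/-- extraction of one entry to the front of the list -/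
noncomputable def pf (X : Coh T B) (A : ℕ × B → (ℕ × B → ℂ) →ₗ[ℂ] ℂ) :
    (ℕ × B → List (ℕ × B) → ℂ) → List (ℕ × B) → ℂ
  | _, [] => 0
  | K, x :: I => A x (fun y => K y I) +
      pf X A (fun y J => sg (X.par y) (X.par x) * K y (x :: J)) I

section basics

variable {A A' : ℕ × B → (ℕ × B → ℂ) →ₗ[ℂ] ℂ}

theorem pull_nil (K : ℕ × B → List (ℕ × B) → ℂ) : pull X A K [] = 0 := rfl

theorem pull_cons (K : ℕ × B → List (ℕ × B) → ℂ) (x I) : pull X A K (x :: I) =
    X.sgn x I * A x (fun y => K y I) + pull X A (fun y J => K y (x :: J)) I := rfl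

theorem pf_nil (K : ℕ × B → List (ℕ × B) → ℂ) : pf X A K [] = 0 := rfl

theorem pf_cons (K : ℕ × B → List (ℕ × B) → ℂ) (x I) : pf X A K (x :: I) =
    A x (fun y => K y I) + pf X A (fun y J => sg (X.par y) (X.par x) * K y (x :: J)) I := rfl

theorem pull_add (K K' : ℕ × B → List (ℕ × B) → ℂ) (I) :
    pull X A (fun y J => K y J + K' y J) I = pull X A K I + pull X A K' I := by
  induction I generalizing K K' with
  | nil => simp [pull_nil]
  | cons x I ih =>
    rw [pull_cons, pull_cons, pull_cons, ih]
    have : (fun y => K y I + K' y I) = (fun y => K y I) + fun y => K' y I := rfl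
    rw [this, map_add]; ring

theorem pull_smul (c : ℂ) (K : ℕ × B → List (ℕ × B) → ℂ) (I) :
    pull X A (fun y J => c * K y J) I = c * pull X A K I := by
  induction I generalizing K with
  | nil => simp [pull_nil]
  | cons x I ih =>
    rw [pull_cons, pull_cons, ih]
    have : (fun y => c * K y I) = c • (fun y => K y I) := rfl
    rw [this, map_smul, smul_eq_mul]; ring

theorem pull_zero (I) : pull X A (fun _ _ => 0) I = 0 := by
  have := pull_smul (X := X) (A := A) 0 (fun _ _ => 0) I
  simpa using this

theorem pull_sum {ι : Type} (s : Finset ι) (K : ι → ℕ × B → List (ℕ × B) → ℂ) (I) :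
    pull X A (fun y J => ∑ i ∈ s, K i y J) I = ∑ i ∈ s, pull X A (K i) I := by
  classical
  induction s using Finset.induction_on with
  | empty => simp [pull_zero]
  | insert a s ha ih => simp only [Finset.sum_insert ha, pull_add, ih]

theorem pf_add (K K' : ℕ × B → List (ℕ × B) → ℂ) (I) :
    pf X A (fun y J => K y J + K' y J) I = pf X A K I + pf X A K' I := by
  induction I generalizing K K' with
  | nil => simp [pf_nil]
  | cons x I ih =>
    rw [pf_cons, pf_cons, pf_cons]
    have e : (fun y J => sg (X.par y) (X.par x) * (K y (x :: J) + K' y (x :: J))) =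
      fun y J => sg (X.par y) (X.par x) * K y (x :: J) + sg (X.par y) (X.par x) * K' y (x :: J) := by
      funext y J; ring
    rw [e, ih]
    have : (fun y => K y I + K' y I) = (fun y => K y I) + fun y => K' y I := rfl
    rw [this, map_add]; ring

theorem pf_smul (c : ℂ) (K : ℕ × B → List (ℕ × B) → ℂ) (I) :
    pf X A (fun y J => c * K y J) I = c * pf X A K I := by
  induction I generalizing K with
  | nil => simp [pf_nil]
  | cons x I ih =>
    rw [pf_cons, pf_cons]
    have e : (fun y J => sg (X.par y) (X.par x) * (c * K y (x :: J))) =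
      fun y J => c * (sg (X.par y) (X.par x) * K y (x :: J)) := by
      funext y J; ring
    rw [e, ih]
    have : (fun y => c * K y I) = c • (fun y => K y I) := rfl
    rw [this, map_smul, smul_eq_mul]; ring

theorem pf_zero (I) : pf X A (fun _ _ => 0) I = 0 := by
  have := pf_smul (X := X) (A := A) 0 (fun _ _ => 0) I
  simpa using this

theorem pf_sum {ι : Type} (s : Finset ι) (K : ι → ℕ × B → List (ℕ × B) → ℂ) (I) :
    pf X A (fun y J => ∑ i ∈ s, K i y J) I = ∑ i ∈ s, pf X A (K i) I := by
  classical
  induction s using Finset.induction_on with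
  | empty => simp [pf_zero]
  | insert a s ha ih => simp only [Finset.sum_insert ha, pf_add, ih]

theorem pf_lin (hA : ∀ x, Fub (A x)) {ι : Type} (ψ : (ι → ℂ) →ₗ[ℂ] ℂ)
    (K : ι → ℕ × B → List (ℕ × B) → ℂ) (I) :
    pf X A (fun y J => ψ (fun i => K i y J)) I = ψ (fun i => pf X A (K i) I) := by
  induction I generalizing K with
  | nil =>
    simp only [pf_nil]
    exact (map_zero ψ).symm
  | cons x I ih =>
    simp only [pf_cons]
    have e : (fun y J => sg (X.par y) (X.par x) * ψ (fun i => K i y (x :: J))) =
        fun y J => ψ (fun i => sg (X.par y) (X.par x) * K i y (x :: J)) := by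
      funext y J
      rw [← smul_eq_mul, ← map_smul]
      rfl
    rw [e, ih (fun i y J => sg (X.par y) (X.par x) * K i y (x :: J)),
      ← hA x ι ψ (fun i y => K i y I), ← map_add]
    rfl

theorem ins_eq_pull (hA : PP X A) {F : List (ℕ × B) → ℂ} (hF : GS X F) (I) :
    ins A F I = pull X A (fun y J => F (J ++ [y])) I := by
  induction I generalizing F with
  | nil => rfl
  | cons x I ih =>
    rw [ins_cons, pull_cons, ih (hF.cons x)]
    simp only [List.cons_append]
    congr 1
    rw [← smul_eq_mul, ← map_smul]
    apply hA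
    intro y hy
    simp only [Pi.smul_apply, smul_eq_mul]
    rw [hF.front I y [], List.append_nil, hy]
    unfold Coh.sgn
    rw [← mul_assoc, sg_mul_self, one_mul]

theorem ins_eq_pf {F : List (ℕ × B) → ℂ} (hF : GS X F) (I) :
    ins A F I = pf X A (fun y J => F (y :: J)) I := by
  induction I generalizing F with
  | nil => rfl
  | cons x I ih =>
    rw [ins_cons, pf_cons, ih (hF.cons x)]
    congr 2
    funext y J
    rw [hF.swap x y J, sg_comm]

theorem pf_comp (hA : PP X A') (K : ℕ × B → List (ℕ × B) → ℂ) (I) :
    pf X A (fun u J => A' u (fun z => K z J)) I =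
      pf X (fun x => (A x).comp (LinearMap.pi A')) K I := by
  induction I generalizing K with
  | nil => rfl
  | cons x I ih =>
    rw [pf_cons, pf_cons]
    have e : (fun u J => sg (X.par u) (X.par x) * A' u (fun z => K z (x :: J))) =
        fun u J => A' u (fun z => sg (X.par z) (X.par x) * K z (x :: J)) := by
      funext u J
      rw [← smul_eq_mul, ← map_smul]
      apply hA
      intro z hz
      simp only [Pi.smul_apply, smul_eq_mul]
      rw [hz]
    rw [e, ih (fun z J => sg (X.par z) (X.par x) * K z (x :: J))]
    rfl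

end basics

section shuffles

theorem shuffle_sgn_sgn (x : ℕ × B) (F G : List (ℕ × B) → ℂ) (I) :
    X.shuffle (fun J => X.sgn x J * F J) (fun J => X.sgn x J * G J) I =
      X.sgn x I * X.shuffle F G I := by
  induction I generalizing F G with
  | nil => rw [shuffle_nil, shuffle_nil, sgn_nil]; ring
  | cons y I ih =>
    rw [shuffle_cons, shuffle_cons]
    simp only [sgn_cons]
    have e1 : (fun J => sg (X.par x) (X.par y) * X.sgn x J * F (y :: J)) =
        fun J => sg (X.par x) (X.par y) * (X.sgn x J * F (y :: J)) := by funext J; ring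
    have e2 : (fun J => sg (X.par x) (X.par y) * X.sgn x J * G (y :: J)) =
        fun J => sg (X.par x) (X.par y) * (X.sgn x J * G (y :: J)) := by funext J; ring
    have e3 : (fun J => X.sgn y J * (X.sgn x J * F J)) =
        fun J => X.sgn x J * (X.sgn y J * F J) := by funext J; ring
    rw [e1, e2, e3, shuffle_smul_left, shuffle_smul_right, ih, ih]
    ring

theorem shuffle_assoc (F G H : List (ℕ × B) → ℂ) (I) :
    X.shuffle F (X.shuffle G H) I = X.shuffle (X.shuffle F G) H I := by
  induction I generalizing F G H with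
  | nil => rw [shuffle_nil, shuffle_nil, shuffle_nil, shuffle_nil]; ring
  | cons x I ih =>
    rw [shuffle_cons, shuffle_cons]
    have e1 : (fun J => X.shuffle G H (x :: J)) = fun J =>
      X.shuffle (fun J => G (x :: J)) H J +
        X.shuffle (fun J => X.sgn x J * G J) (fun J => H (x :: J)) J := by
      funext J; rw [shuffle_cons]
    have e2 : (fun J => X.shuffle F G (x :: J)) = fun J =>
      X.shuffle (fun J => F (x :: J)) G J +
        X.shuffle (fun J => X.sgn x J * F J) (fun J => G (x :: J)) J := by
      funext J; rw [shuffle_cons]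
    have e3 : (fun J => X.sgn x J * X.shuffle F G J) =
        X.shuffle (fun J => X.sgn x J * F J) (fun J => X.sgn x J * G J) := by
      funext J; rw [shuffle_sgn_sgn]
    rw [e1, e2, e3, shuffle_add_right, shuffle_add_left, ih, ih, ih]
    ring

theorem shuffle_snoc (F G : List (ℕ × B) → ℂ) (I w) : X.shuffle F G (I ++ [w]) =
    X.shuffle F (fun J => G (J ++ [w])) I +
      X.shuffle (fun J => F (J ++ [w])) (fun J => X.sgn w J * G J) I := by
  induction I generalizing F G with
  | nil => rw [List.nil_append, shuffle_cons, shuffle_nil, shuffle_nil, shuffle_nil, shuffle_nil]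
           simp only [List.nil_append, sgn_nil]
           ring
  | cons x I ih =>
    rw [List.cons_append, shuffle_cons, shuffle_cons, shuffle_cons, ih, ih]
    simp only [List.cons_append]
    have e : X.shuffle (fun J => X.sgn x (J ++ [w]) * F (J ++ [w]))
        (fun J => X.sgn w J * G (x :: J)) I =
        X.shuffle (fun J => X.sgn x J * F (J ++ [w])) (fun J => X.sgn w (x :: J) * G (x :: J)) I := by
      have e1 : (fun J => X.sgn x (J ++ [w]) * F (J ++ [w])) =
          fun J => sg (X.par x) (X.par w) * (X.sgn x J * F (J ++ [w])) := by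
        funext J
        have : X.sgn x (J ++ [w]) = X.sgn x J * sg (X.par x) (X.par w) := by
          simp [Coh.sgn, sg_add_right]
        rw [this]; ring
      have e2 : (fun J => X.sgn w (x :: J) * G (x :: J)) =
          fun J => sg (X.par x) (X.par w) * (X.sgn w J * G (x :: J)) := by
        funext J
        rw [sgn_cons, sg_comm]; ring
      rw [e1, e2, shuffle_smul_left, shuffle_smul_right]
    rw [e]
    ring

/-- functions supported on lists of parity `α` -/
def PS (X : Coh T B) (F : List (ℕ × B) → ℂ) (α : ZMod 2) : Prop :=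
  ∀ J, (J.map X.par).sum ≠ α → F J = 0

theorem PS.cons {F : List (ℕ × B) → ℂ} {α : ZMod 2} (h : PS X F α) (x : ℕ × B) :
    PS X (fun J => F (x :: J)) (α + X.par x) := by
  intro J hJ
  apply h
  rw [List.map_cons, List.sum_cons]
  intro h2
  apply hJ
  rw [← h2]
  have : ∀ a b : ZMod 2, b = a + b + a := by decide
  exact this _ _

theorem PS.snoc {F : List (ℕ × B) → ℂ} {α : ZMod 2} (h : PS X F α) (x : ℕ × B) :
    PS X (fun J => F (J ++ [x])) (α + X.par x) := by
  intro J hJ
  apply h
  rw [List.map_append, List.sum_append]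
  intro h2
  apply hJ
  rw [← h2]
  simp only [List.map_cons, List.map_nil, List.sum_cons, List.sum_nil]
  have : ∀ a b : ZMod 2, b = b + (a + 0) + a := by decide
  exact this _ _

theorem PS.sgn_eq {F : List (ℕ × B) → ℂ} {α : ZMod 2} (h : PS X F α) (x : ℕ × B) :
    (fun J => X.sgn x J * F J) = fun J => sg (X.par x) α * F J := by
  funext J
  by_cases hJ : (J.map X.par).sum = α
  · unfold Coh.sgn; rw [hJ]
  · rw [h J hJ]; ring

theorem shuffle_swap {F G : List (ℕ × B) → ℂ} {α γ : ZMod 2} (hF : PS X F α) (hG : PS X G γ) (I) :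
    X.shuffle F G I = sg α γ * X.shuffle G F I := by
  induction I generalizing F G α γ with
  | nil =>
    rw [shuffle_nil, shuffle_nil]
    by_cases h1 : α = 0
    · rw [h1, sg_zero_left]; ring
    · rw [hF [] (by simpa using (Ne.symm h1))]; ring
  | cons x I ih =>
    rw [shuffle_cons, shuffle_cons, hF.sgn_eq, hG.sgn_eq, shuffle_smul_left, shuffle_smul_left,
      ih (hF.cons x) hG, ih hF (hG.cons x), sg_add_left, sg_add_right, sg_comm (X.par x) α]
    have h1 := sg_mul_self α (X.par x)
    linear_combination (sg α γ * X.shuffle (fun J => G (x :: J)) F I) * h1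

end shuffles

section combine

variable {A : ℕ × B → (ℕ × B → ℂ) →ₗ[ℂ] ℂ}

theorem pull_shuffle (F : List (ℕ × B) → ℂ) (K : ℕ × B → List (ℕ × B) → ℂ) (I) :
    pull X A (fun y J => X.shuffle F (K y) J) I = X.shuffle F (pull X A K) I := by
  induction I generalizing F K with
  | nil => rw [shuffle_nil, pull_nil, pull_nil, mul_zero]
  | cons x I ih =>
    rw [pull_cons, shuffle_cons]
    have e1 : (fun y J => X.shuffle F (K y) (x :: J)) = fun y J =>
        X.shuffle (fun J => F (x :: J)) (K y) J +
          X.shuffle (fun J => X.sgn x J * F J) (fun J => K y (x :: J)) J := by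
      funext y J; rw [shuffle_cons]
    have e2 : (fun J => pull X A K (x :: J)) = fun J =>
        X.sgn x J * A x (fun y => K y J) + pull X A (fun y J => K y (x :: J)) J := by
      funext J; rw [pull_cons]
    rw [e1, e2, pull_add, ih, ih, shuffle_add_right, shuffle_sgn_sgn,
      ← shuffle_lin_right (A x) F K]
    ring

theorem pf_sgn (hA : PP X A) (x : ℕ × B) (K : ℕ × B → List (ℕ × B) → ℂ) (I) :
    pf X A (fun u J => sg (X.par u) (X.par x) * (X.sgn x J * K u J)) I =
      X.sgn x I * pf X A K I := by
  induction I generalizing K with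
  | nil => rw [pf_nil, pf_nil, mul_zero]
  | cons y I ih =>
    rw [pf_cons, pf_cons, sgn_cons]
    have e1 : (fun u J => sg (X.par u) (X.par y) * (sg (X.par u) (X.par x) *
        (X.sgn x (y :: J) * K u (y :: J)))) = fun u J => sg (X.par x) (X.par y) *
          (sg (X.par u) (X.par x) * (X.sgn x J * (sg (X.par u) (X.par y) * K u (y :: J)))) := by
      funext u J; rw [sgn_cons]; ring
    rw [e1, pf_smul, ih]
    have e2 : A y (fun u => sg (X.par u) (X.par x) * (X.sgn x I * K u I)) =
        sg (X.par x) (X.par y) * X.sgn x I * A y (fun u => K u I) := by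
      rw [← smul_eq_mul, ← map_smul]
      apply hA
      intro u hu
      simp only [Pi.smul_apply, smul_eq_mul]
      rw [hu, sg_comm]; ring
    rw [e2]; ring

theorem pf_shuffle (hA : PP X A) (K : ℕ × B → List (ℕ × B) → ℂ) (G : List (ℕ × B) → ℂ) (I) :
    pf X A (fun u J => X.shuffle (K u) G J) I = X.shuffle (pf X A K) G I := by
  induction I generalizing K G with
  | nil => rw [shuffle_nil, pf_nil, pf_nil, zero_mul]
  | cons x I ih =>
    rw [pf_cons, shuffle_cons]
    have e1 : (fun u J => sg (X.par u) (X.par x) * X.shuffle (K u) G (x :: J)) = fun u J =>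
        X.shuffle (fun J => sg (X.par u) (X.par x) * K u (x :: J)) G J +
          X.shuffle (fun J => sg (X.par u) (X.par x) * (X.sgn x J * K u J))
            (fun J => G (x :: J)) J := by
      funext u J
      rw [shuffle_cons, shuffle_smul_left, shuffle_smul_left]
      ring
    have e2 : (fun J => pf X A K (x :: J)) = fun J =>
        A x (fun y => K y J) + pf X A (fun u J => sg (X.par u) (X.par x) * K u (x :: J)) J := by
      funext J; rw [pf_cons]
    have e3 : (fun J => X.sgn x J * pf X A K J) =
        pf X A (fun u J => sg (X.par u) (X.par x) * (X.sgn x J * K u J)) := by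
      funext J; rw [pf_sgn hA]
    rw [e1, e2, e3, pf_add, ih, ih, shuffle_add_left, ← shuffle_lin_left (A x) K G]
    ring

/-- an operator acting on a function with a splitting formula acts on the second factor -/
theorem insD_split (pA : PP X A) {ι : Type} (s : Finset ι) (c : ι → ℂ)
    {H : List (ℕ × B) → ℂ} (hH : GS X H) (F G : ι → List (ℕ × B) → ℂ)
    (hG : ∀ i ∈ s, GS X (G i))
    (h : ∀ I u, H (I ++ [u]) = ∑ i ∈ s, c i * X.shuffle (F i) (fun J => G i (J ++ [u])) I) (I) :
    insD X A H I = ∑ i ∈ s, c i * X.shuffle (F i) (insD X A (G i)) I := by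
  unfold insD
  have e1 : (A (1, X.e)) (fun y => H (y :: I)) = ∑ i ∈ s, c i *
      X.shuffle (F i) (fun J => (A (1, X.e)) (fun y => G i (y :: J))) I := by
    have : (A (1, X.e)) (fun y => H (y :: I)) = (A (1, X.e)) (∑ i ∈ s, c i •
        fun y => X.shuffle (F i) (fun J => G i (J ++ [y])) I) := by
      apply lin_congr_even pA
      intro y hy
      have h1 : H (y :: I) = H (I ++ [y]) := by
        rw [hH.front_even I y [] hy, List.append_nil]
      rw [h1, h]
      simp only [Finset.sum_apply, Pi.smul_apply, smul_eq_mul]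
    rw [this, map_sum]
    apply Finset.sum_congr rfl
    intro i hi
    rw [map_smul, smul_eq_mul]
    congr 1
    rw [← shuffle_lin_right]
    congr 1
    funext J
    apply lin_congr_even pA
    intro y hy
    rw [(hG i hi).front_even J y [] hy, List.append_nil]
  have e2 : ins A H I = ∑ i ∈ s, c i * X.shuffle (F i) (ins A (G i)) I := by
    rw [ins_eq_pull pA hH]
    have : (fun y J => H (J ++ [y])) = fun y J => ∑ i ∈ s, c i *
        X.shuffle (F i) (fun J => G i (J ++ [y])) J := by
      funext y J; rw [h]
    rw [this, pull_sum]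
    apply Finset.sum_congr rfl
    intro i hi
    rw [pull_smul, pull_shuffle (F i) (fun y J => G i (J ++ [y]))]
    congr 2
    funext J
    rw [ins_eq_pull pA (hG i hi)]
  rw [e1, e2, ← Finset.sum_sub_distrib]
  apply Finset.sum_congr rfl
  intro i _
  rw [shuffle_sub_right]
  ring

end combine

end Vale.Agent.P269.H471
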