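import Vale.Agent.P269.H471.Ins

/-!
# The general commutation lemma
-/

open Finset

namespace Vale.Agent.P269.H471

variable {T : CIType} {B : Type} [Fintype B] [DecidableEq B] (X : Coh T B)

/-- The dilaton shifted insertion operator. -/
noncomputable def insD (A : ℕ × B → (ℕ × B → ℂ) →ₗ[ℂ] ℂ) (F : List (ℕ × B) → ℂ)
    (I : List (ℕ × B)) : ℂ :=
  ins A F I - A (1, X.e) (fun y => F (y :: I))

theorem par_e (m : ℕ) : X.par (m, X.e) = 0 := by
  simp [Coh.par, X.p_e, X.q_e]

section

variable {X} {A A' : ℕ × B → (ℕ × B → ℂ) →ₗ[ℂ] ℂ}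

theorem insD_add (F G : List (ℕ × B) → ℂ) (I) :
    insD X A (fun J => F J + G J) I = insD X A F I + insD X A G I := by
  unfold insD
  rw [ins_add]
  have : (fun y => F (y :: I) + G (y :: I)) = (fun y => F (y :: I)) + fun y => G (y :: I) := rfl
  rw [this, map_add]
  ring

theorem insD_smul (c : ℂ) (F : List (ℕ × B) → ℂ) (I) :
    insD X A (fun J => c * F J) I = c * insD X A F I := by
  unfold insD
  rw [ins_smul]
  have : (fun y => c * F (y :: I)) = c • fun y => F (y :: I) := rfl
  rw [this, map_smul, smul_eq_mul]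
  ring

theorem insD_zero (I) : insD X A (fun _ => 0) I = 0 := by
  have := insD_smul (X := X) (A := A) 0 (fun _ => 0) I
  simpa using this

theorem insD_neg (F : List (ℕ × B) → ℂ) (I) :
    insD X A (fun J => - F J) I = - insD X A F I := by
  have h : (fun J => - F J) = fun J => (-1) * F J := by funext J; ring
  rw [h, insD_smul]; ring

theorem insD_sub (F G : List (ℕ × B) → ℂ) (I) :
    insD X A (fun J => F J - G J) I = insD X A F I - insD X A G I := by
  have h : (fun J => F J - G J) = fun J => F J + (-1) * G J := by funext J; ring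
  rw [h, insD_add, insD_smul]; ring

theorem insD_sum {ι : Type} (s : Finset ι) (F : ι → List (ℕ × B) → ℂ) (I) :
    insD X A (fun J => ∑ i ∈ s, F i J) I = ∑ i ∈ s, insD X A (F i) I := by
  classical
  induction s using Finset.induction_on with
  | empty => simp [insD_zero]
  | insert a s ha ih =>
    simp only [Finset.sum_insert ha, insD_add, ih]

theorem insD_op_add (F : List (ℕ × B) → ℂ) (I) :
    insD X (fun x => A x + A' x) F I = insD X A F I + insD X A' F I := by
  unfold insD
  rw [ins_op_add, LinearMap.add_apply]; ring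

theorem insD_op_smul (c : ℂ) (F : List (ℕ × B) → ℂ) (I) :
    insD X (fun x => c • A x) F I = c * insD X A F I := by
  unfold insD
  rw [ins_op_smul, LinearMap.smul_apply, smul_eq_mul]; ring

theorem lin_congr_even (pA : PP X A) {m : ℕ} {G G' : ℕ × B → ℂ}
    (h : ∀ y, X.par y = 0 → G y = G' y) : A (m, X.e) G = A (m, X.e) G' := by
  apply pA
  intro y hy
  apply h
  rw [hy, par_e]

theorem insD_insD (hA : ∀ x, Fub (A x)) (hA' : ∀ x, Fub (A' x)) (pA : PP X A) (pA' : PP X A')
    {F : List (ℕ × B) → ℂ} (hF : GS X F) (I) :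
    insD X A (insD X A' F) I = insD X A' (insD X A F) I + insD X (comm A A') F I := by
  have e1 : insD X A (insD X A' F) I = ins A (ins A' F) I
      - (A' (1, X.e)) (fun y => ins A (fun J => F (y :: J)) I)
      - (A (1, X.e)) (fun y => A' y (fun z => F (z :: I)))
      - (A (1, X.e)) (fun y => ins A' (fun J => F (y :: J)) I)
      + (A (1, X.e)) (fun y => (A' (1, X.e)) (fun z => F (z :: y :: I))) := by
    have hd : insD X A' F = fun J => ins A' F J - (A' (1, X.e)) (fun y => F (y :: J)) := rfl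
    rw [hd]
    simp only [insD, ins_cons]
    rw [ins_sub (F := ins A' F), ins_lin hA (A' (1, X.e)) (fun y J => F (y :: J))]
    have : (fun y => (A' y) (fun y => F (y :: I)) + ins A' (fun J => F (y :: J)) I -
          (A' (1, X.e)) fun y_1 => F (y_1 :: y :: I)) =
        (fun y => (A' y) (fun y => F (y :: I))) + (fun y => ins A' (fun J => F (y :: J)) I) -
          fun y => (A' (1, X.e)) fun y_1 => F (y_1 :: y :: I) := rfl
    rw [this, map_sub, map_add]
    ring
  have e2 : insD X A' (insD X A F) I = ins A' (ins A F) I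
      - (A (1, X.e)) (fun y => ins A' (fun J => F (y :: J)) I)
      - (A' (1, X.e)) (fun y => A y (fun z => F (z :: I)))
      - (A' (1, X.e)) (fun y => ins A (fun J => F (y :: J)) I)
      + (A' (1, X.e)) (fun y => (A (1, X.e)) (fun z => F (z :: y :: I))) := by
    have hd : insD X A F = fun J => ins A F J - (A (1, X.e)) (fun y => F (y :: J)) := rfl
    rw [hd]
    simp only [insD, ins_cons]
    rw [ins_sub (F := ins A F), ins_lin hA' (A (1, X.e)) (fun y J => F (y :: J))]
    have : (fun y => (A y) (fun y => F (y :: I)) + ins A (fun J => F (y :: J)) I -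
          (A (1, X.e)) fun y_1 => F (y_1 :: y :: I)) =
        (fun y => (A y) (fun y => F (y :: I))) + (fun y => ins A (fun J => F (y :: J)) I) -
          fun y => (A (1, X.e)) fun y_1 => F (y_1 :: y :: I) := rfl
    rw [this, map_sub, map_add]
    ring
  have e3 : (A (1, X.e)) (fun y => (A' (1, X.e)) (fun z => F (z :: y :: I))) =
      (A' (1, X.e)) (fun y => (A (1, X.e)) (fun z => F (z :: y :: I))) := by
    rw [hA' (1, X.e) _ (A (1, X.e)) (fun y z => F (z :: y :: I))]
    apply lin_congr_even pA'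
    intro z hz
    apply lin_congr_even pA
    intro y hy
    exact hF.swap_even z y I hy
  rw [e1, e2, e3, ins_ins hA hA']
  unfold insD
  rw [comm_apply]
  ring

theorem insD_cons (pA : PP X A) {F : List (ℕ × B) → ℂ} (hF : GS X F) (y I) :
    insD X A F (y :: I) = A y (fun z => F (z :: I)) + insD X A (fun J => F (y :: J)) I := by
  unfold insD
  rw [ins_cons]
  have : (A (1, X.e)) (fun z => F (z :: y :: I)) = (A (1, X.e)) (fun z => F (y :: z :: I)) := by
    apply lin_congr_even pA
    intro z hz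
    exact (hF.swap_even y z I hz).symm
  rw [this]
  ring

theorem insD_snoc (F : List (ℕ × B) → ℂ) (I w) :
    insD X A F (I ++ [w]) =
      insD X A (fun J => F (J ++ [w])) I + A w (fun y => F (I ++ [y])) := by
  unfold insD
  rw [ins_append_singleton]
  simp only [List.cons_append]
  ring

theorem insD_shuffle (pA : PP X A) (F G : List (ℕ × B) → ℂ) (I) :
    insD X A (X.shuffle F G) I = X.shuffle (insD X A F) G I + X.shuffle F (insD X A G) I := by
  have e : (A (1, X.e)) (fun y => X.shuffle F G (y :: I)) =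
      X.shuffle (fun J => (A (1, X.e)) (fun y => F (y :: J))) G I +
      X.shuffle F (fun J => (A (1, X.e)) (fun y => G (y :: J))) I := by
    rw [shuffle_lin_left, shuffle_lin_right, ← map_add]
    apply lin_congr_even pA
    intro y hy
    simp only [Pi.add_apply, shuffle_cons, sgn_even hy, one_mul]
  have h1 : insD X A F = fun J => ins A F J - (A (1, X.e)) (fun y => F (y :: J)) := rfl
  have h2 : insD X A G = fun J => ins A G J - (A (1, X.e)) (fun y => G (y :: J)) := rfl
  rw [h1, h2, shuffle_sub_left, shuffle_sub_right]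
  unfold insD
  rw [e, ins_shuffle pA]
  ring

end

section Main

variable {X} {E : Type} [AddCommMonoid E] [HasAntidiagonal E] [DecidableEq E] (S : Desc X E)

theorem corr_GS (g : ℕ) (β : E) : GS X (S.corr g β) := fun J x y I => S.symm g β J x y I

theorem pred_GS (g : ℕ) (β : E) : GS X (S.pred g β) := by
  cases g with
  | zero => exact GS.zero
  | succ g => exact corr_GS S g β

theorem pair_lin_left (g : ℕ) (β : E) (φ : (ℕ × B → ℂ) →ₗ[ℂ] ℂ) (y₂ : ℕ × B) (I) :
    φ (fun z => S.pair g β z y₂ I) = φ (fun z => S.pred g β (z :: y₂ :: I)) +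
      ∑ u ∈ antidiagonal g, ∑ v ∈ antidiagonal β,
        φ (fun z => X.shuffle (fun J => S.corr u.1 v.1 (J ++ [z]))
          (fun J => S.corr u.2 v.2 (y₂ :: J)) I) := by
  have : (fun z => S.pair g β z y₂ I) = (fun z => S.pred g β (z :: y₂ :: I)) +
      ∑ u ∈ antidiagonal g, ∑ v ∈ antidiagonal β,
        (fun z => X.shuffle (fun J => S.corr u.1 v.1 (J ++ [z]))
          (fun J => S.corr u.2 v.2 (y₂ :: J)) I) := by
    funext z
    simp only [Desc.pair, Pi.add_apply, Finset.sum_apply]
  rw [this, map_add, map_sum]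
  congr 1
  apply Finset.sum_congr rfl
  intro u _
  rw [map_sum]

theorem pair_lin_right (g : ℕ) (β : E) (φ : (ℕ × B → ℂ) →ₗ[ℂ] ℂ) (y₁ : ℕ × B) (I) :
    φ (fun z => S.pair g β y₁ z I) = φ (fun z => S.pred g β (y₁ :: z :: I)) +
      ∑ u ∈ antidiagonal g, ∑ v ∈ antidiagonal β,
        φ (fun z => X.shuffle (fun J => S.corr u.1 v.1 (J ++ [y₁]))
          (fun J => S.corr u.2 v.2 (z :: J)) I) := by
  have : (fun z => S.pair g β y₁ z I) = (fun z => S.pred g β (y₁ :: z :: I)) +
      ∑ u ∈ antidiagonal g, ∑ v ∈ antidiagonal β,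
        (fun z => X.shuffle (fun J => S.corr u.1 v.1 (J ++ [y₁]))
          (fun J => S.corr u.2 v.2 (z :: J)) I) := by
    funext z
    simp only [Desc.pair, Pi.add_apply, Finset.sum_apply]
  rw [this, map_add, map_sum]
  congr 1
  apply Finset.sum_congr rfl
  intro u _
  rw [map_sum]

/-- The exceptional part of the separating terms. -/
noncomputable def sepExc (δ : ℕ → E → List (ℕ × B) → ℂ) (g : ℕ) (β : E) (y₁ y₂ : ℕ × B)
    (I : List (ℕ × B)) : ℂ :=
  ∑ u ∈ antidiagonal g, ∑ v ∈ antidiagonal β,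
    (X.shuffle (fun J => δ u.1 v.1 (J ++ [y₁])) (fun J => S.corr u.2 v.2 (y₂ :: J)) I +
      X.shuffle (fun J => S.corr u.1 v.1 (J ++ [y₁])) (fun J => δ u.2 v.2 (y₂ :: J)) I)

theorem insD_pair {A : ℕ × B → (ℕ × B → ℂ) →ₗ[ℂ] ℂ} (pA : PP X A)
    (c : ℕ → E → ℂ) (γ : ℂ) (δ δp : ℕ → E → List (ℕ × B) → ℂ)
    (h : ∀ g β I, insD X A (S.corr g β) I + c g β * S.corr g β I + δ g β I = 0)
    (hp : ∀ g β I, insD X A (S.pred g β) I + (c g β + γ) * S.pred g β I + δp g β I = 0)
    (hc : ∀ g₁ g₂ β₁ β₂, c g₁ β₁ + c g₂ β₂ = c (g₁ + g₂) (β₁ + β₂) + γ)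
    (g : ℕ) (β : E) (y₁ y₂ : ℕ × B) (I) :
    insD X A (S.pair g β y₁ y₂) I = - (c g β + γ) * S.pair g β y₁ y₂ I
      - A y₁ (fun z => S.pair g β z y₂ I) - A y₂ (fun z => S.pair g β y₁ z I)
      - δp g β (y₁ :: y₂ :: I) - sepExc S δ g β y₁ y₂ I := by
  have h1 : insD X A (fun J => S.pred g β (y₁ :: y₂ :: J)) I =
      - (c g β + γ) * S.pred g β (y₁ :: y₂ :: I) - δp g β (y₁ :: y₂ :: I)
      - A y₁ (fun z => S.pred g β (z :: y₂ :: I)) - A y₂ (fun z => S.pred g β (y₁ :: z :: I)) := by
    have e1 := hp g β (y₁ :: y₂ :: I)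
    rw [insD_cons pA (pred_GS S g β), insD_cons pA ((pred_GS S g β).cons y₁)] at e1
    linear_combination e1
  have h2 : ∀ (g : ℕ) (β : E) (w : ℕ × B), insD X A (fun J => S.corr g β (J ++ [w])) =
      fun J => (-c g β) * S.corr g β (J ++ [w]) + ((-1) * δ g β (J ++ [w])
        + (-1) * A w (fun z => S.corr g β (J ++ [z]))) := by
    intro g β w
    funext J
    have e1 := h g β (J ++ [w])
    rw [insD_snoc] at e1
    linear_combination e1
  have h3 : ∀ (g : ℕ) (β : E) (w : ℕ × B), insD X A (fun J => S.corr g β (w :: J)) =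
      fun J => (-c g β) * S.corr g β (w :: J) + ((-1) * δ g β (w :: J)
        + (-1) * A w (fun z => S.corr g β (z :: J))) := by
    intro g β w
    funext J
    have e1 := h g β (w :: J)
    rw [insD_cons pA (corr_GS S g β)] at e1
    linear_combination e1
  have h4 : insD X A (S.pair g β y₁ y₂) I = insD X A (fun J => S.pred g β (y₁ :: y₂ :: J)) I +
      ∑ u ∈ antidiagonal g, ∑ v ∈ antidiagonal β,
        insD X A (X.shuffle (fun J => S.corr u.1 v.1 (J ++ [y₁]))
          (fun J => S.corr u.2 v.2 (y₂ :: J))) I := by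
    have : S.pair g β y₁ y₂ = fun I => S.pred g β (y₁ :: y₂ :: I) + ∑ u ∈ antidiagonal g,
        ∑ v ∈ antidiagonal β, X.shuffle (fun J => S.corr u.1 v.1 (J ++ [y₁]))
          (fun J => S.corr u.2 v.2 (y₂ :: J)) I := rfl
    rw [this, insD_add, insD_sum]
    congr 1
    apply Finset.sum_congr rfl
    intro u _
    rw [insD_sum]
  rw [h4, h1, pair_lin_left, pair_lin_right]
  have h5 : ∀ u ∈ antidiagonal g, ∀ v ∈ antidiagonal β,
      insD X A (X.shuffle (fun J => S.corr u.1 v.1 (J ++ [y₁]))
          (fun J => S.corr u.2 v.2 (y₂ :: J))) I =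
      - (c g β + γ) * X.shuffle (fun J => S.corr u.1 v.1 (J ++ [y₁]))
          (fun J => S.corr u.2 v.2 (y₂ :: J)) I
      - A y₁ (fun z => X.shuffle (fun J => S.corr u.1 v.1 (J ++ [z]))
          (fun J => S.corr u.2 v.2 (y₂ :: J)) I)
      - A y₂ (fun z => X.shuffle (fun J => S.corr u.1 v.1 (J ++ [y₁]))
          (fun J => S.corr u.2 v.2 (z :: J)) I)
      - (X.shuffle (fun J => δ u.1 v.1 (J ++ [y₁])) (fun J => S.corr u.2 v.2 (y₂ :: J)) I +
      X.shuffle (fun J => S.corr u.1 v.1 (J ++ [y₁])) (fun J => δ u.2 v.2 (y₂ :: J)) I) := by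
    intro u hu v hv
    rw [HasAntidiagonal.mem_antidiagonal] at hu hv
    have hcc := hc u.1 u.2 v.1 v.2
    rw [hu, hv] at hcc
    rw [insD_shuffle pA, h2, h3, shuffle_add_left, shuffle_add_left, shuffle_add_right,
      shuffle_add_right, shuffle_smul_left, shuffle_smul_left, shuffle_smul_left,
      shuffle_smul_right, shuffle_smul_right, shuffle_smul_right,
      shuffle_lin_left (A y₁) (fun z J => S.corr u.1 v.1 (J ++ [z])),
      shuffle_lin_right (A y₂) _ (fun z J => S.corr u.2 v.2 (z :: J)), ← hcc]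
    ring
  rw [Finset.sum_congr rfl fun u hu => Finset.sum_congr rfl fun v hv => h5 u hu v hv]
  unfold sepExc Desc.pair
  simp only [Finset.sum_sub_distrib, ← Finset.mul_sum]
  ring

end Main

end Vale.Agent.P269.H471
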