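import Vale.Agent.P269.H471.Exc

/-!
# The string and divisor operators acting on the Virasoro constraints
-/

open Finset

namespace Vale.Agent.P269.H471

variable {T : CIType} {B : Type} [Fintype B] [DecidableEq B] {X : Coh T B}

theorem insD_supp_nil {A : ℕ × B → (ℕ × B → ℂ) →ₗ[ℂ] ℂ} {F : List (ℕ × B) → ℂ}
    (h : ∀ y J, F (y :: J) = 0) (I) : insD X A F I = 0 := by
  have h1 : ∀ I, (fun y => F (y :: I)) = (0 : ℕ × B → ℂ) := fun I => funext fun y => h y I
  have h2 : ∀ y, (fun I => F (y :: I)) = fun _ => (0 : ℂ) := fun y => funext fun I => h y I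
  unfold insD
  rw [h1, map_zero, sub_zero]
  cases I with
  | nil => rfl
  | cons x I => rw [ins_cons, h1, map_zero, h2, ins_zero, add_zero]

theorem eta_pow_adj (j : ℕ) : X.R ^ j * X.η = X.η * (X.R ^ j).transpose := by
  induction j with
  | zero => simp
  | succ j ih =>
    have h1 : X.R * X.η = X.η * X.R.transpose := by
      simp only [Coh.R, Matrix.smul_mul, Matrix.transpose_smul, Matrix.mul_smul]
      rw [X.H_adj]
    rw [pow_succ, mul_assoc, h1, ← mul_assoc, ih, mul_assoc, ← Matrix.transpose_mul]
    have : X.R * X.R ^ j = X.R ^ j * X.R := by rw [← pow_succ, ← pow_succ']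
    rw [this]

/-- functions of the insertion `(n, b)` supported on `n = 0` -/
def at0 (f : B → ℂ) (y : ℕ × B) : ℂ := if y.1 = 0 then f y.2 else 0

omit [Fintype B] [DecidableEq B] in
theorem ev_at0 (f : B → ℂ) (n : ℤ) (b : B) : ev n b (at0 f) = if n = 0 then f b else 0 := by
  rcases lt_or_ge n 0 with h | h
  · rw [ev_neg h, if_neg (by omega)]; rfl
  · obtain ⟨m, rfl⟩ := Int.eq_ofNat_of_zero_le h
    rw [ev_nat]
    simp [at0]

theorem opL_at0 (K m : ℕ) (a : B) (f : B → ℂ) : X.opL (K + 1) (m, a) (at0 f) =
    if m = 0 then bra (K + 1) K (X.mu a + 1 / 2) * ∑ b, (X.R ^ K) a b * f b else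
      if m = 1 then ∑ b, (X.R ^ (K + 1)) a b * f b else 0 := by
  rw [opL_apply]
  simp only [ev_at0]
  match m with
  | 0 =>
    rw [Finset.sum_eq_single K]
    · simp
    · intro i hi hne
      have : ¬ (((0 : ℕ) : ℤ) + ((K + 1 : ℕ) : ℤ) - 1 - i = 0) := by omega
      simp only [this, if_false, mul_zero, Finset.sum_const_zero]
    · intro h
      exact absurd (by simp) h
  | 1 =>
    rw [Finset.sum_eq_single (K + 1)]
    · simp [bra_top]
    · intro i hi hne
      have : ¬ (((1 : ℕ) : ℤ) + ((K + 1 : ℕ) : ℤ) - 1 - i = 0) := by omega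
      simp only [this, if_false, mul_zero, Finset.sum_const_zero]
    · intro h
      exact absurd (by simp) h
  | m + 2 =>
    rw [if_neg (by omega), if_neg (by omega)]
    apply Finset.sum_eq_zero
    intro i hi
    rw [Finset.mem_range] at hi
    have : ¬ (((m + 2 : ℕ) : ℤ) + ((K + 1 : ℕ) : ℤ) - 1 - i = 0) := by omega
    simp only [this, if_false, mul_zero, Finset.sum_const_zero]

omit [DecidableEq B] in
theorem lower_at0 (M : Matrix B B ℂ) (m : ℕ) (a : B) (f : B → ℂ) :
    lower M (m, a) (at0 f) = if m = 1 then ∑ b, M a b * f b else 0 := by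
  rw [lower_apply]
  simp only [ev_at0]
  by_cases h : m = 1
  · subst h
    simp
  · have : ¬ ((m : ℤ) - 1 = 0) := by omega
    simp only [this, h, if_false, mul_zero, Finset.sum_const_zero]

omit [Fintype B] [DecidableEq B] in
theorem two_left (L : Matrix B B ℂ) (m' : ℕ) (a' : B) : (fun y => two L [y, (m', a')]) =
    if m' = 0 then at0 (fun b => L b a') else 0 := by
  funext y
  obtain ⟨n, b⟩ := y
  cases n <;> cases m' <;> simp [two, at0]

omit [Fintype B] [DecidableEq B] in
theorem two_right (L : Matrix B B ℂ) (m : ℕ) (a : B) : (fun y => two L [(m, a), y]) =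
    if m = 0 then at0 (fun b => L a b) else 0 := by
  funext y
  obtain ⟨n, b⟩ := y
  cases n <;> cases m <;> simp [two, at0]

omit [Fintype B] [DecidableEq B] in
theorem two_long (L : Matrix B B ℂ) (x y z : ℕ × B) (I : List (ℕ × B)) :
    two L (x :: y :: z :: I) = 0 := by
  unfold two
  split
  · next h => simp at h
  · rfl

omit [Fintype B] [DecidableEq B] in
theorem two_single (L : Matrix B B ℂ) (x : ℕ × B) :
    two L [x] = 0 := by
  unfold two
  split
  · next h => simp at h
  · rfl

theorem low_R_deg {M : Matrix B B ℂ} {w : ℕ} (h : Low X M w) {K : ℕ} {a a' : B}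
    (h0 : (X.R ^ K * (M * X.η)) a a' ≠ 0) : X.mu a + X.mu a' + (K + w) = 0 := by
  rw [Matrix.mul_apply] at h0
  obtain ⟨c, _, hc⟩ := Finset.exists_ne_zero_of_sum_ne_zero h0
  have h1 := (MDeg.R_pow K).mu (left_ne_zero_of_mul hc)
  have h2 := mu_of_sum (low_deg_eta h (right_ne_zero_of_mul hc)).1
  linear_combination h2 - h1

theorem insD_two_ident {M : Matrix B B ℂ} {w : ℕ} (h : Low X M w) (K : ℕ) (I) :
    - insD X (X.opL (K + 1)) (two (M * X.η)) I +
      insD X (lower M) (two (X.R ^ (K + 1) * X.η)) I =
      -((1 - (w : ℂ)) * (K + 1)) * two (X.R ^ K * X.η) I := by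
  match I with
  | [] =>
    have e0 : ∀ L : Matrix B B ℂ, (fun y => two L [y]) = (0 : ℕ × B → ℂ) :=
      fun L => funext fun y => two_single L y
    unfold insD
    rw [e0, e0, map_zero, map_zero]
    simp [two]
  | [(m', a')] =>
    have e1 : ins (X.opL (K + 1)) (two (M * X.η)) [(m', a')] = 0 := by
      rw [ins_cons, ins_nil]
      simp only [two_single]
      rw [add_zero]
      exact map_zero _
    have e2 : ins (lower M) (two (X.R ^ (K + 1) * X.η)) [(m', a')] = 0 := by
      rw [ins_cons, ins_nil]
      simp only [two_single]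
      rw [add_zero]
      exact map_zero _
    unfold insD
    rw [e1, e2, two_single, two_left, two_left]
    split_ifs with h0
    · rw [opL_at0, lower_at0]
      simp only [one_ne_zero, if_false, if_true]
      have : ∑ b, (X.R ^ (K + 1)) X.e b * (M * X.η) b a' =
          ∑ b, M X.e b * (X.R ^ (K + 1) * X.η) b a' := by
        rw [← Matrix.mul_apply, ← Matrix.mul_apply, ← mul_assoc, ← mul_assoc, h.comm_pow]
      rw [this]
      ring
    · simp
  | [(m, a), (m', a')] =>
    have e0 : ∀ (A : ℕ × B → (ℕ × B → ℂ) →ₗ[ℂ] ℂ) (L : Matrix B B ℂ),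
        insD X A (two L) [(m, a), (m', a')] =
        A (m, a) (fun y => two L [y, (m', a')]) + A (m', a') (fun y => two L [(m, a), y]) := by
      intro A L
      unfold insD
      rw [ins_cons, ins_cons, ins_nil]
      have : (fun y => two L [y, (m, a), (m', a')]) = (0 : ℕ × B → ℂ) := by
        funext y
        exact two_long L _ _ _ _
      rw [this, map_zero]
      ring
    rw [e0, e0, two_left, two_left, two_right, two_right]
    have i1 : ∑ b, (X.R ^ (K + 1)) a b * (M * X.η) b a' = ∑ b, M a b * (X.R ^ (K + 1) * X.η) b a'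
        := by
      rw [← Matrix.mul_apply, ← Matrix.mul_apply, ← mul_assoc, ← mul_assoc, h.comm_pow]
    have i2 : ∑ b, (X.R ^ (K + 1)) a' b * (M * X.η) a b = ∑ b, M a' b * (X.R ^ (K + 1) * X.η) a b
        := by
      have j1 : ∑ b, (X.R ^ (K + 1)) a' b * (M * X.η) a b =
          ((M * X.η) * (X.R ^ (K + 1)).transpose) a a' := by
        rw [Matrix.mul_apply]
        apply Finset.sum_congr rfl
        intro b _
        rw [Matrix.transpose_apply]; ring
      have j2 : ∑ b, M a' b * (X.R ^ (K + 1) * X.η) a b =
          ((X.R ^ (K + 1) * X.η) * M.transpose) a a' := by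
        rw [Matrix.mul_apply]
        apply Finset.sum_congr rfl
        intro b _
        rw [Matrix.transpose_apply]; ring
      rw [j1, j2, mul_assoc, ← eta_pow_adj, mul_assoc, ← h.adj, ← mul_assoc, ← mul_assoc,
        h.comm_pow]
    match m, m' with
    | 0, 0 =>
      simp only [if_true, opL_at0, lower_at0, zero_ne_one, if_false, add_zero]
      have j1 : ∑ b, (X.R ^ K) a b * (M * X.η) b a' = (X.R ^ K * (M * X.η)) a a' := by
        rw [← Matrix.mul_apply]
      have j2 : ∑ b, (X.R ^ K) a' b * (M * X.η) a b = (X.R ^ K * (M * X.η)) a a' := by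
        have : ∑ b, (X.R ^ K) a' b * (M * X.η) a b =
          ((M * X.η) * (X.R ^ K).transpose) a a' := by
          rw [Matrix.mul_apply]
          apply Finset.sum_congr rfl
          intro b _
          rw [Matrix.transpose_apply]; ring
        rw [this, mul_assoc, ← eta_pow_adj, ← mul_assoc, ← mul_assoc, h.comm_pow]
      rw [j1, j2, bra_next, bra_next]
      have j3 : two (X.R ^ K * X.η) [(0, a), (0, a')] = (X.R ^ K * X.η) a a' := rfl
      rw [j3]
      have j4 : -((1 - (w : ℂ)) * (K + 1)) * (X.R ^ K * X.η) a a' =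
          -((1 - (w : ℂ)) * (K + 1)) * (X.R ^ K * (M * X.η)) a a' := by
        rcases h.cases with ⟨hw, hM⟩ | hw
        · subst hM; rw [one_mul]
        · subst hw; simp
      rw [j4]
      by_cases h0 : (X.R ^ K * (M * X.η)) a a' = 0
      · rw [h0]; ring
      · have := low_R_deg h h0
        linear_combination (-((K : ℂ) + 1) * (X.R ^ K * (M * X.η)) a a') * this
    | 1, 0 =>
      simp only [if_true, opL_at0, lower_at0, one_ne_zero, if_false, LinearMap.map_zero]
      rw [i1]
      have : two (X.R ^ K * X.η) [(1, a), (0, a')] = 0 := rfl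
      rw [this]
      ring
    | 0, 1 =>
      simp only [if_true, opL_at0, lower_at0, one_ne_zero, if_false, LinearMap.map_zero]
      rw [i2]
      have : two (X.R ^ K * X.η) [(0, a), (1, a')] = 0 := rfl
      rw [this]
      ring
    | m + 2, 0 =>
      have : two (X.R ^ K * X.η) [(m + 2, a), (0, a')] = 0 := rfl
      simp [opL_at0, lower_at0, this]
    | 0, m' + 2 =>
      have : two (X.R ^ K * X.η) [(0, a), (m' + 2, a')] = 0 := rfl
      simp [opL_at0, lower_at0, this]
    | m + 1, m' + 1 =>
      have : two (X.R ^ K * X.η) [(m + 1, a), (m' + 1, a')] = 0 := rfl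
      simp [this]
  | x :: y :: z :: I =>
    have e0 : ∀ (A : ℕ × B → (ℕ × B → ℂ) →ₗ[ℂ] ℂ) (L : Matrix B B ℂ),
        insD X A (two L) (x :: y :: z :: I) = 0 := by
      intro A L
      have h1 : ∀ J : List (ℕ × B), 2 < J.length → two L J = 0 := by
        intro J hJ
        match J, hJ with
        | a :: b :: c :: J, _ => exact two_long L a b c J
      have h2 : ins A (two L) (x :: y :: z :: I) = ins A (fun _ => 0) (x :: y :: z :: I) := by
        apply ins_congr
        intro J hJ
        apply h1
        rw [hJ]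
        simp
      have h3 : (fun w => two L (w :: x :: y :: z :: I)) = (0 : ℕ × B → ℂ) := by
        funext w
        exact two_long L _ _ _ _
      unfold insD
      rw [h2, ins_zero, h3, map_zero, sub_zero]
    rw [e0, e0, two_long]
    ring

section

variable {E : Type} [AddCommMonoid E] [HasAntidiagonal E] [DecidableEq E] (S : Desc X E)

omit [HasAntidiagonal E] in
theorem insD_dlt_ident {M : Matrix B B ℂ} {w : ℕ} (h : Low X M w) (κ : ℂ) (K g : ℕ) (β : E)
    (I) :
    - insD X (X.opL (K + 1)) (dlt E (M * X.η) κ g β) I +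
      insD X (lower M) (fun J => if g = 0 ∧ β = 0 then two (X.R ^ (K + 1) * X.η) J else 0) I =
      -((1 - (w : ℂ)) * (K + 1)) * (if g = 0 ∧ β = 0 then two (X.R ^ K * X.η) I else 0) := by
  have e0 : insD X (X.opL (K + 1)) (dlt E (M * X.η) κ g β) I =
      insD X (X.opL (K + 1)) (fun J => if g = 0 ∧ β = 0 then two (M * X.η) J else 0) I := by
    have : dlt E (M * X.η) κ g β = fun J => (if g = 0 ∧ β = 0 then two (M * X.η) J else 0) +
        (if g = 1 ∧ β = 0 ∧ J = [] then κ else 0) := rfl
    rw [this, insD_add, insD_supp_nil (F := fun J => if g = 1 ∧ β = 0 ∧ J = [] then κ else 0),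
      add_zero]
    intro y J
    simp
  rw [e0]
  by_cases h0 : g = 0 ∧ β = 0
  · simp only [h0, and_self, if_true]
    exact insD_two_ident h K I
  · simp only [h0, if_false, mul_zero, insD_zero]
    ring

/-- The exceptional values in genus `g - 1`. -/
def dltp (E : Type) [AddCommMonoid E] [DecidableEq E] (L : Matrix B B ℂ) (κ : ℂ) :
    ℕ → E → List (ℕ × B) → ℂ
  | 0, _, _ => 0
  | g + 1, β, J => dlt E L κ g β J

theorem eta_sign (a : B) : ∑ c, X.η⁻¹ a c * X.η a c = (-1 : ℂ) ^ (X.p a + X.q a) := by
  have h1 : ∑ c, X.η⁻¹ a c * X.η a c = ∑ c, (-1 : ℂ) ^ (X.p a + X.q a) * (X.η⁻¹ a c * X.η c a) := by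
    apply Finset.sum_congr rfl
    intro c _
    by_cases h0 : X.η⁻¹ a c = 0
    · simp [h0]
    · have h2 := eta_inv_deg h0
      have h3 : ((X.p c + X.q c : ℕ) : ZMod 2) = ((X.p a + X.q a : ℕ) : ZMod 2) := by
        have := par_of_sum (X := X) (w := 0) (by simpa using h2) 0 0
        exact this.symm
      rw [X.η_symm a c, h3]
      have h4 : sg ((X.p a + X.q a : ℕ) : ZMod 2) ((X.p a + X.q a : ℕ) : ZMod 2) =
          (-1 : ℂ) ^ (X.p a + X.q a) := by
        unfold sg
        rcases Nat.even_or_odd (X.p a + X.q a) with he | ho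
        · rw [he.neg_one_pow]
          have : ((X.p a + X.q a : ℕ) : ZMod 2) = 0 := by
            rw [ZMod.natCast_eq_zero_iff]
            exact he.two_dvd
          rw [this, if_neg]
          rintro ⟨h, _⟩
          exact absurd h (by decide)
        · rw [ho.neg_one_pow]
          have : ((X.p a + X.q a : ℕ) : ZMod 2) = 1 := by
            obtain ⟨k, hk⟩ := ho
            rw [hk]
            push_cast
            have h2 : (2 : ZMod 2) = 0 := by decide
            rw [h2]; ring
          rw [this, if_pos ⟨rfl, rfl⟩]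
      rw [h4]
      ring
  rw [h1, ← Finset.mul_sum, ← Matrix.mul_apply, eta_inv_mul, Matrix.one_apply_eq, mul_one]

omit [HasAntidiagonal E] in
theorem dltp_eval {M : Matrix B B ℂ} {w : ℕ} (h : Low X M w) (κ : ℂ) (K g : ℕ) (β : E) (I) :
    quadSum (K + 1) (fun i r s => ∑ a, ∑ c, X.quadCoeff (K + 1) i r a c *
      dltp E (M * X.η) κ g β ((r, a) :: (s, c) :: I)) =
    -(1 - (w : ℂ)) * (if K = 1 ∧ g = 1 ∧ β = 0 ∧ I = [] then X.strMuSq - X.euler / 4 else 0) := by
  have e0 : ∀ r s a c, dltp E (M * X.η) κ g β ((r, a) :: (s, c) :: I) =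
      if r = 0 then (if s = 0 then (if g = 1 ∧ β = 0 ∧ I = [] then (M * X.η) a c else 0) else 0)
        else 0 := by
    intro r s a c
    cases g with
    | zero => simp [dltp]
    | succ g =>
      simp only [dltp, dlt]
      have : two (M * X.η) ((r, a) :: (s, c) :: I) =
          if r = 0 then (if s = 0 then (if I = [] then (M * X.η) a c else 0) else 0) else 0 := by
        cases I with
        | nil => cases r <;> cases s <;> simp [two]
        | cons z I => rw [two_long]; simp
      rw [this]
      simp only [Nat.add_eq_right]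
      by_cases h1 : g = 0 <;> by_cases h2 : β = 0 <;> by_cases h3 : I = [] <;>
        simp [h1, h2, h3]
  simp only [e0]
  have e1 : (fun i r s => ∑ a, ∑ c, X.quadCoeff (K + 1) i r a c *
      if r = 0 then (if s = 0 then (if g = 1 ∧ β = 0 ∧ I = [] then (M * X.η) a c else 0) else 0)
        else 0) = fun i r s => if r = 0 then (if s = 0 then ∑ a, ∑ c,
          X.quadCoeff (K + 1) i 0 a c * (if g = 1 ∧ β = 0 ∧ I = [] then (M * X.η) a c else 0)
          else 0) else 0 := by
    funext i r s
    split_ifs with h1 h2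
    · rw [h1]
    · simp
    · simp
    · simp
  rw [e1, quadSum_r K (fun i s => if s = 0 then ∑ a, ∑ c,
          X.quadCoeff (K + 1) i 0 a c * (if g = 1 ∧ β = 0 ∧ I = [] then (M * X.η) a c else 0)
          else 0)]
  by_cases hc : g = 1 ∧ β = 0 ∧ I = []
  · simp only [hc, and_self, if_true, and_true]
    cases K with
    | zero => simp
    | succ K =>
      rw [Finset.sum_eq_single K]
      · have : K + 1 - 1 - K = 0 := by omega
        rw [if_pos this]
        by_cases hK : K = 0 ∧ w = 0
        · obtain ⟨hK, hw⟩ := hK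
          have hM : M = 1 := by
            rcases h.cases with ⟨_, hM⟩ | hw'
            · exact hM
            · omega
          subst hK; subst hw; subst hM
          simp only [zero_add, if_true, one_mul, Nat.cast_zero, sub_zero]
          have e2 : ∀ a, ∑ c, X.quadCoeff (1 + 1) 0 0 a c * X.η a c =
              - ((-1 : ℂ) ^ (X.p a + X.q a) * (X.mu a ^ 2 - 1 / 4)) := by
            intro a
            rw [← eta_sign a, Finset.sum_mul, ← Finset.sum_neg_distrib]
            apply Finset.sum_congr rfl
            intro c _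
            rw [quadCoeff_eq, pow_zero, mul_one, bra_succ_zero, bra_succ_zero, bra_zero_zero]
            push_cast
            ring
          rw [Finset.sum_congr rfl fun a _ => e2 a]
          unfold Coh.strMuSq Coh.euler
          rw [Finset.sum_div, ← Finset.sum_sub_distrib, Finset.mul_sum]
          apply Finset.sum_congr rfl
          intro a _
          ring
        · have e3 : ∑ a, ∑ c, X.quadCoeff (K + 1 + 1) K 0 a c * (M * X.η) a c = 0 := by
            apply Finset.sum_eq_zero
            intro a _
            apply Finset.sum_eq_zero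
            intro c _
            by_contra hne
            have h1 := left_ne_zero_of_mul hne
            have h2 := low_deg_eta h (right_ne_zero_of_mul hne)
            rw [quadCoeff_eq] at h1
            have h3 := right_ne_zero_of_mul h1
            rw [Matrix.mul_apply] at h3
            obtain ⟨b, _, hb⟩ := Finset.exists_ne_zero_of_sum_ne_zero h3
            have h4 := eta_inv_deg (left_ne_zero_of_mul hb)
            have h6 := (MDeg.R_pow K) b c (right_ne_zero_of_mul hb)
            omega
          rw [e3]
          rcases h.cases with ⟨hw, _⟩ | hw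
          · have : K + 1 ≠ 1 := by
              intro hK'
              apply hK
              exact ⟨by omega, hw⟩
            rw [if_neg this]; ring
          · subst hw; simp
      · intro i hi hne
        rw [Finset.mem_range] at hi
        rw [if_neg (by omega)]
      · intro h
        exact absurd (by simp) h
  · simp [hc]

/-- **The key commutation relation**: the string and divisor operators acting on the
Virasoro constraints. -/
theorem insD_lower_vir {M : Matrix B B ℂ} {w : ℕ} (hM : Low X M w) (c : ℕ → E → ℂ) (κ : ℂ)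
    (h : ∀ g β I, insD X (lower M) (S.corr g β) I + c g β * S.corr g β I +
      dlt E (M * X.η) κ g β I = 0)
    (hc : ∀ g₁ g₂ β₁ β₂, c g₁ β₁ + c g₂ β₂ = c (g₁ + g₂) (β₁ + β₂))
    (hc' : ∀ g β, c (g + 1) β = c g β) (hc0 : ∀ g, c g 0 = 0)
    (K g : ℕ) (β : E) (I) :
    insD X (lower M) (S.vir (K + 1) g β) I + c g β * S.vir (K + 1) g β I =
      -((1 - (w : ℂ)) * (K + 1)) * S.vir K g β I := by
  have hp : ∀ g β I, insD X (lower M) (S.pred g β) I + (c g β + 0) * S.pred g β I +
      dltp E (M * X.η) κ g β I = 0 := by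
    intro g β I
    cases g with
    | zero =>
      have : S.pred 0 β = fun _ => 0 := rfl
      rw [this, insD_zero]
      simp [dltp]
    | succ g =>
      rw [hc']
      show insD X (lower M) (S.corr g β) I + (c g β + 0) * S.corr g β I +
        dlt E (M * X.η) κ g β I = 0
      rw [add_zero]
      exact h g β I
  have main := insD_vir S (Fub_lower M) (PP_lower hM.deg) c 0 (dlt E (M * X.η) κ)
    (dltp E (M * X.η) κ) h hp (fun g₁ g₂ β₁ β₂ => by rw [hc, add_zero]) (K + 1) g β I
  have e1 : insD X (comm (lower M) (X.opL (K + 1))) (S.corr g β) I =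
      (-((1 - (w : ℂ)) * (K + 1))) * insD X (X.opL K) (S.corr g β) I -
        ins (eps X M w K) (S.corr g β) I := by
    have : comm (lower M) (X.opL (K + 1)) = fun x =>
      (-((1 - (w : ℂ)) * (K + 1))) • X.opL K x + (-1 : ℂ) • eps X M w K x := by
      funext x
      exact comm_lower_opL hM K x
    rw [this, insD_op_add (A := fun x => (-((1 - (w : ℂ)) * (K + 1))) • X.opL K x)
      (A' := fun x => (-1 : ℂ) • eps X M w K x), insD_op_smul, insD_op_smul]
    have e2 : insD X (eps X M w K) (S.corr g β) I = ins (eps X M w K) (S.corr g β) I := by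
      unfold insD
      have : eps X M w K (1, X.e) = 0 := by
        unfold eps
        rw [if_neg]
        simp
      rw [this, LinearMap.zero_apply, sub_zero]
    rw [e2]
    ring
  have e3 := quad_extra hM K (fun y z => S.pair g β y z I)
  have e4 : (fun i r s => ∑ a, ∑ c, X.quadCoeff (K + 1) i r a c *
      (0 * S.pair g β (r, a) (s, c) I + lower M (r, a) (fun z => S.pair g β z (s, c) I)
        + lower M (s, c) (fun z => S.pair g β (r, a) z I))) = fun i r s => ∑ a, ∑ c,
      X.quadCoeff (K + 1) i r a c * (lower M (r, a) (fun z => S.pair g β z (s, c) I) +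
        lower M (s, c) (fun z => S.pair g β (r, a) z I)) := by
    funext i r s
    apply Finset.sum_congr rfl
    intro a _
    apply Finset.sum_congr rfl
    intro c _
    rw [zero_mul, zero_add]
  have e5 := insD_dlt_ident (E := E) hM κ K g β I
  have e6 : c g β * (if g = 0 ∧ β = 0 then two (X.R ^ (K + 1) * X.η) I else 0) = 0 := by
    by_cases h0 : β = 0
    · rw [h0, hc0, zero_mul]
    · simp [h0]
  have e7 : c g β * (if K + 1 = 1 ∧ g = 1 ∧ β = 0 ∧ I = [] then X.euler / 16 - X.strMuSq / 4
      else 0) = 0 := by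
    by_cases h0 : β = 0
    · rw [h0, hc0, zero_mul]
    · simp [h0]
  have e8 : insD X (lower M) (fun J => if K + 1 = 1 ∧ g = 1 ∧ β = 0 ∧ J = []
      then X.euler / 16 - X.strMuSq / 4 else 0) I = 0 := by
    apply insD_supp_nil
    intro y J
    simp
  rw [main, e1, e4, e3, dltp_eval hM, sep_exc_eval S hM, e6, e7, e8, vir_eq]
  have e9 : (if K = 1 ∧ g = 1 ∧ β = 0 ∧ I = [] then X.euler / 16 - X.strMuSq / 4 else 0) =
      -(1 / 4) * (if K = 1 ∧ g = 1 ∧ β = 0 ∧ I = [] then X.strMuSq - X.euler / 4 else 0) := by
    split_ifs <;> ring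
  rw [e9]
  by_cases hK : K = 1
  · subst hK
    push_cast at e5 ⊢
    linear_combination e5
  · have hK' : ¬ (K = 1 ∧ g = 1 ∧ β = 0 ∧ I = []) := fun h => hK h.1
    rw [if_neg hK']
    linear_combination e5

end

end Vale.Agent.P269.H471
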