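import Vale.Agent.P269.H471.Trr

/-!
# Convolutions over curve classes and the symmetric form of the quadratic terms
-/

open Finset

namespace Vale.Agent.P269.H471

variable {T : CIType} {B : Type} [Fintype B] [DecidableEq B] {X : Coh T B}
variable {E : Type} [AddCommMonoid E] [HasAntidiagonal E]

/-- shuffle product of two families indexed by curve classes -/
noncomputable def cs (X : Coh T B) (f g : E → List (ℕ × B) → ℂ) (β : E) (I : List (ℕ × B)) : ℂ :=
  ∑ v ∈ antidiagonal β, X.shuffle (f v.1) (g v.2) I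

section cs

variable (f f' g g' h : E → List (ℕ × B) → ℂ)

theorem cs_add_left (β : E) (I) : cs X (fun β J => f β J + f' β J) g β I =
    cs X f g β I + cs X f' g β I := by
  unfold cs
  rw [← Finset.sum_add_distrib]
  apply Finset.sum_congr rfl
  intro v _
  rw [shuffle_add_left]

theorem cs_add_right (β : E) (I) : cs X f (fun β J => g β J + g' β J) β I =
    cs X f g β I + cs X f g' β I := by
  unfold cs
  rw [← Finset.sum_add_distrib]
  apply Finset.sum_congr rfl
  intro v _
  rw [shuffle_add_right]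

theorem cs_smul_left (c : ℂ) (β : E) (I) : cs X (fun β J => c * f β J) g β I =
    c * cs X f g β I := by
  unfold cs
  rw [Finset.mul_sum]
  apply Finset.sum_congr rfl
  intro v _
  rw [shuffle_smul_left]

theorem cs_smul_right (c : ℂ) (β : E) (I) : cs X f (fun β J => c * g β J) β I =
    c * cs X f g β I := by
  unfold cs
  rw [Finset.mul_sum]
  apply Finset.sum_congr rfl
  intro v _
  rw [shuffle_smul_right]

theorem cs_sum_left {ι : Type} (s : Finset ι) (f : ι → E → List (ℕ × B) → ℂ) (β : E) (I) :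
    cs X (fun β J => ∑ i ∈ s, f i β J) g β I = ∑ i ∈ s, cs X (f i) g β I := by
  classical
  induction s using Finset.induction_on with
  | empty =>
    simp only [Finset.sum_empty]
    unfold cs
    simp [shuffle_zero_left]
  | insert a s ha ih => simp only [Finset.sum_insert ha, cs_add_left, ih]

theorem cs_sum_right {ι : Type} (s : Finset ι) (g : ι → E → List (ℕ × B) → ℂ) (β : E) (I) :
    cs X f (fun β J => ∑ i ∈ s, g i β J) β I = ∑ i ∈ s, cs X f (g i) β I := by
  classical
  induction s using Finset.induction_on with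
  | empty =>
    simp only [Finset.sum_empty]
    unfold cs
    simp [shuffle_zero_right]
  | insert a s ha ih => simp only [Finset.sum_insert ha, cs_add_right, ih]

theorem cs_lin_left {ι : Type} (φ : (ι → ℂ) →ₗ[ℂ] ℂ) (f : ι → E → List (ℕ × B) → ℂ) (β : E) (I) :
    cs X (fun β J => φ (fun i => f i β J)) g β I = φ (fun i => cs X (f i) g β I) := by
  unfold cs
  have : (fun i => ∑ v ∈ antidiagonal β, X.shuffle (f i v.1) (g v.2) I) =
      ∑ v ∈ antidiagonal β, fun i => X.shuffle (f i v.1) (g v.2) I := by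
    funext i
    rw [Finset.sum_apply]
  rw [this, map_sum]
  apply Finset.sum_congr rfl
  intro v _
  rw [shuffle_lin_left φ (fun i => f i v.1) (g v.2)]

theorem cs_lin_right {ι : Type} (φ : (ι → ℂ) →ₗ[ℂ] ℂ) (g : ι → E → List (ℕ × B) → ℂ) (β : E) (I) :
    cs X f (fun β J => φ (fun i => g i β J)) β I = φ (fun i => cs X f (g i) β I) := by
  unfold cs
  have : (fun i => ∑ v ∈ antidiagonal β, X.shuffle (f v.1) (g i v.2) I) =
      ∑ v ∈ antidiagonal β, fun i => X.shuffle (f v.1) (g i v.2) I := by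
    funext i
    rw [Finset.sum_apply]
  rw [this, map_sum]
  apply Finset.sum_congr rfl
  intro v _
  rw [shuffle_lin_right φ (f v.1) (fun i => g i v.2)]

theorem shuffle_sum_left {ι : Type} (s : Finset ι) (f : ι → List (ℕ × B) → ℂ)
    (g : List (ℕ × B) → ℂ) (I) :
    X.shuffle (fun J => ∑ i ∈ s, f i J) g I = ∑ i ∈ s, X.shuffle (f i) g I := by
  classical
  induction s using Finset.induction_on with
  | empty => simp [shuffle_zero_left]
  | insert a s ha ih => simp only [Finset.sum_insert ha, shuffle_add_left, ih]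

theorem shuffle_sum_right {ι : Type} (s : Finset ι) (f : List (ℕ × B) → ℂ)
    (g : ι → List (ℕ × B) → ℂ) (I) :
    X.shuffle f (fun J => ∑ i ∈ s, g i J) I = ∑ i ∈ s, X.shuffle f (g i) I := by
  classical
  induction s using Finset.induction_on with
  | empty => simp [shuffle_zero_right]
  | insert a s ha ih => simp only [Finset.sum_insert ha, shuffle_add_right, ih]

theorem cs_assoc (β : E) (I) : cs X f (cs X g h) β I = cs X (cs X f g) h β I := by
  have e1 : cs X f (cs X g h) β I = ∑ v ∈ antidiagonal β, ∑ u ∈ antidiagonal v.2,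
      X.shuffle (X.shuffle (f v.1) (g u.1)) (h u.2) I := by
    unfold cs
    apply Finset.sum_congr rfl
    intro v _
    rw [shuffle_sum_right (antidiagonal v.2) (f v.1) (fun u => X.shuffle (g u.1) (h u.2))]
    apply Finset.sum_congr rfl
    intro u _
    rw [shuffle_assoc]
  have e2 : cs X (cs X f g) h β I = ∑ v ∈ antidiagonal β, ∑ u ∈ antidiagonal v.1,
      X.shuffle (X.shuffle (f u.1) (g u.2)) (h v.2) I := by
    unfold cs
    apply Finset.sum_congr rfl
    intro v _
    rw [shuffle_sum_left (antidiagonal v.1) (fun u => X.shuffle (f u.1) (g u.2)) (h v.2)]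
  rw [e1, e2]
  simp only [Finset.sum_sigma']
  apply Finset.sum_nbij' (fun ⟨⟨i, _⟩, ⟨k, l⟩⟩ => ⟨(i + k, l), (i, k)⟩)
    (fun ⟨⟨_, j⟩, ⟨k, l⟩⟩ => ⟨(k, l + j), (l, j)⟩) <;>
  aesop (add simp [add_assoc])

theorem pf_cs {A : ℕ × B → (ℕ × B → ℂ) →ₗ[ℂ] ℂ} (hA : PP X A)
    (K : ℕ × B → E → List (ℕ × B) → ℂ) (β : E) (I) :
    pf X A (fun u J => cs X (K u) g β J) I =
      cs X (fun β => pf X A (fun u J => K u β J)) g β I := by
  unfold cs
  rw [pf_sum]
  apply Finset.sum_congr rfl
  intro v _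
  rw [pf_shuffle hA (fun u J => K u v.1 J)]

end cs

/-! ### the symmetry of the quadratic coefficients -/

/-- the diagonal of Koszul signs -/
theorem eta_inv_symm (a b : B) : X.η⁻¹ b a = sg (X.par (0, a)) (X.par (0, a)) * X.η⁻¹ a b := by
  let s : B → ℂ := fun a => sg (X.par (0, a)) (X.par (0, a))
  let P : Matrix B B ℂ := Matrix.diagonal s
  have hs : ∀ a, s a * s a = 1 := fun a => sg_mul_self _ _
  have hP : P * P = 1 := by
    simp only [P, Matrix.diagonal_mul_diagonal, hs]
    exact Matrix.diagonal_one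
  have h1 : X.η.transpose = P * X.η := by
    ext a b
    simp only [P, Matrix.diagonal_mul, Matrix.transpose_apply]
    by_cases h0 : X.η a b = 0
    · have : X.η b a = 0 := by rw [X.η_symm, h0, mul_zero]
      rw [this, h0, mul_zero]
    · have hp : X.par (0, a) = X.par (0, b) :=
        par_of_sum (w := 0) (by simpa using X.η_deg a b h0) 0 0
      have h2 : X.η b a = sg (X.par (0, b)) (X.par (0, a)) * X.η a b := X.η_symm b a
      rw [h2, ← hp]
  have h3 : X.η⁻¹.transpose = X.η⁻¹ * P := by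
    rw [Matrix.transpose_nonsing_inv, h1]
    apply Matrix.inv_eq_right_inv
    rw [mul_assoc, ← mul_assoc X.η, eta_mul_inv, one_mul, hP]
  have h4 : X.η⁻¹ b a = X.η⁻¹ a b * s b := by
    have := congrFun (congrFun h3 a) b
    simpa [P, Matrix.mul_diagonal] using this
  rw [h4]
  by_cases h0 : X.η⁻¹ a b = 0
  · rw [h0]; ring
  · have hp : X.par (0, a) = X.par (0, b) :=
      par_of_sum (w := 0) (by simpa using eta_inv_deg h0) 0 0
    simp only [s]
    rw [hp]; ring

theorem R_pow_inv_adj (i : ℕ) : (X.R ^ i).transpose * X.η⁻¹ = X.η⁻¹ * X.R ^ i := by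
  have h := eta_pow_adj (X := X) i
  have h1 : X.η⁻¹ * (X.R ^ i * X.η) * X.η⁻¹ = X.η⁻¹ * (X.η * (X.R ^ i).transpose) * X.η⁻¹ := by
    rw [h]
  rw [mul_assoc, mul_assoc, eta_mul_inv, mul_one, ← mul_assoc, eta_inv_mul, one_mul] at h1
  exact h1.symm

theorem eta_inv_R_symm (i : ℕ) (a c : B) : (X.η⁻¹ * X.R ^ i) c a =
    sg (X.par (0, a)) (X.par (0, a)) * (X.η⁻¹ * X.R ^ i) a c := by
  rw [← R_pow_inv_adj, Matrix.mul_apply, R_pow_inv_adj, Matrix.mul_apply, Finset.mul_sum]
  apply Finset.sum_congr rfl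
  intro b _
  rw [Matrix.transpose_apply, eta_inv_symm a b]
  ring

theorem eta_inv_R_mu {i : ℕ} {a c : B} (h : (X.η⁻¹ * X.R ^ i) a c ≠ 0) :
    X.mu a + X.mu c = i := by
  rw [Matrix.mul_apply] at h
  obtain ⟨b, _, hb⟩ := Finset.exists_ne_zero_of_sum_ne_zero h
  have h2 := (eta_inv_deg (left_ne_zero_of_mul hb)).1
  have h3 := (MDeg.R_pow i).mu (right_ne_zero_of_mul hb)
  have h4 := mu_of_sum (X := X) (w := 0) (by simpa using h2)
  push_cast at h4
  linear_combination h4 + h3

theorem quadCoeff_symm {K i r s : ℕ} (h : i + r + s + 2 = K) (a c : B) :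
    X.quadCoeff K i s c a = sg (X.par (0, a)) (X.par (0, a)) * X.quadCoeff K i r a c := by
  rw [quadCoeff_eq, quadCoeff_eq, eta_inv_R_symm]
  by_cases h0 : (X.η⁻¹ * X.R ^ i) a c = 0
  · rw [h0]; ring
  · have h1 := eta_inv_R_mu h0
    have h4 : (i : ℂ) + r + s + 2 = K := by exact_mod_cast h
    have h2 : -X.mu c - s - 1 / 2 = -(-X.mu a - r - 1 / 2) - ((K : ℂ) - 1) := by
      linear_combination (-1 : ℂ) * h1 + (-1 : ℂ) * h4
    rw [h2, bra_reflect]
    have h3 : (-1 : ℂ) ^ (s + 1) * (-1 : ℂ) ^ (K + i) = (-1) ^ (r + 1) := by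
      rw [← pow_add]
      have : s + 1 + (K + i) = (r + 1) + 2 * (i + s + 1) := by omega
      rw [this, pow_add, pow_mul]
      norm_num
    linear_combination (bra K i (-X.mu a - r - 1 / 2) * sg (X.par (0, a)) (X.par (0, a)) *
      (X.η⁻¹ * X.R ^ i) a c) * h3

theorem quadSum_swap (K : ℕ) (f : ℕ → ℕ → ℕ → ℂ) :
    quadSum K (fun i r s => f i s r) = quadSum K f := by
  match K with
  | 0 => rfl
  | 1 => rfl
  | K + 2 =>
    simp only [quadSum]
    apply Finset.sum_congr rfl
    intro u _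
    exact Finset.Nat.sum_antidiagonal_swap (n := u.2) (f := fun v => f u.1 v.1 v.2)

theorem quadSum_shift_i (K : ℕ) (f : ℕ → ℕ → ℕ → ℂ) :
    quadSum (K + 1) (fun i r s => if i = 0 then 0 else f (i - 1) r s) = quadSum K f := by
  match K with
  | 0 => simp [quadSum]
  | 1 => simp [quadSum]
  | K + 2 =>
    simp only [quadSum]
    rw [Finset.Nat.sum_antidiagonal_succ]
    simp

/-! ### parity of the correlators -/

variable [DecidableEq E] (S : Desc X E)

theorem par_sum_eq (J : List (ℕ × B)) : (J.map X.par).sum =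
    (((J.map fun x => (x.1 : ℤ) + X.p x.2).sum + (J.map fun x => (x.1 : ℤ) + X.q x.2).sum : ℤ) :
      ZMod 2) := by
  have h2 : (2 : ZMod 2) = 0 := by decide
  induction J with
  | nil => simp
  | cons x J ih =>
    simp only [List.map_cons, List.sum_cons]
    rw [ih]
    unfold Coh.par
    push_cast
    linear_combination (-(x.1 : ZMod 2)) * h2

theorem corr_PS (g : ℕ) (β : E) : PS X (S.corr g β) 0 := by
  intro J hJ
  by_contra h0
  apply hJ
  rw [par_sum_eq, S.dim_p g β J h0, S.dim_q g β J h0]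
  have h2 : (2 : ZMod 2) = 0 := by decide
  push_cast
  linear_combination ((1 - (g : ZMod 2)) * (T.D - 3) + T.index * S.deg β + J.length) * h2

/-- one extra entry at the end -/
theorem corr_end (g : ℕ) (β : E) (y : ℕ × B) (J) : S.corr g β (J ++ [y]) =
    sg (X.par y) (X.par y) * S.corr g β (y :: J) := by
  have h1 := (corr_GS S g β).front J y []
  rw [List.append_nil] at h1
  rw [h1]
  by_cases h0 : (J.map X.par).sum = X.par y
  · rw [h0]
  · have : S.corr g β (y :: J) = 0 := by
      apply corr_PS S g β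
      rw [List.map_cons, List.sum_cons]
      intro h
      apply h0
      have h3 : ∀ a b : ZMod 2, a + b = 0 → b = a := by decide
      exact h3 _ _ h
    rw [this]; ring

/-- the summands of the quadratic part with one marked entry -/
noncomputable def qw (w y₁ y₂ : ℕ × B) : E → List (ℕ × B) → ℂ :=
  cs X (fun β J => S.corr 0 β (J ++ [y₁])) (fun β J => S.corr 0 β (y₂ :: (J ++ [w])))

theorem pair_snoc (β : E) {y₁ y₂ : ℕ × B} (hy : X.par y₁ = X.par y₂) (I w) :
    S.pair 0 β y₁ y₂ (I ++ [w]) = qw S w y₁ y₂ β I +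
      sg (X.par y₁) (X.par y₁) * qw S w y₂ y₁ β I := by
  have e0 : S.pair 0 β y₁ y₂ (I ++ [w]) = ∑ v ∈ antidiagonal β,
      X.shuffle (fun J => S.corr 0 v.1 (J ++ [y₁])) (fun J => S.corr 0 v.2 (y₂ :: J))
        (I ++ [w]) := by
    unfold Desc.pair
    have : S.pred 0 β (y₁ :: y₂ :: (I ++ [w])) = 0 := rfl
    rw [this, zero_add]
    simp
  have e1 : qw S w y₂ y₁ β I = ∑ v ∈ antidiagonal β,
      X.shuffle (fun J => S.corr 0 v.2 (J ++ [y₂])) (fun J => S.corr 0 v.1 (y₁ :: (J ++ [w]))) I
      := by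
    unfold qw cs
    rw [← Finset.HasAntidiagonal.map_swap_antidiagonal, Finset.sum_map,
      Finset.HasAntidiagonal.map_swap_antidiagonal]
    rfl
  rw [e0, e1, Finset.mul_sum]
  unfold qw cs
  rw [← Finset.sum_add_distrib]
  apply Finset.sum_congr rfl
  intro v _
  rw [shuffle_snoc]
  congr 1
  have p1 : PS X (fun J => S.corr 0 v.1 (J ++ [w] ++ [y₁])) (0 + X.par y₁ + X.par w) :=
    ((corr_PS S 0 v.1).snoc y₁).snoc w
  have p2 : PS X (fun J => S.corr 0 v.2 (y₂ :: J)) (0 + X.par y₂) := (corr_PS S 0 v.2).cons y₂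
  rw [p2.sgn_eq, shuffle_smul_right, shuffle_swap p1 p2]
  have e2 : (fun J => S.corr 0 v.1 (J ++ [w] ++ [y₁])) = fun J =>
      sg (X.par y₁) (X.par y₁) * S.corr 0 v.1 (y₁ :: (J ++ [w])) := by
    funext J
    rw [corr_end]
  have e3 : (fun J => S.corr 0 v.2 (J ++ [y₂])) = fun J =>
      sg (X.par y₂) (X.par y₂) * S.corr 0 v.2 (y₂ :: J) := by
    funext J
    rw [corr_end]
  rw [e2, e3, shuffle_smul_right, shuffle_smul_left, ← hy]
  simp only [zero_add]
  rw [sg_add_left]
  have h1 := sg_mul_self (X.par w) (X.par y₁)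
  linear_combination (sg (X.par y₁) (X.par y₁) * sg (X.par y₁) (X.par y₁) *
    X.shuffle (fun J => S.corr 0 v.2 (y₂ :: J)) (fun J => S.corr 0 v.1 (y₁ :: (J ++ [w]))) I) * h1

/-- the symmetric form of the quadratic part -/
theorem quad_snoc (K : ℕ) (β : E) (I w) :
    (1 / 2) * quadSum K (fun i r s => ∑ a, ∑ c, X.quadCoeff K i r a c *
      S.pair 0 β (r, a) (s, c) (I ++ [w])) =
    quadSum K (fun i r s => ∑ a, ∑ c, X.quadCoeff K i r a c * qw S w (r, a) (s, c) β I) := by
  have e1 : quadSum K (fun i r s => ∑ a, ∑ c, X.quadCoeff K i r a c *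
      S.pair 0 β (r, a) (s, c) (I ++ [w])) =
      quadSum K (fun i r s => ∑ a, ∑ c, X.quadCoeff K i r a c * qw S w (r, a) (s, c) β I) +
      quadSum K (fun i r s => ∑ a, ∑ c, X.quadCoeff K i s c a * qw S w (s, c) (r, a) β I) := by
    rw [← quadSum_add]
    apply quadSum_congr
    intro i r s hK
    rw [← Finset.sum_add_distrib]
    apply Finset.sum_congr rfl
    intro a _
    rw [← Finset.sum_add_distrib]
    apply Finset.sum_congr rfl
    intro c _
    rw [quadCoeff_symm hK]
    by_cases h0 : X.quadCoeff K i r a c = 0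
    · rw [h0]; ring
    · rw [pair_snoc S β (par_of_quadCoeff h0 r s)]
      have : X.par (r, a) = X.par (0, a) := rfl
      rw [this]
      ring
  have e2 : quadSum K (fun i r s => ∑ a, ∑ c, X.quadCoeff K i s c a *
      qw S w (s, c) (r, a) β I) =
      quadSum K (fun i r s => ∑ a, ∑ c, X.quadCoeff K i r a c * qw S w (r, a) (s, c) β I) := by
    rw [← quadSum_swap]
    congr 1
    funext i r s
    rw [Finset.sum_comm]
  rw [e1, e2]
  ring

/-- the constraint without the terms acting on the last entry -/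
noncomputable def ct (K : ℕ) (w : ℕ × B) (β : E) (I : List (ℕ × B)) : ℂ :=
  pf X (X.opL K) (fun u J => S.corr 0 β (u :: (J ++ [w]))) I -
    X.opL K (1, X.e) (fun u => S.corr 0 β (u :: (I ++ [w]))) +
    quadSum K (fun i r s => ∑ a, ∑ c, X.quadCoeff K i r a c * qw S w (r, a) (s, c) β I)

theorem vir_snoc (K : ℕ) (β : E) (I w) : S.vir K 0 β (I ++ [w]) =
    ct S K w β I + X.opL K w (fun z => S.corr 0 β (I ++ [z])) +
      (if β = 0 then two (X.R ^ K * X.η) (I ++ [w]) else 0) := by
  rw [vir_eq, quad_snoc, insD_snoc]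
  unfold ct insD
  rw [ins_eq_pf ((corr_GS S 0 β).append [w])]
  simp
  ring

end Vale.Agent.P269.H471
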