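import Vale.Agent.P269.H471.Pull

/-!
# Consequences of the topological recursion relation in genus zero
-/

open Finset

namespace Vale.Agent.P269.H471

variable {T : CIType} {B : Type} [Fintype B] [DecidableEq B] {X : Coh T B}
variable {E : Type} [AddCommMonoid E] [HasAntidiagonal E] [DecidableEq E] (S : Desc X E)

/-- The index set of the splittings in genus zero. -/
def idx (B : Type) [Fintype B] {E : Type} [AddCommMonoid E] [HasAntidiagonal E] (β : E) :
    Finset ((E × E) × B × B) := antidiagonal β ×ˢ (univ ×ˢ univ)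

omit [DecidableEq B] [DecidableEq E] in
theorem sum_idx (β : E) (f : (E × E) × B × B → ℂ) : ∑ i ∈ idx B β, f i =
    ∑ v ∈ antidiagonal β, ∑ b, ∑ c, f (v, b, c) := by
  unfold idx
  rw [Finset.sum_product]
  apply Finset.sum_congr rfl
  intro v _
  rw [Finset.sum_product]

theorem trr_idx (β : E) (x : ℕ × B) (I : List (ℕ × B)) (y z : ℕ × B) :
    S.corr 0 β ((x.1 + 1, x.2) :: (I ++ [y, z])) = ∑ i ∈ idx B β, X.η⁻¹ i.2.1 i.2.2 *
      X.shuffle (fun J => S.corr 0 i.1.1 (x :: (J ++ [(0, i.2.1)])))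
        (fun J => S.corr 0 i.1.2 ((0, i.2.2) :: (J ++ [y, z]))) I := by
  rw [sum_idx]
  exact S.trr β x.1 x.2 I y z

/-- An operator acting on a two-point function with a raised first entry. -/
theorem insD_trr {A : ℕ × B → (ℕ × B → ℂ) →ₗ[ℂ] ℂ} (pA : PP X A) (β : E)
    (x w : ℕ × B) (I : List (ℕ × B)) :
    insD X A (fun J => S.corr 0 β ((x.1 + 1, x.2) :: (J ++ [w]))) I =
      ∑ i ∈ idx B β, X.η⁻¹ i.2.1 i.2.2 *
      X.shuffle (fun J => S.corr 0 i.1.1 (x :: (J ++ [(0, i.2.1)])))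
        (insD X A (fun J => S.corr 0 i.1.2 ((0, i.2.2) :: (J ++ [w])))) I := by
  refine insD_split pA (idx B β) (fun i => X.η⁻¹ i.2.1 i.2.2)
    (H := fun J => S.corr 0 β ((x.1 + 1, x.2) :: (J ++ [w]))) ?_
    (fun i J => S.corr 0 i.1.1 (x :: (J ++ [(0, i.2.1)])))
    (fun i J => S.corr 0 i.1.2 ((0, i.2.2) :: (J ++ [w]))) ?_ ?_ I
  · exact ((corr_GS S 0 β).cons (x.1 + 1, x.2)).append [w]
  · intro i _
    exact ((corr_GS S 0 i.1.2).cons (0, i.2.2)).append [w]
  · intro I u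
    have := trr_idx S β x I u w
    simpa using this

omit [Fintype B] [DecidableEq B] in
theorem two_succ_left (L : Matrix B B ℂ) (m : ℕ) (a : B) (I : List (ℕ × B)) :
    two L ((m + 1, a) :: I) = 0 := by
  unfold two
  split
  · next h => simp at h
  · rfl

omit [Fintype B] [DecidableEq B] in
theorem two_snoc_succ (L : Matrix B B ℂ) (m : ℕ) (a : B) (I : List (ℕ × B)) :
    two L (I ++ [(m + 1, a)]) = 0 := by
  have := congrFun (two_snoc L (m + 1, a)) I
  simp only [Nat.succ_ne_zero, and_false, if_false] at this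
  rw [this]
  match I with
  | [] => rfl
  | [x] => rfl
  | x :: y :: I => rfl

theorem lower_one_zero (a : B) (G : ℕ × B → ℂ) : lower (1 : Matrix B B ℂ) (0, a) G = 0 := by
  rw [lower_zero]; rfl

theorem lower_one_succ (n : ℕ) (a : B) (G : ℕ × B → ℂ) :
    lower (1 : Matrix B B ℂ) (n + 1, a) G = G (n, a) := by
  rw [lower_succ, Finset.sum_eq_single a]
  · simp
  · intro b _ hb
    rw [Matrix.one_apply_ne' hb, zero_mul]
  · intro h
    exact absurd (Finset.mem_univ _) h

/-- The two-point recursion. -/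
theorem trr_two (β : E) (x y : ℕ × B) (I : List (ℕ × B)) :
    S.corr 0 β ((x.1 + 1, x.2) :: (I ++ [y])) + S.corr 0 β (x :: (I ++ [(y.1 + 1, y.2)])) =
      ∑ i ∈ idx B β, X.η⁻¹ i.2.1 i.2.2 *
      X.shuffle (fun J => S.corr 0 i.1.1 (x :: (J ++ [(0, i.2.1)])))
        (fun J => S.corr 0 i.1.2 ((0, i.2.2) :: (J ++ [y]))) I := by
  have hP : PP X (lower (1 : Matrix B B ℂ)) := PP_lower MDeg.one
  -- string equation for `x⁺ I y⁺`
  have e1 := string_eq S 0 β ((x.1 + 1, x.2) :: (I ++ [(y.1 + 1, y.2)]))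
  rw [insD_cons hP (corr_GS S 0 β), insD_snoc, lower_one_succ, lower_one_succ,
    insD_trr S hP] at e1
  have e2 : dlt E (1 * X.η) 0 0 β ((x.1 + 1, x.2) :: (I ++ [(y.1 + 1, y.2)])) = 0 := by
    simp [dlt, two_succ_left]
  rw [e2] at e1
  have e3 : ∀ i : (E × E) × B × B,
      insD X (lower 1) (fun J => S.corr 0 i.1.2 ((0, i.2.2) :: (J ++ [(y.1 + 1, y.2)]))) =
      fun J => -1 * S.corr 0 i.1.2 ((0, i.2.2) :: (J ++ [y])) := by
    intro i
    funext J
    have e4 := string_eq S 0 i.1.2 ((0, i.2.2) :: (J ++ [(y.1 + 1, y.2)]))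
    rw [insD_cons hP (corr_GS S 0 i.1.2), insD_snoc, lower_one_zero, lower_one_succ] at e4
    have e5 : dlt E (1 * X.η) 0 0 i.1.2 ((0, i.2.2) :: (J ++ [(y.1 + 1, y.2)])) = 0 := by
      have : two (1 * X.η) ((0, i.2.2) :: (J ++ [(y.1 + 1, y.2)])) = 0 :=
        two_snoc_succ (1 * X.η) y.1 y.2 ((0, i.2.2) :: J)
      unfold dlt
      rw [this]
      simp
    rw [e5] at e4
    linear_combination e4
  simp only [e3, shuffle_smul_right] at e1
  have e6 : ∑ i ∈ idx B β, X.η⁻¹ i.2.1 i.2.2 * (-1 *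
      X.shuffle (fun J => S.corr 0 i.1.1 (x :: (J ++ [(0, i.2.1)])))
        (fun J => S.corr 0 i.1.2 ((0, i.2.2) :: (J ++ [y]))) I) =
      - ∑ i ∈ idx B β, X.η⁻¹ i.2.1 i.2.2 *
      X.shuffle (fun J => S.corr 0 i.1.1 (x :: (J ++ [(0, i.2.1)])))
        (fun J => S.corr 0 i.1.2 ((0, i.2.2) :: (J ++ [y]))) I := by
    rw [← Finset.sum_neg_distrib]
    apply Finset.sum_congr rfl
    intro i _
    ring
  rw [e6] at e1
  linear_combination e1

/-- The operator `z^m phi ↦ (μ + m + 3/2) z^(m+1) phi + z^m R phi`. -/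
noncomputable def opA (X : Coh T B) (x : ℕ × B) : (ℕ × B → ℂ) →ₗ[ℂ] ℂ :=
  (X.mu x.2 + x.1 + 3 / 2) • LinearMap.proj (x.1 + 1, x.2) +
    ∑ b, X.R x.2 b • LinearMap.proj (x.1, b)

/-- The operator `z^m phi ↦ (μ + m + 1/2) z^(m+1) phi + z^m R phi`. -/
noncomputable def opA' (X : Coh T B) (x : ℕ × B) : (ℕ × B → ℂ) →ₗ[ℂ] ℂ :=
  (X.mu x.2 + x.1 + 1 / 2) • LinearMap.proj (x.1 + 1, x.2) +
    ∑ b, X.R x.2 b • LinearMap.proj (x.1, b)

theorem opA_apply (x : ℕ × B) (G : ℕ × B → ℂ) : opA X x G =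
    (X.mu x.2 + x.1 + 3 / 2) * G (x.1 + 1, x.2) + ∑ b, X.R x.2 b * G (x.1, b) := by
  simp [opA, LinearMap.sum_apply]

theorem opA'_apply (x : ℕ × B) (G : ℕ × B → ℂ) : opA' X x G =
    (X.mu x.2 + x.1 + 1 / 2) * G (x.1 + 1, x.2) + ∑ b, X.R x.2 b * G (x.1, b) := by
  simp [opA', LinearMap.sum_apply]

theorem opL_one (m : ℕ) (a : B) (G : ℕ × B → ℂ) : X.opL 1 (m, a) G =
    (X.mu a + m + 1 / 2) * G (m, a) + ∑ b, X.R a b * ev ((m : ℤ) - 1) b G := by
  rw [opL_apply, Finset.sum_range_succ, Finset.sum_range_one]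
  have e1 : bra 1 0 (X.mu a + m + 1 / 2) = X.mu a + m + 1 / 2 := by
    rw [bra_succ_zero, bra_zero_zero]; simp
  simp only
  rw [e1, bra_top, one_mul]
  congr 1
  · congr 1
    rw [Finset.sum_eq_single a]
    · have : (m : ℤ) + ((1 : ℕ) : ℤ) - 1 - ((0 : ℕ) : ℤ) = (m : ℤ) := by push_cast; ring
      rw [this, ev_nat]
      simp
    · intro b _ hb
      rw [pow_zero, Matrix.one_apply_ne' hb, zero_mul]
    · intro h
      exact absurd (Finset.mem_univ _) h
  · apply Finset.sum_congr rfl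
    intro b _
    have : (m : ℤ) + ((1 : ℕ) : ℤ) - 1 - ((1 : ℕ) : ℤ) = (m : ℤ) - 1 := by push_cast; ring
    rw [this, pow_one]

theorem opL_one_succ (m : ℕ) (a : B) (G : ℕ × B → ℂ) :
    X.opL 1 (m + 1, a) G = opA X (m, a) G := by
  rw [opL_one, opA_apply]
  simp only
  congr 1
  · push_cast; ring
  · apply Finset.sum_congr rfl
    intro b _
    have : ((m + 1 : ℕ) : ℤ) - 1 = (m : ℤ) := by push_cast; ring
    rw [this, ev_nat]

theorem opL_one_zero (a : B) (G : ℕ × B → ℂ) :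
    X.opL 1 (0, a) G = (X.mu a + 1 / 2) * G (0, a) := by
  rw [opL_one]
  have : ∀ b : B, ev (((0 : ℕ) : ℤ) - 1) b = 0 := fun b => ev_neg (by omega) b
  simp only [this, LinearMap.zero_apply, mul_zero, Finset.sum_const_zero, add_zero]
  push_cast; ring

theorem opA'_eq (m : ℕ) (a : B) (G : ℕ × B → ℂ) : opA' X (m, a) G =
    X.opL 1 (m, a) (fun z => G (z.1 + 1, z.2)) +
      (if m = 0 then ∑ b, X.R a b * G (0, b) else 0) := by
  rw [opA'_apply, opL_one]
  simp only
  cases m with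
  | zero =>
    have : ∀ b : B, ev (((0 : ℕ) : ℤ) - 1) b = 0 := fun b => ev_neg (by omega) b
    simp only [this, LinearMap.zero_apply, mul_zero, Finset.sum_const_zero, add_zero, if_true]
  | succ m =>
    simp only [Nat.succ_ne_zero, if_false, add_zero]
    congr 1
    apply Finset.sum_congr rfl
    intro b _
    have : ((m + 1 : ℕ) : ℤ) - 1 = (m : ℤ) := by push_cast; ring
    rw [this, ev_nat]

omit [HasAntidiagonal E] in
theorem vir_one_zero [HasAntidiagonal E] (S : Desc X E) (β : E) (L : List (ℕ × B)) :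
    insD X (X.opL 1) (S.corr 0 β) L + (if β = 0 then two (X.R * X.η) L else 0) = 0 := by
  have h := vir_one S 0 β L
  rw [vir_eq] at h
  simpa [quadSum] using h

/-- **The invariance of the tangent spaces of the cone.** -/
theorem tangent (β : E) (u w : ℕ × B) (I : List (ℕ × B)) :
    opA X u (fun z => S.corr 0 β (z :: (I ++ [w]))) =
      opA' X w (fun z => S.corr 0 β (u :: (I ++ [z]))) +
      ∑ i ∈ idx B β, X.η⁻¹ i.2.1 i.2.2 * ((X.mu i.2.2 + 1 / 2) *
      X.shuffle (fun J => S.corr 0 i.1.1 (u :: (J ++ [(0, i.2.1)])))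
        (fun J => S.corr 0 i.1.2 ((0, i.2.2) :: (J ++ [w]))) I) := by
  have hP : PP X (X.opL 1) := PP_opL 1
  -- `L_0` for `u⁺ I w`
  have e1 := vir_one_zero S β ((u.1 + 1, u.2) :: (I ++ [w]))
  rw [insD_cons hP (corr_GS S 0 β), insD_snoc, opL_one_succ, insD_trr S hP, two_succ_left,
    ite_self, add_zero] at e1
  -- `L_0` for `b J w`
  have e2 : ∀ i : (E × E) × B × B,
      insD X (X.opL 1) (fun J => S.corr 0 i.1.2 ((0, i.2.2) :: (J ++ [w]))) =
      fun J => (-(X.mu i.2.2 + 1 / 2)) * S.corr 0 i.1.2 ((0, i.2.2) :: (J ++ [w])) +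
        ((-1) * X.opL 1 w (fun z => S.corr 0 i.1.2 ((0, i.2.2) :: (J ++ [z]))) +
        (-1) * (if i.1.2 = 0 then two (X.R * X.η) ((0, i.2.2) :: (J ++ [w])) else 0)) := by
    intro i
    funext J
    have e3 := vir_one_zero S i.1.2 ((0, i.2.2) :: (J ++ [w]))
    rw [insD_cons hP (corr_GS S 0 i.1.2), insD_snoc, opL_one_zero] at e3
    linear_combination e3
  simp only [e2] at e1
  -- the two-point recursion for `u⁺ I z`
  have e4 : (fun z => S.corr 0 β ((u.1 + 1, u.2) :: (I ++ [z]))) =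
      (-1 : ℂ) • (fun z => S.corr 0 β (u :: (I ++ [(z.1 + 1, z.2)]))) +
      ∑ i ∈ idx B β, X.η⁻¹ i.2.1 i.2.2 • (fun z =>
      X.shuffle (fun J => S.corr 0 i.1.1 (u :: (J ++ [(0, i.2.1)])))
        (fun J => S.corr 0 i.1.2 ((0, i.2.2) :: (J ++ [z]))) I) := by
    funext z
    have := trr_two S β u z I
    simp only [Pi.add_apply, Pi.smul_apply, smul_eq_mul, Finset.sum_apply]
    linear_combination this
  rw [e4, map_add, map_smul, map_sum] at e1
  simp only [map_smul, smul_eq_mul, shuffle_add_right, shuffle_smul_right] at e1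
  have e5 : ∀ i : (E × E) × B × B, X.shuffle
      (fun J => S.corr 0 i.1.1 (u :: (J ++ [(0, i.2.1)])))
      (fun J => X.opL 1 w (fun z => S.corr 0 i.1.2 ((0, i.2.2) :: (J ++ [z])))) I =
      X.opL 1 w (fun z => X.shuffle (fun J => S.corr 0 i.1.1 (u :: (J ++ [(0, i.2.1)])))
        (fun J => S.corr 0 i.1.2 ((0, i.2.2) :: (J ++ [z]))) I) := by
    intro i
    exact shuffle_lin_right (X.opL 1 w) _ (fun z J => S.corr 0 i.1.2 ((0, i.2.2) :: (J ++ [z]))) I
  simp only [e5] at e1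
  -- the exceptional term
  have e6 : ∑ i ∈ idx B β, X.η⁻¹ i.2.1 i.2.2 *
      X.shuffle (fun J => S.corr 0 i.1.1 (u :: (J ++ [(0, i.2.1)])))
      (fun J => if i.1.2 = 0 then two (X.R * X.η) ((0, i.2.2) :: (J ++ [w])) else 0) I =
      (if w.1 = 0 then ∑ b, X.R w.2 b * S.corr 0 β (u :: (I ++ [(0, b)])) else 0) := by
    have f1 : ∀ c : B, (fun J => two (X.R * X.η) ((0, c) :: (J ++ [w]))) =
        emp (if w.1 = 0 then (X.R * X.η) c w.2 else 0) := by
      intro c
      funext J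
      obtain ⟨n, d⟩ := w
      cases J with
      | nil => cases n <;> simp [two, emp]
      | cons x J => 
        show two (X.R * X.η) ((0, c) :: x :: (J ++ [(n, d)])) = 0
        cases J with
        | nil => exact two_long _ _ _ _ _
        | cons y J => exact two_long _ _ _ _ _
    have f2 : ∀ i : (E × E) × B × B, X.shuffle (fun J => S.corr 0 i.1.1 (u :: (J ++ [(0, i.2.1)])))
        (fun J => if i.1.2 = 0 then two (X.R * X.η) ((0, i.2.2) :: (J ++ [w])) else 0) I =
        if i.1.2 = 0 then S.corr 0 i.1.1 (u :: (I ++ [(0, i.2.1)])) *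
          (if w.1 = 0 then (X.R * X.η) i.2.2 w.2 else 0) else 0 := by
      intro i
      by_cases h0 : i.1.2 = 0
      · simp only [h0, if_true]
        rw [f1, shuffle_emp_right]
      · simp only [h0, if_false]
        exact shuffle_zero_right _ _
    simp only [f2]
    rw [sum_idx]
    simp only
    rw [Finset.sum_eq_single (β, 0)]
    · simp only [if_true]
      by_cases hw : w.1 = 0
      · simp only [hw, if_true]
        have f3 : ∀ b, X.R w.2 b = ∑ c, X.η⁻¹ b c * (X.R * X.η) c w.2 := by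
          intro b
          rw [← Matrix.mul_apply]
          have g1 : X.R * X.η = X.η * X.R.transpose := by
            have := eta_pow_adj (X := X) 1
            simpa using this
          rw [g1, ← mul_assoc, eta_inv_mul, one_mul, Matrix.transpose_apply]
        apply Finset.sum_congr rfl
        intro b _
        rw [f3, Finset.sum_mul]
        apply Finset.sum_congr rfl
        intro c _
        ring
      · simp [hw]
    · intro v hv hne
      have : v.2 ≠ 0 := by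
        intro h0
        apply hne
        rw [HasAntidiagonal.mem_antidiagonal, h0, add_zero] at hv
        exact Prod.ext hv h0
      simp [this]
    · intro hn
      exact absurd (by simp) hn
  have e7 : opA' X w (fun z => S.corr 0 β (u :: (I ++ [z]))) =
      X.opL 1 w (fun z => S.corr 0 β (u :: (I ++ [(z.1 + 1, z.2)]))) +
        (if w.1 = 0 then ∑ b, X.R w.2 b * S.corr 0 β (u :: (I ++ [(0, b)])) else 0) :=
    opA'_eq w.1 w.2 _
  rw [e7, ← e6]
  have e8 : ∀ i : (E × E) × B × B, X.η⁻¹ i.2.1 i.2.2 *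
      (-(X.mu i.2.2 + 1 / 2) * X.shuffle (fun J => S.corr 0 i.1.1 (u :: (J ++ [(0, i.2.1)])))
        (fun J => S.corr 0 i.1.2 ((0, i.2.2) :: (J ++ [w]))) I +
      ((-1) * X.opL 1 w (fun z => X.shuffle (fun J => S.corr 0 i.1.1 (u :: (J ++ [(0, i.2.1)])))
        (fun J => S.corr 0 i.1.2 ((0, i.2.2) :: (J ++ [z]))) I) +
      (-1) * X.shuffle (fun J => S.corr 0 i.1.1 (u :: (J ++ [(0, i.2.1)])))
      (fun J => if i.1.2 = 0 then two (X.R * X.η) ((0, i.2.2) :: (J ++ [w])) else 0) I)) =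
      - (X.η⁻¹ i.2.1 i.2.2 * ((X.mu i.2.2 + 1 / 2) *
        X.shuffle (fun J => S.corr 0 i.1.1 (u :: (J ++ [(0, i.2.1)])))
        (fun J => S.corr 0 i.1.2 ((0, i.2.2) :: (J ++ [w]))) I)) -
      X.η⁻¹ i.2.1 i.2.2 * X.opL 1 w (fun z => X.shuffle
        (fun J => S.corr 0 i.1.1 (u :: (J ++ [(0, i.2.1)])))
        (fun J => S.corr 0 i.1.2 ((0, i.2.2) :: (J ++ [z]))) I) -
      X.η⁻¹ i.2.1 i.2.2 * X.shuffle (fun J => S.corr 0 i.1.1 (u :: (J ++ [(0, i.2.1)])))
      (fun J => if i.1.2 = 0 then two (X.R * X.η) ((0, i.2.2) :: (J ++ [w])) else 0) I := by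
    intro i
    ring
  rw [Finset.sum_congr rfl fun i _ => e8 i, Finset.sum_sub_distrib, Finset.sum_sub_distrib,
    Finset.sum_neg_distrib] at e1
  linear_combination e1

end Vale.Agent.P269.H471
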