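import Vale.Agent.P269.H471.Dim
import Vale.Agent.P269.H471.HodgeCI

/-!
# The first constraints and the string, dilaton and divisor recursions
-/

open Finset

namespace Vale.Agent.P269.H471

variable {T : CIType} {B : Type} [Fintype B] [DecidableEq B] {X : Coh T B}

/-- The identity operator. -/
def idOp (x : ℕ × B) : (ℕ × B → ℂ) →ₗ[ℂ] ℂ := LinearMap.proj x

omit [Fintype B] [DecidableEq B] in
theorem ins_diag (f : ℕ × B → ℂ) (F : List (ℕ × B) → ℂ) (I) :
    ins (fun x => f x • (LinearMap.proj x : (ℕ × B → ℂ) →ₗ[ℂ] ℂ)) F I = (I.map f).sum * F I := by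
  induction I generalizing F with
  | nil => simp
  | cons x I ih =>
    rw [ins_cons, ih]
    simp only [LinearMap.smul_apply, LinearMap.proj_apply, smul_eq_mul, List.map_cons,
      List.sum_cons]
    ring

omit [Fintype B] [DecidableEq B] in
theorem ins_idOp (F : List (ℕ × B) → ℂ) (I) : ins idOp F I = (I.length : ℂ) * F I := by
  have h : ∀ x : ℕ × B, idOp x = (fun x => (1 : ℂ) • (LinearMap.proj x : (ℕ × B → ℂ) →ₗ[ℂ] ℂ)) x
      := by
    intro x
    simp [idOp]
  rw [ins_op_congr h, ins_diag]
  simp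

theorem PP_idOp : PP X (idOp : ℕ × B → _) := by
  intro x G G' h
  exact h x rfl

theorem lower_one_e (G : ℕ × B → ℂ) : lower 1 (1, X.e) G = G (0, X.e) := by
  rw [show (1 : ℕ) = 0 + 1 from rfl, lower_succ]
  rw [Finset.sum_eq_single X.e]
  · simp
  · intro b _ hb
    rw [Matrix.one_apply_ne' hb, zero_mul]
  · intro h
    exact absurd (Finset.mem_univ _) h

section

variable {E : Type} [AddCommMonoid E] [HasAntidiagonal E] [DecidableEq E] (S : Desc X E)

theorem string_eq (g : ℕ) (β : E) (I) : insD X (lower 1) (S.corr g β) I +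
    0 * S.corr g β I + dlt E (1 * X.η) 0 g β I = 0 := by
  unfold insD dlt
  rw [lower_one_e, S.string, one_mul]
  simp

theorem divisor_eq (g : ℕ) (β : E) (I) : insD X (lower X.H) (S.corr g β) I +
    (S.deg β : ℂ) * S.corr g β I +
      dlt E (X.H * X.η) (-((T.chernNumber (T.D - 1) : ℂ) / 24)) g β I = 0 := by
  unfold insD dlt
  rw [show (1 : ℕ) = 0 + 1 from rfl, lower_succ, zero_add, S.divisor]
  by_cases h : g = 1 ∧ β = 0 ∧ I = []
  · simp only [h, and_self, if_true]
    ring
  · simp only [h, if_false]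
    ring

theorem dilaton_eq (g : ℕ) (β : E) (I) : insD X idOp (S.corr g β) I +
    (2 * (g : ℂ) - 2) * S.corr g β I +
      dlt E (0 : Matrix B B ℂ) ((T.chernNumber T.D : ℂ) / 24) g β I = 0 := by
  unfold insD dlt
  rw [ins_idOp]
  have h2 : two (0 : Matrix B B ℂ) I = 0 := by
    unfold two
    split <;> rfl
  have h3 : (idOp (1, X.e) : (ℕ × B → ℂ) →ₗ[ℂ] ℂ) (fun y => S.corr g β (y :: I)) =
    S.corr g β ((1, X.e) :: I) := rfl
  rw [h2, h3, S.dilaton]
  simp
  ring

/-- `V_k(τ_0(1) I)` -/
theorem vir_string (K g : ℕ) (β : E) (I) : S.vir (K + 1) g β ((0, X.e) :: I) =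
    ins (lower 1) (S.vir (K + 1) g β) I + (K + 1) * S.vir K g β I := by
  have h := insD_lower_vir S (Low.one (X := X)) (fun _ _ => 0) 0 (string_eq S) (by simp)
    (by simp) (by simp) K g β I
  unfold insD at h
  rw [lower_one_e] at h
  push_cast at h
  linear_combination -h

/-- the divisor recursion -/
theorem vir_divisor (K g : ℕ) (β : E) (I) :
    ∑ b, X.H X.e b * S.vir (K + 1) g β ((0, b) :: I) =
    ins (lower X.H) (S.vir (K + 1) g β) I + (S.deg β : ℂ) * S.vir (K + 1) g β I := by
  have h := insD_lower_vir S (Low.H (X := X)) (fun _ β => (S.deg β : ℂ)) _ (divisor_eq S)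
    (by intro _ _ β₁ β₂; rw [map_add]; push_cast; ring)
    (by simp) (by intro g; simp) K g β I
  unfold insD at h
  rw [show (1 : ℕ) = 0 + 1 from rfl, lower_succ] at h
  push_cast at h
  linear_combination -h

omit [Fintype B] [DecidableEq B] in
theorem two_zero (I : List (ℕ × B)) : two (0 : Matrix B B ℂ) I = 0 := by
  unfold two
  split <;> rfl

/-- the dilaton recursion -/
theorem vir_dilaton (K g : ℕ) (β : E) (I) : S.vir K g β ((1, X.e) :: I) =
    (2 * (g : ℂ) - 2 + I.length) * S.vir K g β I := by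
  set κ : ℂ := (T.chernNumber T.D : ℂ) / 24 with hκ
  have hp : ∀ (g : ℕ) (β : E) I, insD X idOp (S.pred g β) I +
      ((2 * (g : ℂ) - 2) + (-2)) * S.pred g β I +
      dltp E (0 : Matrix B B ℂ) κ g β I = 0 := by
    intro g β I
    cases g with
    | zero =>
      have : S.pred 0 β = fun _ => 0 := rfl
      rw [this, insD_zero]
      simp [dltp]
    | succ g =>
      show insD X idOp (S.corr g β) I + ((2 * ((g + 1 : ℕ) : ℂ) - 2) + (-2)) * S.corr g β I +
        dlt E 0 κ g β I = 0
      have := dilaton_eq S g β I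
      push_cast
      linear_combination this
  have main := insD_vir S (A := idOp) (fun x => Fub.proj x) PP_idOp (fun g _ => 2 * (g : ℂ) - 2)
    (-2) (dlt E 0 κ) (dltp E 0 κ) (dilaton_eq S) hp
    (fun g₁ g₂ β₁ β₂ => by push_cast; ring) K g β I
  have e1 : insD X (comm idOp (X.opL K)) (S.corr g β) I = 0 := by
    have : comm (idOp : ℕ × B → _) (X.opL K) = fun x => (0 : ℂ) • X.opL K x := by
      funext x
      apply LinearMap.ext
      intro G
      rw [comm_apply]
      have h1 : (idOp x : (ℕ × B → ℂ) →ₗ[ℂ] ℂ) (fun y => X.opL K y G) = X.opL K x G := rfl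
      have h2 : (fun y => (idOp y : (ℕ × B → ℂ) →ₗ[ℂ] ℂ) G) = G := rfl
      rw [h1, h2]
      simp
    rw [this, insD_op_smul, zero_mul]
  have e2 : insD X (X.opL K) (dlt E 0 κ g β) I = 0 := by
    apply insD_supp_nil
    intro y J
    simp [dlt, two_zero]
  have e3 : quadSum K (fun i r s => ∑ a, ∑ c, X.quadCoeff K i r a c *
        (-2 * S.pair g β (r, a) (s, c) I + idOp (r, a) (fun z => S.pair g β z (s, c) I)
          + idOp (s, c) (fun z => S.pair g β (r, a) z I))) = 0 := by
    rw [← quadSum_zero K]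
    congr 1
    funext i r s
    apply Finset.sum_eq_zero
    intro a _
    apply Finset.sum_eq_zero
    intro c _
    have h1 : (idOp (r, a) : (ℕ × B → ℂ) →ₗ[ℂ] ℂ) (fun z => S.pair g β z (s, c) I) =
      S.pair g β (r, a) (s, c) I := rfl
    have h2 : (idOp (s, c) : (ℕ × B → ℂ) →ₗ[ℂ] ℂ) (fun z => S.pair g β (r, a) z I) =
      S.pair g β (r, a) (s, c) I := rfl
    rw [h1, h2]
    ring
  have e4 : quadSum K (fun i r s => ∑ a, ∑ c, X.quadCoeff K i r a c *
          dltp E 0 κ g β ((r, a) :: (s, c) :: I)) = 0 := by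
    rw [← quadSum_zero K]
    congr 1
    funext i r s
    apply Finset.sum_eq_zero
    intro a _
    apply Finset.sum_eq_zero
    intro c _
    have : dltp E 0 κ g β ((r, a) :: (s, c) :: I) = 0 := by
      cases g with
      | zero => rfl
      | succ g => simp [dltp, dlt, two_zero]
    rw [this, mul_zero]
  have e5 : quadSum K (fun i r s => ∑ a, ∑ c, X.quadCoeff K i r a c *
          sepExc S (dlt E 0 κ) g β (r, a) (s, c) I) = 0 := by
    rw [← quadSum_zero K]
    congr 1
    funext i r s
    apply Finset.sum_eq_zero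
    intro a _
    apply Finset.sum_eq_zero
    intro c _
    rw [sepExc_dlt]
    simp only [two_zero, shuffle_zero_left, shuffle_zero_right]
    ring
  have e6 : insD X idOp (fun J => if g = 0 ∧ β = 0 then two (X.R ^ K * X.η) J else 0) I
          + (2 * (g : ℂ) - 2) * (if g = 0 ∧ β = 0 then two (X.R ^ K * X.η) I else 0) = 0 := by
    by_cases h0 : g = 0 ∧ β = 0
    · simp only [h0, and_self, if_true]
      unfold insD
      rw [ins_idOp]
      have h1 : (idOp (1, X.e) : (ℕ × B → ℂ) →ₗ[ℂ] ℂ)
          (fun y => two (X.R ^ K * X.η) (y :: I)) = two (X.R ^ K * X.η) ((1, X.e) :: I) := rfl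
      rw [h1]
      have h2 : two (X.R ^ K * X.η) ((1, X.e) :: I) = 0 := by
        unfold two
        split
        · next h => simp at h
        · rfl
      rw [h2]
      match I with
      | [] => simp [two]
      | [x] => rw [two_single]; simp
      | [x, y] => simp
      | x :: y :: z :: I => rw [two_long]; simp
    · simp only [h0, if_false, insD_zero]
      ring
  have e7 : insD X idOp (fun J => if K = 1 ∧ g = 1 ∧ β = 0 ∧ J = []
            then X.euler / 16 - X.strMuSq / 4 else 0) I = 0 := by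
    apply insD_supp_nil
    intro y J
    simp
  have e8 : (2 * (g : ℂ) - 2) * (if K = 1 ∧ g = 1 ∧ β = 0 ∧ I = [] then
      X.euler / 16 - X.strMuSq / 4 else 0) = 0 := by
    by_cases h1 : g = 1
    · subst h1; simp
    · simp [h1]
  rw [e1, e2, e3, e4, e5, e6, e7, e8] at main
  unfold insD at main
  rw [ins_idOp] at main
  have h1 : (idOp (1, X.e) : (ℕ × B → ℂ) →ₗ[ℂ] ℂ) (fun y => S.vir K g β (y :: I)) =
    S.vir K g β ((1, X.e) :: I) := rfl
  rw [h1] at main
  linear_combination -main

/-- The constraint `L_{-1}` is the string equation. -/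
theorem vir_zero (g : ℕ) (β : E) (I) : S.vir 0 g β I = 0 := by
  have h := string_eq S g β I
  rw [vir_eq]
  have h1 : X.opL 0 = lower 1 := by
    funext x
    apply LinearMap.ext
    intro G
    rw [opL_apply, lower_apply]
    simp
  have h2 : X.R ^ 0 * X.η = 1 * X.η := by simp
  rw [h1, h2]
  unfold dlt at h
  simp only [quadSum]
  simp only [zero_mul, add_zero, ite_self] at h
  simp only [mul_zero, add_zero, zero_ne_one, false_and, if_false]
  exact h

/-- The constraint `L_0`. -/
theorem vir_one (g : ℕ) (β : E) (I) : S.vir 1 g β I = 0 := by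
  have hdil := S.dilaton g β I
  have hdiv := divisor_eq S g β I
  rw [vir_eq]
  have h1 : X.opL 1 = fun x => (X.mu x.2 + x.1 + 1 / 2) •
      (LinearMap.proj x : (ℕ × B → ℂ) →ₗ[ℂ] ℂ) + (T.index : ℂ) • lower X.H x := by
    funext x
    apply LinearMap.ext
    intro G
    rw [opL_apply, LinearMap.add_apply, LinearMap.smul_apply, LinearMap.smul_apply, lower_apply,
      LinearMap.proj_apply, Finset.sum_range_succ, Finset.sum_range_one]
    obtain ⟨m, a⟩ := x
    simp only [smul_eq_mul]
    have e1 : bra 1 0 (X.mu a + m + 1 / 2) = X.mu a + m + 1 / 2 := by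
      rw [bra_succ_zero, bra_zero_zero]; simp
    rw [e1, bra_top]
    congr 1
    · congr 1
      rw [Finset.sum_eq_single a]
      · have : (m : ℤ) + ((1 : ℕ) : ℤ) - 1 - ((0 : ℕ) : ℤ) = (m : ℤ) := by push_cast; ring
        rw [this, ev_nat]
        simp
      · intro b _ hb
        rw [pow_zero, Matrix.one_apply_ne' hb, zero_mul]
      · intro h
        exact absurd (Finset.mem_univ _) h
    · rw [one_mul, Finset.mul_sum]
      apply Finset.sum_congr rfl
      intro b _
      have : (m : ℤ) + ((1 : ℕ) : ℤ) - 1 - ((1 : ℕ) : ℤ) = (m : ℤ) - 1 := by push_cast; ring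
      rw [this]
      simp only [pow_one, Coh.R, Matrix.smul_apply, smul_eq_mul]
      ring
  have h2 : insD X (X.opL 1) (S.corr g β) I =
      (I.map fun x => X.mu x.2 + x.1 + 1 / 2).sum * S.corr g β I
        - (X.mu X.e + 3 / 2) * S.corr g β ((1, X.e) :: I)
        + (T.index : ℂ) * insD X (lower X.H) (S.corr g β) I := by
    rw [h1, insD_op_add (A := fun x => (X.mu x.2 + x.1 + 1 / 2) •
      (LinearMap.proj x : (ℕ × B → ℂ) →ₗ[ℂ] ℂ)) (A' := fun x => (T.index : ℂ) • lower X.H x),
      insD_op_smul]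
    congr 1
    unfold insD
    rw [ins_diag]
    simp only [LinearMap.smul_apply, LinearMap.proj_apply, smul_eq_mul, Nat.cast_one]
    congr 2
    ring
  have h3 : X.mu X.e = -(T.D : ℂ) / 2 := by
    unfold Coh.mu
    rw [X.p_e]
    push_cast
    ring
  have h4 : (I.map fun x => X.mu x.2 + x.1 + 1 / 2).sum =
      (((I.map fun x => (x.1 : ℤ) + X.p x.2).sum : ℤ) : ℂ) + (1 - (T.D : ℂ)) / 2 * I.length := by
    clear hdil hdiv h2
    induction I with
    | nil => simp
    | cons x I ih =>
      simp only [List.map_cons, List.sum_cons, List.length_cons]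
      rw [ih]
      unfold Coh.mu
      push_cast
      ring
  have h5 : (((I.map fun x => (x.1 : ℤ) + X.p x.2).sum : ℤ) : ℂ) * S.corr g β I =
      ((1 - (g : ℂ)) * (T.D - 3) + T.index * S.deg β + I.length) * S.corr g β I := by
    by_cases h0 : S.corr g β I = 0
    · rw [h0]; ring
    · rw [S.dim_p g β I h0]
      push_cast
      ring
  have h6 : X.R ^ 1 * X.η = (T.index : ℂ) • (X.H * X.η) := by
    simp [Coh.R]
  have h7 : (if g = 0 ∧ β = 0 then two (X.R ^ 1 * X.η) I else 0) =
      (T.index : ℂ) * (if g = 0 ∧ β = 0 then two (X.H * X.η) I else 0) := by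
    rw [h6]
    split_ifs
    · unfold two
      split
      · simp
      · simp
    · simp
  have h8 : (if 1 = 1 ∧ g = 1 ∧ β = 0 ∧ I = [] then X.euler / 16 - X.strMuSq / 4 else 0) =
      (if g = 1 ∧ β = 0 ∧ I = [] then X.euler / 16 - X.strMuSq / 4 else 0) := by simp
  rw [h2, hdil, h3, h4, h7, h8]
  unfold dlt at hdiv
  simp only [quadSum]
  by_cases hc : g = 1 ∧ β = 0 ∧ I = []
  · simp only [hc, and_self, if_true] at hdiv ⊢
    simp only [hc] at h5
    rw [LW.libgoberWood, LW.euler_eq]
    simp only [List.length_nil, Nat.cast_zero, Nat.cast_one] at h5 ⊢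
    linear_combination (T.index : ℂ) * hdiv + h5
  · simp only [hc, if_false] at hdiv ⊢
    linear_combination (T.index : ℂ) * hdiv + h5

end

end Vale.Agent.P269.H471
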